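import Vale.Agent.P095.Mult
import Vale.Agent.P101.Final

/-! The two factor maps of a minimal tensor product. -/

namespace Vale.Agent.P095

open scoped CStarAlgebra TensorProduct MultiplierAlgebra
open Filter Topology
open Vale.Agent.P101

variable {A Z B : Type*} [NonUnitalCStarAlgebra A] [CStarAlgebra Z] [NonUnitalCStarAlgebra B]
  {ι : A ⊗[ℂ] Z →ₗ[ℂ] B}

lemma minNorm_tmul_le {A Z : Type*} [CStarAlgebra A] [CStarAlgebra Z] (a : A) (z : Z) :
    minNorm (a ⊗ₜ[ℂ] z) ≤ ‖a‖ * ‖z‖ :=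
  gns_le (by positivity) fun _ hθ y => prod_tmul_le hθ a z y

lemma IsMinTensor.ind (hι : IsMinTensor ι) {P : B → Prop} (hc : IsClosed {b | P b}) (h0 : P 0)
    (hadd : ∀ x y, P x → P y → P (x + y)) (ht : ∀ a z, P (ι (a ⊗ₜ[ℂ] z))) (b : B) : P b := by
  refine hι.dense.induction_on b hc fun x => ?_
  induction x using TensorProduct.induction_on with
  | zero => rwa [map_zero]
  | tmul a z => exact ht a z
  | add x y hx hy => rw [map_add]; exact hadd _ _ hx hy

lemma IsMinTensor.norm_tmul_le (hι : IsMinTensor ι) (a : A) (z : Z) :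
    ‖ι (a ⊗ₜ[ℂ] z)‖ ≤ ‖a‖ * ‖z‖ := by
  rw [hι.norm_eq, TensorProduct.map_tmul, ← Unitization.norm_inr (𝕜 := ℂ) a]
  exact minNorm_tmul_le _ _

lemma IsMinTensor.cont (hι : IsMinTensor ι) : Continuous fun x : A × Z => ι (x.1 ⊗ₜ[ℂ] x.2) :=
  (((TensorProduct.mk ℂ A Z).compr₂ ι).mkContinuous₂ 1 fun a z => by
    simpa using hι.norm_tmul_le a z).continuous₂

theorem sep_tensor [TopologicalSpace.SeparableSpace A] {Z : Type*} [CStarAlgebra Z]
    (hZ : IsJiangSu Z) {ι : A ⊗[ℂ] Z →ₗ[ℂ] B} (hι : IsMinTensor ι) :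
    TopologicalSpace.SeparableSpace B := by
  have := hZ.separable
  rw [← TopologicalSpace.isSeparable_univ_iff, ← hι.dense.closure_range]
  refine TopologicalSpace.IsSeparable.closure ((TopologicalSpace.isSeparable_range
    hι.cont).span (R := ℂ) |>.mono ?_)
  rintro _ ⟨y, rfl⟩
  induction y using TensorProduct.induction_on with
  | zero => simp
  | tmul b z => exact Submodule.subset_span ⟨(b, z), rfl⟩
  | add y y' hy hy' => rw [map_add]; exact add_mem hy hy'

/-- the first factor -/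
noncomputable def IsMinTensor.left (hι : IsMinTensor ι) : A →⋆ₙₐ[ℂ] B where
  toFun a := ι (a ⊗ₜ[ℂ] 1)
  map_smul' c a := by rw [← TensorProduct.smul_tmul', map_smul]; rfl
  map_zero' := by simp
  map_add' a b := by rw [TensorProduct.add_tmul, map_add]
  map_mul' a b := by rw [hι.map_mul, mul_one]
  map_star' a := by rw [hι.map_star, star_one]

lemma IsMinTensor.left_apply (hι : IsMinTensor ι) (a : A) : hι.left a = ι (a ⊗ₜ[ℂ] 1) := rfl

lemma IsMinTensor.left_inj [Nontrivial Z] (hι : IsMinTensor ι) : Function.Injective hι.left := by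
  refine (injective_iff_map_eq_zero _).2 fun a ha => ?_
  obtain ⟨B', _, ι', h1, -, h3⟩ := exists_minTensor (Unitization ℂ A) Z
  have h4 : (a : Unitization ℂ A) = 0 := (injective_iff_map_eq_zero _).1 h3 _ (by
    rw [← norm_eq_zero, StarAlgHom.comp_apply, h1, inL_apply]
    rw [← norm_eq_zero, hι.left_apply, hι.norm_eq] at ha
    exact ha)
  exact Unitization.inr_injective (R := ℂ) (h4.trans (Unitization.inr_zero ℂ).symm)

lemma IsMinTensor.exists_ext (hι : IsMinTensor ι) (T : Z →ₗ[ℂ] Z) (C : ℝ)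
    (h : ∀ x : Unitization ℂ A ⊗[ℂ] Z,
      minNorm (TensorProduct.map LinearMap.id T x) ≤ C * minNorm x) :
    ∃ L : B →L[ℂ] B, ∀ a y, L (ι (a ⊗ₜ[ℂ] y)) = ι (a ⊗ₜ[ℂ] T y) := by
  refine ⟨(ι ∘ₗ TensorProduct.map LinearMap.id T).extendOfNorm ι, fun a y => ?_⟩
  rw [LinearMap.extendOfNorm_eq hι.dense ⟨C, fun x => ?_⟩]
  · simp
  · rw [LinearMap.comp_apply, hι.norm_eq, hι.norm_eq]
    refine le_of_eq_of_le (congrArg _ ?_) (h _)
    simp only [← LinearMap.comp_apply, ← TensorProduct.map_comp]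
    rfl

lemma IsMinTensor.mext (hι : IsMinTensor ι) {m n : 𝓜(ℂ, B)}
    (h : ∀ a y, m.fst (ι (a ⊗ₜ[ℂ] y)) = n.fst (ι (a ⊗ₜ[ℂ] y))) : m = n :=
  Mu.ext_fst (hι.ind (isClosed_eq (by fun_prop) (by fun_prop)) (by simp)
    (fun x y hx hy => by rw [map_add, map_add, hx, hy]) h)

theorem IsMinTensor.exists_right (hι : IsMinTensor ι) : ∃ ψ : Z →⋆ₐ[ℂ] 𝓜(ℂ, B),
    ∀ z a y, (ψ z).fst (ι (a ⊗ₜ[ℂ] y)) = ι (a ⊗ₜ[ℂ] (z * y)) ∧
      (ψ z).snd (ι (a ⊗ₜ[ℂ] y)) = ι (a ⊗ₜ[ℂ] (y * z)) := by
  choose L hL using fun z : Z => hι.exists_ext (LinearMap.mulLeft ℂ z)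
    (minNorm ((1 : Unitization ℂ A) ⊗ₜ[ℂ] z)) fun x => by
      refine le_of_eq_of_le (congrArg _ ?_) (minNorm_isCSemi.mul _ _)
      induction x using TensorProduct.induction_on with
      | zero => simp
      | tmul a y => simp
      | add x y hx hy => rw [map_add, mul_add, hx, hy]
  choose R hR using fun z : Z => hι.exists_ext (LinearMap.mulRight ℂ z)
    (minNorm ((1 : Unitization ℂ A) ⊗ₜ[ℂ] z)) fun x => by
      rw [mul_comm]
      refine le_of_eq_of_le (congrArg _ ?_) (minNorm_isCSemi.mul _ _)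
      induction x using TensorProduct.induction_on with
      | zero => simp
      | tmul a y => simp
      | add x y hx hy => rw [map_add, add_mul, hx, hy]
  simp only [LinearMap.mulLeft_apply, LinearMap.mulRight_apply] at hL hR
  let m : Z → 𝓜(ℂ, B) := fun z =>
    { fst := L z
      snd := R z
      central := fun x y => by
        refine hι.ind (P := fun x => R z x * y = x * L z y)
          (isClosed_eq (by fun_prop) (by fun_prop)) (by simp)
          (fun x x' hx hx' => by rw [map_add, add_mul, add_mul, hx, hx']) (fun a w => ?_) x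
        refine hι.ind (P := fun y => R z (ι (a ⊗ₜ[ℂ] w)) * y = ι (a ⊗ₜ[ℂ] w) * L z y)
          (isClosed_eq (by fun_prop) (by fun_prop)) (by simp)
          (fun x x' hx hx' => by rw [map_add, mul_add, mul_add, hx, hx']) (fun a' w' => ?_) y
        rw [hL, hR, hι.map_mul, hι.map_mul, mul_assoc] }
  have hm : ∀ z a y, (m z).fst (ι (a ⊗ₜ[ℂ] y)) = ι (a ⊗ₜ[ℂ] (z * y)) := hL
  have hs : ∀ (c : ℂ) z, m (c • z) = c • m z := fun c z => hι.mext fun a y => by
    change _ = c • (m z).fst _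
    rw [hm, hm, smul_mul_assoc, TensorProduct.tmul_smul, map_smul]
  have h1 : m 1 = 1 := hι.mext fun a y => by rw [hm, one_mul, Mu.one_fst_apply]
  exact ⟨{
    toFun := m
    map_one' := h1
    map_mul' := fun z w => hι.mext fun a y => by rw [Mu.mul_fst_apply, hm, hm, hm, mul_assoc]
    map_zero' := by simpa using hs 0 0
    map_add' := fun z w => hι.mext fun a y => by
      change _ = (m z).fst _ + (m w).fst _
      rw [hm, hm, hm, add_mul, TensorProduct.tmul_add, map_add]
    commutes' := fun c => by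
      rw [Algebra.algebraMap_eq_smul_one, hs, h1, Algebra.algebraMap_eq_smul_one]
    map_star' := fun z => hι.mext fun a y => by
      change _ = star (R z (star _))
      rw [hm, hι.map_star, hR, hι.map_star, star_mul, star_star, star_star] },
    fun z a y => ⟨hL z a y, hR z a y⟩⟩

end Vale.Agent.P095
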