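import Vale.Agent.P095.AprX
import Vale.Agent.P095.AprT

/-! Approximately invariant unitary multipliers for the intertwining argument. -/

namespace Vale.Agent.P095

open scoped CStarAlgebra TensorProduct MultiplierAlgebra unitInterval Matrix.Norms.L2Operator
open Filter Topology
open Vale.Agent.P101

universe u v

section step
variable {G : Type*} [Group G] {A : Type*} [NonUnitalCStarAlgebra A] {X : GAlg.{u} G}
  {S : Sys A X} {X' : GAlg.{v} G} {S' : Sys A X'} {Z : Type*} [CStarAlgebra Z]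

/-- the conclusion of one approximation step -/
def Step (S' : Sys A X') (ψ : Z →⋆ₐ[ℂ] X'.E) (FA : Finset A) (FZ : Finset Z) (FG : Finset G)
    (ε : ℝ) : Prop :=
  ∃ v ∈ unitary X'.E, ∀ a ∈ FA, dist (ad v (S'.φ a)) (S'.φ a) ≤ ε ∧
    (∀ z ∈ FZ, ∃ c, dist (ad v (S'.φ c)) (ψ z * S'.φ a) ≤ ε * (‖a‖ + 2)) ∧
    ∀ g ∈ FG, ‖(X'.act g (star v) - star v) * S'.φ a‖ ≤ ε

theorem pullback' (hS : S.Good) {f : X.E →⋆ₐ[ℂ] X'.E} (hf : ∀ a, f (S.φ a) = S'.φ a)
    {ψ : Z →⋆ₐ[ℂ] X'.E} {J : Type} {U : Ultrafilter J} {D : GAlg.{u} G} {D' : GAlg.{v} G}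
    {ι : (Cen S U).E →⋆ₐ[ℂ] D.E} {ι' : (Cen S' U).E →⋆ₐ[ℂ] D'.E} (h : IsModel ι) (h' : IsModel ι')
    {j : D.E →⋆ₐ[ℂ] D'.E} (hj : ∀ x, j (ι x) = ι' (pull f hf tendsto_id x))
    {c : Z → (Cen S' U).E} (hc : ∀ z i, c z i = ψ z) {V : D'.E} (hV : Con V)
    (hV' : ∀ g, D'.act g V = V) (FA : Finset A) (FZ : Finset Z) (FG : Finset G) {ε : ℝ}
    (hε : 0 < ε) (H : ∀ z ∈ FZ, ∃ y, dist (ad V (j y)) (ι' (c z)) ≤ ε) :
    Step S' ψ FA FZ FG ε := by
  obtain ⟨w, hw, rfl⟩ := hV.lift h'.surj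
  have hu : ∀ i, w i ∈ unitary X'.E := fun i => Unitary.map_mem (Cen.ev i) hw
  have key : ∀ᶠ i in U, ∀ a ∈ FA, dist (ad (w i) (S'.φ a)) (S'.φ a) ≤ ε ∧
      (∀ z ∈ FZ, ∃ c, dist (ad (w i) (S'.φ c)) (ψ z * S'.φ a) ≤ ε * (‖a‖ + 2)) ∧
      ∀ g ∈ FG, ‖(X'.act g (star (w i)) - star (w i)) * S'.φ a‖ ≤ ε := by
    refine (eventually_all_finset FA).2 fun a _ => Eventually.and ?_ (Eventually.and
      ((eventually_all_finset FZ).2 fun z hz => ?_) ((eventually_all_finset FG).2 fun g _ => ?_))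
    · refine ((Cen.comm w a).norm.eventually_lt_const (by simpa using hε)).mono fun i hi => ?_
      have e : ad (w i) (S'.φ a) - S'.φ a = (w i * S'.φ a - S'.φ a * w i) * star (w i) := by
        rw [sub_mul, mul_assoc (S'.φ a), (hu i).2, mul_one, ad]
      rw [dist_eq_norm, e, CStarRing.norm_mul_mem_unitary _ (Unitary.star_mem (hu i))]
      exact hi.le
    · obtain ⟨y, hy⟩ := H z hz
      obtain ⟨y, rfl⟩ := h.surj y
      set p := w * pull f hf tendsto_id y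
      have e1 := h'.le (p * star w - c z) a ε hε
      have e2 : Tendsto (fun i => p i * (star (w i) * S'.φ a - S'.φ a * star (w i))) U (𝓝 0) :=
        isBoundedUnder_le_mul_tendsto_zero (isBoundedUnder_of ⟨_, Cen.norm_apply_le p⟩)
          (Cen.comm (star w) a)
      have e3 : ‖ι' (p * star w - c z)‖ ≤ ε := by
        rw [hj, ← map_ad, dist_eq_norm, ← map_sub] at hy
        exact hy
      filter_upwards [e1, e2.norm.eventually_lt_const (show _ < ε by simpa using hε)] with i h1 h2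
      obtain ⟨b, hb⟩ := hS.ideal (y i) a
      refine ⟨b, ?_⟩
      have e : ad (w i) (S'.φ b) - ψ z * S'.φ a = (p * star w - c z) i * S'.φ a -
          p i * (star (w i) * S'.φ a - S'.φ a * star (w i)) := by
        rw [← hf b, ← hb, map_mul, hf, Cen.sub_apply, hc, Cen.mul_apply, Cen.star_apply,
          show p i = w i * f (y i) from rfl, ad]
        noncomm_ring
      rw [dist_eq_norm, e]
      have := mul_le_mul_of_nonneg_right e3 (norm_nonneg a)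
      exact (norm_sub_le _ _).trans (by linarith)
    · have e1 := h'.tend (x := (Cen S' U).act g (star w) - star w)
        (by rw [map_sub, h'.eqv, map_star, map_star, hV', sub_self]) a
      exact (e1.norm.eventually_lt_const (show _ < ε by simpa using hε)).mono fun i hi => hi.le
  obtain ⟨i, hi⟩ := key.exists
  exact ⟨w i, hu i, hi⟩

theorem step_dd (hS : S.Good) {f : X.E →⋆ₐ[ℂ] X'.E} (hf : ∀ a, f (S.φ a) = S'.φ a) (hfe : Eqv f)
    {ψ : Z →⋆ₐ[ℂ] X'.E} (hc : ∀ x z, Commute (f x) (ψ z)) (hψ : ∀ g z, X'.act g (ψ z) = ψ z)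
    {D₀ : GAlg.{u} G} (h₀ : D₀ ∈ Mod S) (hE : IsEmpty (D₀.fix →⋆ₐ[ℂ] ℂ)) {p q : ℕ} (hp : 0 < p)
    (hq : 0 < q) (hpq : p.Coprime q) (ι : Dd (Fin p) (Fin q) →⋆ₐ[ℂ] Z) (U : C(I, Mat p q))
    (hU : ∀ s, U s ∈ unitary _) (h0 : U 0 = 1) (FA : Finset A) (FZ : Finset Z) (FG : Finset G)
    {ε : ℝ} (hε : 0 < ε) (h : ∀ z ∈ FZ, ∃ g : Dd (Fin p) (Fin q), dist (ι g) z ≤ ε ∧
      ∀ s, dist (ad (U s) (g.1 0)) (g.1 s) ≤ ε) : Step S' ψ FA FZ FG (5 * ε) := by
  obtain ⟨k, l, hk, hkl⟩ : ∃ k l, 0 < k ∧ q * l = p * k + 1 := by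
    obtain ⟨n, h1, h2⟩ := Nat.chineseRemainder hpq 0 (q - 1)
    obtain ⟨k, rfl⟩ := (Nat.modEq_zero_iff_dvd).1 h1
    obtain ⟨l, hl⟩ : q ∣ p * k + 1 := by
      rw [← Nat.modEq_zero_iff_dvd]
      have := h2.add_right 1
      rw [Nat.sub_add_cancel hq] at this
      exact this.trans (Nat.modEq_zero_iff_dvd.2 dvd_rfl)
    exact ⟨k + q, l + p, by omega, by rw [mul_add, mul_add, ← hl]; ring⟩
  have hl : 0 < l := Nat.pos_of_ne_zero (by rintro rfl; simp at hkl)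
  have : Nonempty (Fin p) := ⟨⟨0, hp⟩⟩
  have : Nonempty (Fin q) := ⟨⟨0, hq⟩⟩
  have : Nonempty (Fin k) := ⟨⟨0, hk⟩⟩
  have : Nonempty (Fin l) := ⟨⟨0, hl⟩⟩
  have o : Fin q × Fin l ≃ Option (Fin p × Fin k) := Fintype.equivOfCardEq (by simpa using hkl)
  obtain ⟨D, ⟨J, W, ιE, hιE⟩, φ', v, H⟩ := data_fix hS h₀ hE (Classical.arbitrary (Fin p × Fin k))
  obtain ⟨D', ιG, hG⟩ := exists_model S' W
  obtain ⟨j, hje, hj⟩ := lift_model f hf hfe tendsto_id hιE hG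
  let c : Z →⋆ₐ[ℂ] (Cen S' W).E := (Prd.hom fun _ => ψ).codRestrict (cenS S' W) fun z a => by
    simp [← hf, (hc _ z).eq]
  let τ : Z →⋆ₐ[ℂ] D'.fix := (ιG.comp c).codRestrict D'.fix fun z g => by
    rw [StarAlgHom.comp_apply, ← hG.eqv]
    exact congrArg ιG (Cen.ext fun _ => hψ g z)
  obtain ⟨V, hV, hV'⟩ := exists_unitary' hje.fix τ (fun x z => Subtype.ext (by
    obtain ⟨y, hy⟩ := hιE.surj x
    change j x * ιG (c z) = ιG (c z) * j x
    rw [← hy, hj, ← map_mul, ← map_mul]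
    exact congrArg ιG (Cen.ext fun i => hc _ z))) ι o H U hU h0
  refine pullback' hS hf hιE hG hj (c := c) (fun _ _ => rfl) (hV.map D'.fix.subtype) V.2 FA FZ FG
    (by positivity) fun z hz => ?_
  obtain ⟨g, h1, h2⟩ := h z hz
  obtain ⟨y, hy⟩ := hV' g ε h2
  have h3 := (dist_map_le τ _ _).trans h1
  have h4 : dist (ad V (hje.fix y)) (τ z) ≤ 5 * ε :=
    (dist_triangle _ _ _).trans ((add_le_add hy h3).trans_eq (by ring))
  exact ⟨y, h4⟩

theorem step_Z (hS : S.Good) {f : X.E →⋆ₐ[ℂ] X'.E} (hf : ∀ a, f (S.φ a) = S'.φ a) (hfe : Eqv f)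
    {ψ : Z →⋆ₐ[ℂ] X'.E} (hc : ∀ x z, Commute (f x) (ψ z)) (hψ : ∀ g z, X'.act g (ψ z) = ψ z)
    {D₀ : GAlg.{u} G} (h₀ : D₀ ∈ Mod S) (hE : IsEmpty (D₀.fix →⋆ₐ[ℂ] ℂ)) (hZ : IsJiangSu Z)
    (FA : Finset A) (FZ : Finset Z) (FG : Finset G) {ε : ℝ} (hε : 0 < ε) :
    Step S' ψ FA FZ FG (5 * ε) := by
  obtain ⟨p, q, ι, hpq, hι, hd, hL⟩ := hZ
  obtain ⟨m, hm⟩ : ∃ m, ∀ z ∈ FZ, ∃ f ∈ dimDrop (p m) (q m), dist (ι m f) z ≤ ε := by
    refine ((eventually_all_finset (l := atTop) FZ).2 fun z _ => ?_).exists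
    obtain ⟨y, hy, hyz⟩ := hd.exists_dist_lt z hε
    obtain ⟨m, f, hf, rfl⟩ := Set.mem_iUnion.1 hy
    refine (eventually_gt_atTop m).mono fun n hn => ?_
    obtain ⟨k, e, ξ, u, -, -, h⟩ := hL m n hn
    obtain ⟨g, hg, hg', -⟩ := h f hf
    exact ⟨g, hg, by rw [hg', dist_comm]; exact hyz.le⟩
  choose! F hF hFz using hm
  obtain ⟨n, hn, hn'⟩ : ∃ n, m < n ∧ ∀ z ∈ FZ, ∀ s t : I, dist s t ≤ (1 / 2 : ℝ) ^ (n - m) →
      dist (F z s) (F z t) ≤ ε := by
    refine ((eventually_gt_atTop m).and ((eventually_all_finset FZ).2 fun z _ => ?_)).exists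
    obtain ⟨δ, hδ, h⟩ := Metric.uniformContinuous_iff.1
      (CompactSpace.uniformContinuous_of_continuous (F z).continuous) ε hε
    refine (((tendsto_pow_atTop_nhds_zero_of_lt_one (r := (1 / 2 : ℝ)) (by norm_num)
      (by norm_num)).comp (tendsto_sub_atTop_nat m)).eventually_lt_const hδ).mono
      fun n hn s t hst => (h (hst.trans_lt hn)).le
  obtain ⟨k, e, ξ, u, hu, hξ, h⟩ := hL m n hn
  obtain ⟨ι', hι'⟩ := exists_hom_Dd (hι n).1
  obtain ⟨U, hU⟩ : ∃ U : C(I, Mat (p n) (q n)), ∀ s, U s = star (u s) * u 0 :=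
    ⟨star u * ContinuousMap.const _ (u 0), fun _ => rfl⟩
  refine step_dd hS hf hfe hc hψ h₀ hE (hpq n).1 (hpq n).2.1 (hpq n).2.2 ι' U
    (fun s => by rw [hU]; exact mul_mem (Unitary.star_mem (hu s)) (hu 0))
    (by rw [hU]; exact (hu 0).1) FA FZ FG hε fun z hz => ?_
  obtain ⟨g, hg, hg', hgs⟩ := h (F z) (hF z hz)
  refine ⟨⟨g, mem_Dd.2 hg⟩, by rw [hι', hg']; exact hFz z hz, fun s => ?_⟩
  have h1 : ∀ s, g s = ad (star (u s)) (diagAt e ξ (F z) s) := fun s => by simp [ad, hgs]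
  rw [hU]
  dsimp only
  have h2 := ad_star_ad (Unitary.star_mem (hu 0)) (diagAt e ξ (F z) 0)
  rw [star_star] at h2
  rw [h1, h1, ad_mul, h2, dist_ad (Unitary.star_mem (hu s))]
  exact diagAt_le e ξ _ hε.le _ _ fun i => hn' z hz _ _ (hξ i _ _)

theorem step_lim {ψ : Z →⋆ₐ[ℂ] X'.E} (hc : ∀ a z, Commute (S'.φ a) (ψ z))
    (H : ∀ FA FZ FG ε, 0 < ε → Step S' ψ FA FZ FG (5 * ε)) :
    ∃ (L : Filter ((Finset A × Finset Z) × Finset G × ℕ)) (v : _ → X'.E), L.NeBot ∧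
      (∀ x, v x ∈ unitary X'.E) ∧ (∀ a, Tendsto (fun x => ad (v x) (S'.φ a)) L (𝓝 (S'.φ a))) ∧
      (∀ a z, ∃ c : _ → A, Tendsto (fun x => ad (v x) (S'.φ (c x))) L (𝓝 (S'.φ a * ψ z))) ∧
      ∀ g a, Tendsto (fun x => (X'.act g (star (v x)) - star (v x)) * S'.φ a) L (𝓝 0) := by
  classical
  choose v hv h using fun x : (Finset A × Finset Z) × Finset G × ℕ =>
    H x.1.1 x.1.2 x.2.1 (1 / ((x.2.2 : ℝ) + 1)) (by positivity)
  choose! h1 h2 h3 using h
  choose! c hc' using h2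
  let L : Filter ((Finset A × Finset Z) × Finset G × ℕ) := (atTop ×ˢ atTop) ×ˢ atTop ×ˢ atTop
  have h0 : Tendsto (fun x : (Finset A × Finset Z) × Finset G × ℕ => 5 * (1 / ((x.2.2 : ℝ) + 1)))
      L (𝓝 0) := by
    rw [← mul_zero (5 : ℝ)]
    exact (tendsto_one_div_add_atTop_nhds_zero_nat.comp (tendsto_snd.comp tendsto_snd)).const_mul _
  have eA : ∀ a, ∀ᶠ x in L, a ∈ x.1.1 := fun a =>
    ((tendsto_fst.comp tendsto_fst).eventually (eventually_ge_atTop {a})).mono fun _ hx =>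
      Finset.singleton_subset_iff.1 hx
  have eZ : ∀ a, ∀ᶠ x in L, a ∈ x.1.2 := fun a =>
    ((tendsto_snd.comp tendsto_fst).eventually (eventually_ge_atTop {a})).mono fun _ hx =>
      Finset.singleton_subset_iff.1 hx
  have eG : ∀ a, ∀ᶠ x in L, a ∈ x.2.1 := fun a =>
    ((tendsto_fst.comp tendsto_snd).eventually (eventually_ge_atTop {a})).mono fun _ hx =>
      Finset.singleton_subset_iff.1 hx
  refine ⟨L, v, inferInstance, hv, fun a => ?_, fun a z => ⟨fun x => c x a z, ?_⟩, fun g a => ?_⟩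
  · exact tendsto_iff_dist_tendsto_zero.2 (squeeze_zero' (Eventually.of_forall fun _ => dist_nonneg)
      ((eA a).mono fun x hx => h1 x a hx) h0)
  · rw [(hc a z).eq]
    exact tendsto_iff_dist_tendsto_zero.2 (squeeze_zero' (Eventually.of_forall fun _ => dist_nonneg)
      (((eA a).and (eZ z)).mono fun x hx => hc' x a hx.1 z hx.2)
      (by simpa only [zero_mul] using h0.mul_const (‖a‖ + 2)))
  · exact squeeze_zero_norm' (((eA a).and (eG g)).mono fun x hx => h3 x a hx.1 g hx.2) h0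

end step

variable {G : Type*} [Group G] {A : Type u} [NonUnitalCStarAlgebra A] {B : Type*}
  [NonUnitalCStarAlgebra B]

theorem appr_of_noChar (hA : IsSimple A) {α : G →* (A ≃⋆ₐ[ℂ] A)} {Z : Type*} [CStarAlgebra Z]
    (hZ : IsJiangSu Z) {ι : A ⊗[ℂ] Z →ₗ[ℂ] B} (hι : IsMinTensor ι) {β : G →* (B ≃⋆ₐ[ℂ] B)}
    (hβ : ∀ g a z, β g (ι (a ⊗ₜ[ℂ] z)) = ι (α g a ⊗ₜ[ℂ] z)) {D : GAlg.{u} G}
    (hD : D ∈ Mod (canon α)) (h : IsEmpty (D.fix →⋆ₐ[ℂ] ℂ)) :
    ∃ φ : A →⋆ₙₐ[ℂ] B, (∀ a, φ a = ι (a ⊗ₜ[ℂ] 1)) ∧ Function.Injective φ ∧ Appr β φ := by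
  have := hZ.nontrivial
  refine ⟨hι.left, fun _ => rfl, hι.left_inj, fun FA FB FG ε hε => ?_⟩
  obtain ⟨ψ, hψ⟩ := hι.exists_right
  let φ' : A →⋆ₙₐ[ℂ] 𝓜(ℂ, B) := DoubleCentralizer.coeHom.comp hι.left
  have hφ : ∀ a, φ' a = (ι (a ⊗ₜ[ℂ] 1) : 𝓜(ℂ, B)) := fun _ => rfl
  let S' : Sys A (mulG β) :=
    { φ := φ'
      α := fun g => α g
      cov := fun g a => (Mu.ext_coe _ _).trans (congrArg _ (hβ g a 1))
      nrm := fun g a => (StarAlgEquiv.norm_map (α g) a).le }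
  have h1 : ∀ a z, φ' a * ψ z = (ι (a ⊗ₜ[ℂ] z) : 𝓜(ℂ, B)) := fun a z => by
    rw [hφ, ← Mu.coe_snd, (hψ _ _ _).2, one_mul]
  have h2 : ∀ a z, Commute (φ' a) (ψ z) := fun a z => by
    rw [Commute, SemiconjBy, h1, hφ, ← Mu.coe_fst, (hψ _ _ _).1, mul_one]
  let f : Unitization ℂ A →⋆ₐ[ℂ] 𝓜(ℂ, B) := Unitization.starLift φ'
  have hf : ∀ a : A, f a = φ' a := fun a =>
    DFunLike.congr_fun (Unitization.starLift.symm_apply_apply φ') a
  have hf' : ∀ (r : ℂ) (a : A),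
      f (Unitization.inl r + (a : Unitization ℂ A)) = algebraMap ℂ _ r + φ' a :=
    fun r a => by rw [map_add, hf, ← Unitization.algebraMap_eq_inl, AlgHomClass.commutes]
  obtain ⟨L, v, hL, hv, hA', hZ', hG⟩ : ∃ (L : Filter ((Finset A × Finset Z) × Finset G × ℕ))
      (v : _ → 𝓜(ℂ, B)), L.NeBot ∧ (∀ x, v x ∈ unitary 𝓜(ℂ, B)) ∧
      (∀ a, Tendsto (fun x => ad (v x) (φ' a)) L (𝓝 (φ' a))) ∧
      (∀ a z, ∃ c : _ → A, Tendsto (fun x => ad (v x) (φ' (c x))) L (𝓝 (φ' a * ψ z))) ∧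
      ∀ g a, Tendsto (fun x => (Mu.ext (β g) (star (v x)) - star (v x)) * φ' a) L (𝓝 0) :=
    step_lim (S' := S') (ψ := ψ) h2 fun FA FZ FG ε hε =>
    step_Z (canon_good α hA) (S' := S') (f := f) hf (fun g x => by
      induction x using Unitization.ind with
      | inl_add_inr r a =>
        change f (Unitization.starMap _ _) = Mu.ext (β g) (f _)
        rw [hf', map_add, map_add, map_add, Unitization.starMap_inr, Unitization.starMap_inl, hf,
          AlgHomClass.commutes, AlgHomClass.commutes]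
        exact congrArg _ (S'.cov g a).symm) (fun x z => by
      induction x using Unitization.ind with
      | inl_add_inr r a =>
        change Commute (f _) _
        rw [hf']
        exact Commute.add_left (Algebra.commutes r _) (h2 a z))
      (fun g z => hι.mext fun a y => by
        have : (β g).symm (ι (a ⊗ₜ[ℂ] y)) = ι ((α g).symm a ⊗ₜ[ℂ] y) := by
          rw [StarAlgEquiv.symm_apply_eq, hβ, StarAlgEquiv.apply_symm_apply]
        change (Mu.ext (β g) (ψ z)).fst _ = (ψ z).fst _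
        rw [Mu.ext_fst_apply, this, (hψ _ _ _).1, (hψ _ _ _).1, hβ,
          StarAlgEquiv.apply_symm_apply]) hD h hZ FA FZ FG hε
  have hB : ∀ y, ∃ c : _ → A, Tendsto (fun x => ad (v x) (φ' (c x))) L (𝓝 (ι y : 𝓜(ℂ, B))) :=
    fun y => by
      induction y using TensorProduct.induction_on with
      | zero => exact ⟨0, by simp [ad, Mu.coe_zero]⟩
      | tmul b z => exact h1 b z ▸ hZ' b z
      | add y y' hy hy' =>
        obtain ⟨c, hc⟩ := hy
        obtain ⟨c', hc'⟩ := hy'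
        rw [map_add, Mu.coe_add]
        exact ⟨c + c', (hc.add hc').congr fun x => by simp [ad, mul_add, add_mul]⟩
  have hn : ∀ g x, ‖Mu.ext (β g) (star (v x)) - star (v x)‖ ≤ 2 := fun g x => by
    have e1 : ‖star (v x)‖ ≤ 1 := by
      simpa using (CStarRing.norm_mem_unitary_mul 1 (hv x)).trans_le norm_one_le
    have e2 := NonUnitalStarAlgHom.norm_apply_le (Mu.ext (β g)) (star (v x))
    linarith [norm_sub_le (Mu.ext (β g) (star (v x))) (star (v x))]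
  have hG' : ∀ g y, Tendsto (fun x => (Mu.ext (β g) (star (v x)) - star (v x)) *
      (ι y : 𝓜(ℂ, B))) L (𝓝 0) := fun g y => by
    induction y using TensorProduct.induction_on with
    | zero => simp [Mu.coe_zero]
    | tmul b z =>
      have := (hG g b).mul_const (ψ z)
      rw [zero_mul] at this
      exact this.congr fun x => by rw [← h1, ← mul_assoc]
    | add y y' hy hy' => simpa [Mu.coe_add, mul_add] using hy.add hy'
  have e1 : ∀ᶠ x in L, ∀ b ∈ FA, dist (ad (v x) (φ' b)) (φ' b) < ε :=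
    (eventually_all_finset FA).2 fun b _ => Metric.tendsto_nhds.1 (hA' b) ε hε
  have e2 : ∀ᶠ x in L, ∀ b ∈ FB, ∃ c, dist (ad (v x) (φ' c)) (b : 𝓜(ℂ, B)) < ε :=
    (eventually_all_finset FB).2 fun b _ => by
      obtain ⟨y, hy⟩ := hι.dense.exists_dist_lt b hε
      obtain ⟨c, hc⟩ := hB y
      exact ((hc.dist tendsto_const_nhds).eventually_lt_const (by
        rwa [Mu.isometry_coe.dist_eq, dist_comm])).mono fun x hx => ⟨c x, hx⟩
  have e3 : ∀ᶠ x in L, ∀ g ∈ FG, ∀ b ∈ FB,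
      ‖(Mu.ext (β g) (star (v x)) - star (v x)) * (b : 𝓜(ℂ, B))‖ ≤ ε :=
    (eventually_all_finset FG).2 fun g _ => (eventually_all_finset FB).2 fun b _ => by
      obtain ⟨y, hy⟩ := hι.dense.exists_dist_lt b (show 0 < ε / 4 by positivity)
      refine ((hG' g y).norm.eventually_lt_const (show _ < ε / 2 by simpa using hε)).mono
        fun x hx => ?_
      rw [← Mu.isometry_coe.dist_eq, dist_eq_norm] at hy
      have := norm_mul_le_of_le (hn g x) hy.le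
      rw [mul_sub] at this
      linarith [norm_sub_norm_le ((Mu.ext (β g) (star (v x)) - star (v x)) * (b : 𝓜(ℂ, B)))
        ((Mu.ext (β g) (star (v x)) - star (v x)) * (ι y : 𝓜(ℂ, B)))]
  obtain ⟨x, h3, h4, h5⟩ := (e1.and (e2.and e3)).exists
  refine ⟨v x, hv x, fun b hb => ?_, fun b hb => (h4 b hb).imp fun c hc => ?_, fun g hg b hb => ?_⟩
  · have := (h3 b hb).le
    rwa [dist_eq_norm] at this
  · have := hc.le
    rwa [dist_eq_norm] at this
  · have := h5 g hg b hb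
    rwa [← Mu.norm_fst_apply] at this

end Vale.Agent.P095
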