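import Vale.Agent.P101.Move

/-! The unitary on the square is a product of exponentials. -/

namespace Vale.Agent.P095

open scoped CStarAlgebra unitInterval Matrix.Norms.L2Operator
open Vale.Agent.P101

section con
variable {M N : Type*} [CStarAlgebra M] [CStarAlgebra N]

/-- products of exponentials -/
def Con (u : M) : Prop :=
  u ∈ Submonoid.closure (Set.range fun h : selfAdjoint M => (selfAdjoint.expUnitary h : M))

lemma map_expU (f : M →⋆ₐ[ℂ] N) (h : selfAdjoint M) (k : selfAdjoint N) (e : f h = k) :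
    f (selfAdjoint.expUnitary h : M) = (selfAdjoint.expUnitary k : N) := by
  rw [selfAdjoint.expUnitary_coe, selfAdjoint.expUnitary_coe, ← e, ← map_smul]
  exact NormedSpace.map_exp_of_mem_ball (𝕂 := ℂ) f (map_continuous f) _
    ((NormedSpace.expSeries_radius_eq_top ℂ M).symm ▸ edist_lt_top _ _)

lemma Con.map (f : M →⋆ₐ[ℂ] N) {u : M} (h : Con u) : Con (f u) := by
  induction h using Submonoid.closure_induction with
  | mem x hx =>
    obtain ⟨h, rfl⟩ := hx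
    exact Submonoid.subset_closure ⟨⟨f h, h.2.map f⟩, (map_expU f h _ rfl).symm⟩
  | one => rw [map_one]; exact one_mem _
  | mul x y _ _ hx hy => rw [map_mul]; exact mul_mem hx hy

lemma Con.unitary {u : M} (h : Con u) : u ∈ unitary M := by
  induction h using Submonoid.closure_induction with
  | mem x hx => obtain ⟨h, rfl⟩ := hx; exact (selfAdjoint.expUnitary h).2
  | one => exact one_mem _
  | mul x y _ _ hx hy => exact mul_mem hx hy

lemma Con.lift {q : M →⋆ₐ[ℂ] N} (hq : Function.Surjective q) {V : N} (h : Con V) :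
    ∃ u ∈ _root_.unitary M, q u = V := by
  induction h using Submonoid.closure_induction with
  | mem x hx =>
    obtain ⟨k, rfl⟩ := hx
    obtain ⟨x, hx⟩ := hq k
    refine ⟨_, (selfAdjoint.expUnitary (realPart x)).2, map_expU q _ k ?_⟩
    rw [realPart_apply_coe, ← Complex.coe_smul, map_smul, map_add, map_star, hx, k.2.star_eq,
      ← two_smul ℂ, smul_smul]
    simp
  | one => exact ⟨1, one_mem _, map_one _⟩
  | mul x y _ _ hx hy =>
    obtain ⟨u, hu, rfl⟩ := hx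
    obtain ⟨v, hv, rfl⟩ := hy
    exact ⟨u * v, mul_mem hu hv, map_mul _ _ _⟩

lemma con_path (γ : I → M) (hγ : Continuous γ) (hu : ∀ r, γ r ∈ unitary M) (h0 : Con (γ 0)) :
    Con (γ 1) := by
  let δ : I → unitary M := fun r => ⟨γ r * star (γ 0), mul_mem (hu r) (Unitary.star_mem (hu 0))⟩
  have hδ : Continuous δ := (hγ.mul continuous_const).subtype_mk _
  have h1 : δ 1 ∈ pathComponent 1 := ⟨⟨⟨δ, hδ⟩, Subtype.ext (hu 0).2, rfl⟩⟩
  obtain ⟨l, hl⟩ := Unitary.mem_pathComponentOne_iff.1 h1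
  have h2 : ∀ l : List (selfAdjoint M), Con ((l.map selfAdjoint.expUnitary).prod : unitary M).1 :=
    fun l => by
      induction l with
      | nil => exact one_mem _
      | cons h l ih => exact mul_mem (Submonoid.subset_closure ⟨h, rfl⟩) ih
  have h3 := h2 l
  rw [hl] at h3
  have h4 : γ 1 = γ 1 * star (γ 0) * γ 0 := by rw [mul_assoc, (hu 0).1, mul_one]
  rw [h4]
  exact mul_mem h3 h0

end con

variable {M Q : Type*} [CStarAlgebra M] [CStarAlgebra Q]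

noncomputable def Yf (L R : Q →⋆ₐ[ℂ] M) (F G : M) (U : I → Q) (t s : I) : M :=
  R (U s) * F * pw G (s + (1 - s) * max 0 (1 - 2 * (t : ℝ))) *
    (star (L (U 1)) * pw F (s + (1 - s) * max 0 (2 * (t : ℝ) - 1)) * L (U 1)) *
    star (pw G (max 0 (1 - 2 * (t : ℝ)))) * star (L (U t))

noncomputable def Xf (L R : Q →⋆ₐ[ℂ] M) (F G H : M) (U : I → Q) (x : I × I) : M :=
  pw H x.1 * Yf L R F G U x.1 x.2 * star (pw H x.1)

variable {L R : Q →⋆ₐ[ℂ] M} {F G H : M} {S₀ S₁ S₁' T₀ T₁ : StarSubalgebra ℂ M}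

theorem Xf_spec (h : FH L R F G H S₀ S₁ S₁' T₀ T₁) (U : I → Q) (hU : ∀ s, U s ∈ unitary Q)
    (h0 : U 0 = 1) : (∀ x, Xf L R F G H U x ∈ unitary M) ∧
      (∀ s, Xf L R F G H U (0, s) ∈ S₀ ∧ Xf L R F G H U (1, s) ∈ S₁ ∧
        Xf L R F G H U (s, 0) ∈ T₀ ∧ Xf L R F G H U (s, 1) ∈ T₁) ∧ ∀ (g : I → Q) (ε : ℝ),
      Commute G (L (g 0)) → F * L (g 0) = R (g 0) * F → Commute F (L (g 1)) →
      (∀ s, dist (ad (U s) (g 0)) (g s) ≤ ε) →
      ∀ t s, dist (ad (Xf L R F G H U (t, s)) (ad (pw H t) (L (g t)))) (R (g s)) ≤ 4 * ε := by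
  have uL : ∀ s, L (U s) ∈ unitary M := fun s => Unitary.map_mem L (hU s)
  have uR : ∀ s, R (U s) ∈ unitary M := fun s => Unitary.map_mem R (hU s)
  have uF : F ∈ unitary M := by simp [Unitary.mem_iff, h.sF, h.FF]
  have uF' := pw_unitary h.sF h.FF
  have uG := pw_unitary h.sG h.GG
  have uH := pw_unitary h.sH h.HH
  have uY : ∀ t s, Yf L R F G U t s ∈ unitary M := fun t s => mul_mem (mul_mem (mul_mem (mul_mem
    (mul_mem (uR _) uF) (uG _)) (mul_mem (mul_mem (Unitary.star_mem (uL _)) (uF' _)) (uL _)))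
    (Unitary.star_mem (uG _))) (Unitary.star_mem (uL _))
  refine ⟨fun x => mul_mem (mul_mem (uH _) (uY _ _)) (Unitary.star_mem (uH _)),
    fun s => ⟨?_, ?_, ?_, ?_⟩, fun g ε h1 h2 h3 h4 t s => ?_⟩
  · have : Yf L R F G U 0 s =
        R (U s) * F * (G * L (star (U 1)) * G) * pw F s * (G * L (U 1) * G) := by
      have h5 : pw F s = G * (pw F s * G) := by
        rw [(pw_comm h.FG s).eq, ← mul_assoc, h.GG, one_mul]
      simp only [Yf]
      norm_num [pw_one, h0, h.sG, map_star, mul_assoc]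
      conv_lhs => rw [h5]
      simp only [mul_assoc]
    simp only [Xf, this, Set.Icc.coe_zero, pw_zero, one_mul, star_one, mul_one]
    exact mul_mem (mul_mem (mul_mem (mul_mem (h.a₁ _) h.a₂) (h.a₃ _)) (pw_mem h.a₂ _)) (h.a₃ _)
  · have : Yf L R F G U 1 s = R (U s) * pw G s * (F * L (star (U 1)) * F) := by
      simp only [Yf]
      norm_num [pw_one, pw_zero, map_star, mul_assoc, (uL 1).2]
      rw [← mul_assoc F, ← (pw_comm h.FG.symm s).eq, mul_assoc]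
    simp only [Xf, this, Set.Icc.coe_one, pw_one, h.sH]
    exact h.b₄ _ (mul_mem (mul_mem (h.b₁ _) (pw_mem h.b₂ _)) (h.b₃ _))
  · refine mul_mem (mul_mem (pw_mem h.c₃ _) ?_) (star_mem (pw_mem h.c₃ _))
    simp only [Yf]
    rcases le_total (s : ℝ) (1 / 2) with ht | ht
    · rw [max_eq_left (show 2 * (s : ℝ) - 1 ≤ 0 by linarith)]
      norm_num [pw_zero, h0, (uL 1).1, mul_assoc F, (uG _).2]
      exact mul_mem h.c₂ (star_mem (h.c₁ _))
    · rw [max_eq_left (show 1 - 2 * (s : ℝ) ≤ 0 by linarith)]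
      norm_num [pw_zero, h0]
      exact mul_mem (mul_mem h.c₂ (mul_mem (mul_mem (star_mem (h.c₁ _)) (pw_mem h.c₂ _)) (h.c₁ _)))
        (star_mem (h.c₁ _))
  · refine mul_mem (mul_mem (pw_mem h.d₃ _) ?_) (star_mem (pw_mem h.d₃ _))
    refine mul_mem (mul_mem ?_ (star_mem (pw_mem h.d₂ _))) (star_mem (h.d₁ _))
    have : R (U 1) * F * G * (star (L (U 1)) * F * L (U 1)) = G * L (U 1) := by
      rw [← map_star, ← mul_assoc, ← mul_assoc, mul_assoc _ F G, mul_assoc _ _ (L (star _)), h.FGL,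
        ← mul_assoc, map_star, (uR 1).2, one_mul, h.FG, mul_assoc G, h.FF, mul_one]
    norm_num [pw_one, this]
    exact mul_mem h.d₂ (h.d₁ _)
  · have e1 : ∀ t, dist (ad (L (U t)) (L (g 0))) (L (g t)) ≤ ε := fun t => by
      rw [← map_ad]; exact (dist_map_le _ _ _).trans (h4 t)
    have e2 : ∀ t, dist (ad (star (L (U t))) (L (g t))) (L (g 0)) ≤ ε := fun t => by
      rw [← ad_star_ad (uL t) (L (g 0)), dist_ad (Unitary.star_mem (uL t)), dist_comm]; exact e1 t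
    have e3 : dist (ad (R (U s)) (R (g 0))) (R (g s)) ≤ ε := by
      rw [← map_ad]; exact (dist_map_le _ _ _).trans (h4 s)
    have step : ∀ {u x y z : M} {δ δ' : ℝ}, u ∈ unitary M → dist x y ≤ δ → dist (ad u y) z ≤ δ' →
        dist (ad u x) z ≤ δ + δ' := fun {u x y z δ δ'} hu h1 h2 =>
      (dist_triangle _ (ad u y) _).trans (add_le_add (by rwa [dist_ad hu]) h2)
    have step0 : ∀ {u x y z : M} {δ : ℝ}, u ∈ unitary M → dist x y ≤ δ → ad u y = z →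
        dist (ad u x) z ≤ δ := fun hu h1 h2 => by rwa [← h2, dist_ad hu]
    simp only [Xf, Yf, ad_mul, ad_star_ad (uH _)]
    have := step0 (uH t) (step (uR s) (step0 uF (step0 (uG (s + (1 - s) * max 0 (1 - 2 * (t : ℝ))))
      (step (Unitary.star_mem (uL 1)) (step0 (uF' (s + (1 - s) * max 0 (2 * (t : ℝ) - 1))) (step (uL 1)
      (step0 (Unitary.star_mem (uG (max 0 (1 - 2 * (t : ℝ))))) (e2 t) (ad_of_comm (Unitary.star_mem (uG _))
        (by rw [pw_star h.sG]; exact pw_comm h1 _))) (e1 1))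
      (ad_of_comm (uF' _) (pw_comm h3 _))) (e2 1)) (ad_of_comm (uG _) (pw_comm h1 _)))
      (z := R (g 0)) (by rw [ad, h2, h.sF, mul_assoc, h.FF, mul_one])) e3)
      (ad_of_comm (uH _) (pw_comm (h.HR _) _))
    linarith

lemma con_sq [IsClosed (sqA S₀ S₁ T₀ T₁ : Set C(I × I, M))] (W : C(I × (I × I), M))
    (hu : ∀ x, W x ∈ unitary M) (hm : ∀ r s, W (r, 0, s) ∈ S₀ ∧ W (r, 1, s) ∈ S₁ ∧
      W (r, s, 0) ∈ T₀ ∧ W (r, s, 1) ∈ T₁) {X₀ X₁ : sqA S₀ S₁ T₀ T₁}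
    (h₀ : ∀ x, X₀.1 x = W (0, x)) (h₁ : ∀ x, X₁.1 x = W (1, x)) (h : Con X₀) : Con X₁ := by
  let γ : I → sqA S₀ S₁ T₀ T₁ := fun r => ⟨W.curry r, mem_sqA.2 (hm r)⟩
  have e₀ : X₀ = γ 0 := Subtype.ext (ContinuousMap.ext h₀)
  have e₁ : X₁ = γ 1 := Subtype.ext (ContinuousMap.ext h₁)
  rw [e₁]
  exact con_path γ (W.curry.continuous.subtype_mk _) (fun r =>
    ⟨Subtype.ext (ContinuousMap.ext fun x => (hu (r, x)).1),
      Subtype.ext (ContinuousMap.ext fun x => (hu (r, x)).2)⟩) (e₀ ▸ h)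

theorem exists_X' (h : FH L R F G H S₀ S₁ S₁' T₀ T₁) [IsClosed (sqA S₀ S₁ T₀ T₁ : Set C(I × I, M))]
    (U : C(I, Q)) (hU : ∀ s, U s ∈ unitary Q) (h0 : U 0 = 1) :
    ∃ X : sqA S₀ S₁ T₀ T₁, Con X ∧ ∀ x, X.1 x = Xf L R F G H U x := by
  have hL : Continuous L := map_continuous L
  have hR : Continuous R := map_continuous R
  have uF := pw_unitary h.sF h.FF
  have uG := pw_unitary h.sG h.GG
  have uH := pw_unitary h.sH h.HH
  have sp := fun r : I => Xf_spec h (fun s => U (r * s)) (fun _ => hU _) (by simpa using h0)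
  let W : C(I × (I × I), M) := ⟨fun y => Xf L R F G H (fun s => U (y.1 * s)) y.2, by
    unfold Xf Yf; fun_prop⟩
  let W' : C(I × (I × I), M) := ⟨fun y => pw H y.2.1 *
    (pw F (y.1 * -((1 - y.2.2) * (1 - max 0 (2 * (y.2.1 : ℝ) - 1)))) *
      pw G (y.1 * (y.2.2 * (1 - max 0 (1 - 2 * (y.2.1 : ℝ)))))) * star (pw H y.2.1), by fun_prop⟩
  refine ⟨⟨W.curry 1, mem_sqA.2 (sp 1).2.1⟩, ?_, fun x => by simp [W]⟩
  refine con_sq W (fun y => (sp y.1).1 _) (fun r => (sp r).2.1)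
    (X₀ := ⟨W.curry 0, mem_sqA.2 (sp 0).2.1⟩) (fun _ => rfl) (fun _ => rfl) ?_
  refine con_sq W' (fun y => mul_mem (mul_mem (uH _) (mul_mem (uF _) (uG _)))
    (Unitary.star_mem (uH _))) (fun r s => ⟨?_, ?_, ?_, ?_⟩) (X₀ := 1) (fun x => ?_) (fun x => ?_)
    (one_mem _)
  · simp only [W', ContinuousMap.coe_mk]
    norm_num [pw_zero]
    exact pw_mem h.a₂ _
  · simp only [W', ContinuousMap.coe_mk]
    norm_num [pw_zero, pw_one, h.sH]
    exact h.b₄ _ (pw_mem h.b₂ _)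
  · simp only [W', ContinuousMap.coe_mk]
    norm_num [pw_zero]
    exact mul_mem (mul_mem (pw_mem h.c₃ _) (pw_mem h.c₂ _)) (star_mem (pw_mem h.c₃ _))
  · simp only [W', ContinuousMap.coe_mk]
    norm_num [pw_zero]
    exact mul_mem (mul_mem (pw_mem h.d₃ _) (pw_mem h.d₂ _)) (star_mem (pw_mem h.d₃ _))
  · simp [W', pw_zero, (uH _).2]
  · have hF : F = pw F (-1) := by rw [← pw_star h.sF, pw_one, h.sF]
    have hc : ∀ a b, pw G a * pw F b = pw F b * pw G a := fun a b =>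
      (pw_comm (pw_comm h.FG b).symm a).eq
    simp only [W, W', ContinuousMap.coe_mk, ContinuousMap.curry_apply, Xf, Yf, zero_mul, h0,
      map_one, star_one, one_mul, mul_one, Set.Icc.coe_one, pw_star h.sG]
    congr 2
    rw [mul_assoc F, hc, ← mul_assoc, mul_assoc, pw_mul h.GG]
    nth_rw 1 [hF]
    rw [pw_mul h.FF]
    congr 2 <;> ring

theorem transfer' {G' : Type*} [CStarAlgebra G']
    (h : FH L R F G H S₀ S₁ S₁' T₀ T₁) (h₀ : IsClosed (S₀ : Set M))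
    (h₁ : IsClosed (S₁ : Set M)) (h₂ : IsClosed (T₀ : Set M)) (h₃ : IsClosed (T₁ : Set M))
    (Λ : sqA S₀ S₁ T₀ T₁ →⋆ₐ[ℂ] G') (U : C(I, Q)) (hU : ∀ s, U s ∈ unitary Q) (h0 : U 0 = 1) :
    ∃ V : G', Con V ∧ ∀ (g : C(I, Q)) (ε : ℝ), Commute G (L (g 0)) → F * L (g 0) = R (g 0) * F →
      Commute F (L (g 1)) → L (g 0) ∈ S₀ → L (g 1) ∈ S₁' → R (g 0) ∈ T₀ → R (g 1) ∈ T₁ →
      (∀ s, dist (ad (U s) (g 0)) (g s) ≤ ε) → ∃ Y₁ Y₂ : sqA S₀ S₁ T₀ T₁,
      (∀ t s, Y₁.1 (t, s) = ad (pw H t) (L (g t))) ∧ (∀ t s, Y₂.1 (t, s) = R (g s)) ∧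
      dist (ad V (Λ Y₁)) (Λ Y₂) ≤ 4 * ε := by
  have := sqA_closed h₀ h₁ h₂ h₃
  obtain ⟨X', uX', hX'⟩ := exists_X' h U hU h0
  have hX := (Xf_spec h U hU h0).2.2
  refine ⟨Λ X', uX'.map _, fun g ε h1 h2 h3 h4 h5 h6 h7 hg => ?_⟩
  have hL : Continuous L := map_continuous L
  have hR : Continuous R := map_continuous R
  refine ⟨⟨⟨fun z => ad (pw H z.1) (L (g z.1)), by unfold ad; fun_prop⟩,
    mem_sqA.2 fun s => ⟨by simpa [ad, pw_zero] using h4, by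
      simpa [ad, pw_one, h.sH] using h.b₄ _ h5,
      mul_mem (mul_mem (pw_mem h.c₃ _) (h.c₁ _)) (star_mem (pw_mem h.c₃ _)),
      mul_mem (mul_mem (pw_mem h.d₃ _) (h.d₁ _)) (star_mem (pw_mem h.d₃ _))⟩⟩,
    ⟨⟨fun z => R (g z.2), by fun_prop⟩, mem_sqA.2 fun s => ⟨h.a₁ _, ?_, h6, h7⟩⟩,
    fun _ _ => rfl, fun _ _ => rfl, ?_⟩
  · have := h.b₄ _ (h.b₁ (g s))
    rwa [(h.HR _).eq, mul_assoc, h.HH, mul_one] at this
  · have e : ∀ Y₁ Y₂, dist (ad (Λ X') (Λ Y₁)) (Λ Y₂) ≤ dist (ad X' Y₁) Y₂ := fun Y₁ Y₂ => by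
      have e := map_ad Λ X' Y₁
      rw [← e]
      have e' := dist_map_le Λ (ad X' Y₁) Y₂
      exact e'
    refine (e _ _).trans ?_
    rw [Subtype.dist_eq, ContinuousMap.dist_le (by linarith [dist_nonneg.trans (hg 0)])]
    intro z
    have := hX g ε h1 h2 h3 hg z.1 z.2
    rw [← hX'] at this
    exact this

section
variable {a b k l : Type} [Fintype a] [Fintype b] [Fintype k] [Fintype l] [DecidableEq a]
  [DecidableEq b] [DecidableEq k] [DecidableEq l]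

theorem exists_unitary' [Nonempty a] [Nonempty b] [Nonempty k] [Nonempty l] {E G Z : Type*}
    [CStarAlgebra E] [CStarAlgebra G] [CStarAlgebra Z] (j : E →⋆ₐ[ℂ] G) (τ : Z →⋆ₐ[ℂ] G)
    (hc : ∀ x z, Commute (j x) (τ z)) (ι : Dd a b →⋆ₐ[ℂ] Z) (o : b × l ≃ Option (a × k))
    {i₀ : a × k} {φ : a × k → a × k → E} {v : Fin 1 → E} (H : Data i₀ φ v)
    (U : C(I, Matrix (a × b) (a × b) ℂ)) (hU : ∀ s, U s ∈ unitary _) (h0 : U 0 = 1) :
    ∃ V : G, Con V ∧ ∀ (g : Dd a b) (ε : ℝ), (∀ s, dist (ad (U s) (g.1 0)) (g.1 s) ≤ ε) →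
      ∃ y, dist (ad V (j y)) (τ (ι g)) ≤ 4 * ε := by
  obtain ⟨h, a', b', m, hh, hs, hG⟩ := H.GA o
  obtain ⟨Γ, hΓ, hΓ'⟩ := exists_Gamma j τ hc hh hs hG (Classical.arbitrary _) i₀
  obtain ⟨Θ, hΘ, hΘ'⟩ := exists_Theta ι (Equiv.refl _)
    ((twist_invol o).toPerm.trans (Equiv.prodComm _ _)) (Classical.arbitrary _) i₀
    (Classical.arbitrary _)
  have hF := fh (twist_invol o)
  obtain ⟨V, hV, hV'⟩ := transfer' hF (AS_closed _) (AS_closed _) (AS_closed _) (AS_closed _)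
    (Γ.comp Θ) U hU h0
  refine ⟨V, hV, fun g ε hg => ?_⟩
  obtain ⟨⟨x, hx⟩, y, hy⟩ := g.2
  replace hx : g.1 0 = amp (Equiv.refl _) x := hx.symm
  replace hy : g.1 1 = amp (Equiv.prodComm _ _) y := hy.symm
  have hA : ∀ {N α γ : Type} [Fintype N] [Fintype α] [Fintype γ] [DecidableEq N] [DecidableEq α]
      [DecidableEq γ] (e : N ≃ α × γ) (x : Matrix α α ℂ), ampHom e x = amp e x := fun _ _ => rfl
  refine (hV' g.1 ε ?_ ?_ ?_ (mem_AS_of ?_ ?_) (mem_AS_of ?_ ?_)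
    (mem_AS_of ?_ ?_) (mem_AS_of ?_ ?_) hg).elim fun Y₁ ⟨Y₂, h1, h2, h3⟩ => ?_
  rotate_right
  · refine (hΓ' (Θ Y₁) (hΘ' Y₁ fun t => ?_)).imp fun z hz => ?_
    swap
    · rwa [← hz, ← hΓ _ _ (hΘ Y₂ g h2)]
    · have hW : pm (Prod.map (twist o) (id : a × b → a × b)) ∈ AS (Equiv.refl _) := by
        refine mem_AS_of ?_ ?_ <;> intro i j c c' <;> simp +contextual [pm_apply, Prod.ext_iff]
      have hL : ampHom (eL a b k l) (g.1 t) ∈ AS (Equiv.refl _) := by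
        refine mem_AS_of ?_ ?_ <;> intro i j c c' <;>
          simp +contextual [hA, amp_apply, eL, Prod.ext_iff]
      obtain ⟨w, hw⟩ := mul_mem (mul_mem (pw_mem hW t) hL) (star_mem (pw_mem hW t))
      exact ⟨w, fun s => (h1 t s).trans hw.symm⟩
  · change _ * _ = _ * _
    rw [pm_mul, mul_pm fG_inv, hx]
    ext ⟨⟨⟨i₁, k₁⟩, j₁, l₁⟩, m₁, n₁⟩ ⟨⟨⟨i₂, k₂⟩, j₂, l₂⟩, m₂, n₂⟩
    simp [hA, amp_apply, eL, fG]
    grind
  · rw [pm_mul, mul_pm fF_inv, hx]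
    ext ⟨⟨⟨i₁, k₁⟩, j₁, l₁⟩, m₁, n₁⟩ ⟨⟨⟨i₂, k₂⟩, j₂, l₂⟩, m₂, n₂⟩
    simp [hA, amp_apply, eL, fF]
    grind
  · change _ * _ = _ * _
    rw [pm_mul, mul_pm fF_inv, hy]
    ext ⟨⟨⟨i₁, k₁⟩, j₁, l₁⟩, m₁, n₁⟩ ⟨⟨⟨i₂, k₂⟩, j₂, l₂⟩, m₂, n₂⟩
    simp [hA, amp_apply, eL, fF]
    grind
  all_goals
    intro i j c c'
    simp +contextual [hA, amp_apply, eL, eS, eT₀, eT₁, hx, hy, Prod.ext_iff]
  all_goals grind

end

end Vale.Agent.P095
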