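import Vale.Agent.P095.Coin2

/-! Invariant independent selectors. -/

namespace Vale.Agent.P095

open scoped CStarAlgebra ComplexConjugate Pointwise symmDiff
open Filter Topology Finset
open Vale.Agent.P101

attribute [local instance] CStarAlgebra.spectralOrder CStarAlgebra.spectralOrderedRing

universe u

variable {G : Type*} [Group G] {C : Set (TAlg.{u} G)}

lemma exists_exh (G : Type*) [Countable G] [Nonempty G] :
    ∃ K : ℕ → Finset G, ∀ g, ∀ᶠ n in atTop, g ∈ K n := by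
  classical
  obtain ⟨f, hf⟩ := exists_surjective_nat G
  refine ⟨fun n => (range n).image f, fun g => ?_⟩
  obtain ⟨k, rfl⟩ := hf g
  exact (eventually_gt_atTop k).mono fun n hn => mem_image_of_mem _ (mem_range.2 hn)

lemma ev_small {ε : ℝ} (hε : 0 < ε) : ∀ᶠ n : ℕ in atTop, (1 : ℝ) / (n + 1) ≤ ε :=
  (tendsto_one_div_add_atTop_nhds_zero_nat.eventually_lt_const hε).mono fun _ h => h.le

lemma sum_smul_finset [DecidableEq G] {M : Type*} [AddCommMonoid M] (h : G) (F : Finset G)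
    (f : G → M) : ∑ g ∈ h • F, f g = ∑ g ∈ F, f (h * g) :=
  sum_image fun _ _ _ _ h => mul_left_cancel h

lemma one_sub_pow_le {x : ℝ} (h0 : 0 ≤ x) (h1 : x ≤ 1) (r : ℕ) : (1 - x) ^ r * (1 + r * x) ≤ 1 :=
  calc _ ≤ (1 - x) ^ r * (1 + x) ^ r := by
        gcongr; exact one_add_mul_le_pow (by linarith) r
    _ = (1 - x ^ 2) ^ r := by rw [← mul_pow]; ring
    _ ≤ 1 := pow_le_one₀ (by nlinarith) (by nlinarith)

lemma nq_unitary {E : Type*} [CStarAlgebra E] {τ : E →ₗ[ℂ] ℂ} (ht : IsTr τ) {u v : E}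
    (hu : u ∈ unitary E) (hv : v ∈ unitary E) : nq τ (v - u) ^ 2 ≤ 2 * ‖τ (star u * v) - τ 1‖ := by
  have h1 := Complex.abs_re_le_norm (τ (star u * v) - τ 1)
  rw [nq_sq ht.pos]
  simp only [star_sub, mul_sub, sub_mul, hu.1, hv.1, map_sub, ht.one, ht.pos.herm u v,
    Complex.sub_re, Complex.conj_re, Complex.one_re] at h1 ⊢
  linarith [neg_le_abs ((τ (star u * v)).re - 1)]

theorem Cls.haar_ap [DecidableEq G] (hC : Cls C) (hG : IsAmenable G) (K : Finset G) (N : ℕ) {ε : ℝ}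
    (hε : 0 < ε) : ∃ Q ∈ C, ∃ Ω ∈ unitary Q.E, ∀ τ ∈ Q.T,
      (∀ g ∈ K, nq τ (Q.act g Ω - Ω) ≤ ε) ∧ ∀ n, n ≠ 0 → n ≤ N → ‖τ (Ω ^ n)‖ ≤ ε := by
  obtain ⟨Q, hQ, W, hW, h⟩ := hC.haar
  set L := 4 / ε with hL
  have hL0 : 0 < L := by positivity
  obtain ⟨F, hF, hF'⟩ := hG K (ε ^ 2 / (512 * (L + 1))) (by positivity)
  have hF0 : (0 : ℝ) < F.card := by exact_mod_cast hF.card_pos
  set p := 2048 * F.card with hp
  have hp0 : 0 < p := by have := hF.card_pos; omega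
  have hp1 : (1 : ℝ) ≤ p := by exact_mod_cast hp0
  have hζ := Complex.isPrimitiveRoot_exp p hp0.ne'
  set ζ := Complex.exp (2 * Real.pi * Complex.I / p)
  have hζ1 : ‖ζ‖ = 1 := hζ.norm'_eq_one hp0.ne'
  set c := √((F.card : ℝ)⁻¹)
  have hc' : c ^ 2 = (F.card : ℝ)⁻¹ := Real.sq_sqrt (by positivity)
  have hc : c ^ 2 * F.card = 1 := by rw [hc', inv_mul_cancel₀ hF0.ne']
  let V : G → Q.E := fun g => Q.act g W
  have hV : ∀ g, V g ∈ unitary _ := fun g => Unitary.map_mem _ hW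
  have hV' : ∀ τ ∈ Q.T, ∀ g n, n ≠ 0 → τ (V g ^ n) = 0 := fun τ hτ g n hn => by
    simpa using haar_act (fun w hw => h w hw τ hτ) 1 g n hn
  set s := sx p ζ c F V with hs
  have hsa : IsSelfAdjoint s := sx_sa ..
  have hs1 : ‖s‖ ≤ 1 := norm_sx hζ1 hV hc.le
  have hs0 : ∀ τ ∈ Q.T, τ s = 0 := fun τ hτ => by
    have h1 : ∀ k : ℕ, τ (CFC.sqrt (Mx p c F fun g => ζ ^ k • V g)) = τ (CFC.sqrt (Mx p c F V)) :=
      fun k => by
        obtain ⟨S, _, π₁, π₂, X, a1, a2, a3⟩ := double (hC.tr hQ hτ) (fun w hw => h w hw τ hτ)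
          (z := ζ ^ k) (by simp [hζ1])
        have := a3 (CFC.sqrt (Mx p c F X))
        simpa only [map_Mx, a1, a2] using this.symm
    simp [hs, sx, h1, hp0.ne']
  have hsg : ∀ g, Q.act g s = sx p ζ c (g • F) V := fun g => by
    rw [hs, map_sx]
    simp only [sx, Mx, sum_smul_finset, V, Q.act_mul]
  set v : ℝ := (16 * p : ℝ)⁻¹ with hv
  have hv0 : 0 < v := by positivity
  have hv1 : v ≤ 1 := inv_le_one_of_one_le₀ (by linarith)
  obtain ⟨t, ht0, ht1, ht2⟩ : ∃ t : ℝ, 0 < t ∧ (N + 1) * t ≤ v / 4 ∧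
      32 * (L + 1) * t ≤ v * ε ^ 2 := by
    obtain ⟨t, h1, h2⟩ := exists_pos_mul_lt (show 0 < v / 4 by positivity) (N + 1)
    obtain ⟨t', h3, h4⟩ := exists_pos_mul_lt (show 0 < v * ε ^ 2 by positivity) (32 * (L + 1))
    exact ⟨min t t', by positivity, (mul_le_mul_of_nonneg_left (min_le_left _ _)
      (by positivity)).trans h2.le, (mul_le_mul_of_nonneg_left (min_le_right _ _)
      (by positivity)).trans h4.le⟩
  have ht3 : t ≤ 1 := by nlinarith only [Nat.cast_nonneg (α := ℝ) N, ht0, ht1, hv1]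
  have ht4 : t ^ 2 * v ≤ 1 := mul_le_one₀ (pow_le_one₀ ht0.le ht3) hv0.le hv1
  set r := ⌈L / (t ^ 2 * v)⌉₊
  have hr1 : L ≤ r * (t ^ 2 * v) := (div_le_iff₀ (by positivity)).1 (Nat.le_ceil _)
  have hr2 : r * (t ^ 2 * v) ≤ L + 1 := by
    have := (Nat.ceil_lt_add_one (show 0 ≤ L / (t ^ 2 * v) by positivity)).le
    have := mul_le_mul_of_nonneg_right this (show 0 ≤ t ^ 2 * v by positivity)
    rw [add_mul, div_mul_cancel₀ _ (by positivity)] at this
    linarith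
  obtain ⟨Q', hQ', J, H⟩ := hC.mp hQ r
  have hu := ex_unitary t hsa
  refine ⟨Q', hQ', J fun _ => ex t s, H.unitary fun _ => hu, fun τ hτ => ⟨fun g hg => ?_,
    fun n hn hn' => ?_⟩⟩
  · have hu' : Q.act g (ex t s) ∈ unitary _ := Unitary.map_mem _ hu
    have h1 := nq_unitary (hC.tr hQ' hτ) (H.unitary fun _ => hu) (H.unitary fun _ => hu')
    rw [← H.star, ← H.mul, ← H.one] at h1
    have h2 := H.sub_le (x := star (ex t s) * Q.act g (ex t s)) (y := 1)
      (r := t ^ 2 / 2 * (16 * (ε ^ 2 / (512 * (L + 1)) * (16 * v))) + 8 * t ^ 3) (fun σ hσ => by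
        have hσ' := hC.tr hQ hσ
        refine ⟨(st_norm_le hσ'.st _).trans (norm_unitary_le (mul_mem (Unitary.star_mem hu) hu')),
          by simp [hσ'.one], ?_⟩
        rw [map_ex _ _ hsa]
        refine (rob_ex hσ' ht0.le ht3 hsa (hsa.map _) hs1 ((Q.norm_act g s).trans_le hs1) (hs0 σ hσ)
          (hs0 _ (hC.inv hQ hσ g))).trans ?_
        gcongr
        have h3 := pow_le_pow_left₀ (nq_nonneg _) (rob_sx hσ' hp0 hζ1 c (g • F) F hV (hV' σ hσ)) 2
        rw [mul_pow, Real.sq_sqrt (by positivity), ← hsg] at h3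
        refine h3.trans ?_
        have h4 := hF' g hg
        rw [hc', show 16 * v = (p : ℝ)⁻¹ by rw [hv]; field_simp, ← div_eq_inv_mul]
        rw [← div_le_iff₀ hF0] at h4
        exact mul_le_mul (by norm_num) (mul_le_mul_of_nonneg_right h4 (by positivity))
          (by positivity) (by norm_num)) hτ
    rw [H.act]
    refine abs_le_of_sq_le_sq' (h1.trans ((mul_le_mul_of_nonneg_left h2 zero_le_two).trans ?_))
      hε.le |>.2
    have h3 : r * (t ^ 2 * v) * (ε ^ 2 / (L + 1)) ≤ ε ^ 2 := by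
      rw [← mul_div_assoc, div_le_iff₀ (by positivity)]
      linarith only [mul_le_mul_of_nonneg_right hr2 (sq_nonneg ε)]
    have h4 : r * t ^ 3 * 32 ≤ ε ^ 2 := by
      refine le_of_mul_le_mul_left ?_ hv0
      linarith only [mul_le_mul_of_nonneg_right hr2 ht0.le, ht2, mul_pos hv0 ht0,
        mul_le_mul_of_nonneg_left hv1 (show 0 ≤ r * t ^ 3 by positivity)]
    have h5 : ε ^ 2 / (512 * (L + 1)) = ε ^ 2 / (L + 1) / 512 := by field_simp
    rw [h5]
    linarith only [h3, h4, sq_nonneg ε]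
  · have h1 : ∀ n : ℕ, (J fun _ => ex t s) ^ n = J fun _ => ex t s ^ n := fun n => by
      induction n with
      | zero => simp only [pow_zero]; exact H.one.symm
      | succ n ih => rw [pow_succ, ih, ← H.mul]; simp only [pow_succ]; rfl
    have h2 : (1 : ℝ) ≤ n := by exact_mod_cast Nat.pos_of_ne_zero hn
    have h3 : (n : ℝ) ≤ N := by exact_mod_cast hn'
    rw [h1, ex_pow t hsa]
    refine (H.norm_le (r := 1 - t ^ 2 * v / 4) (fun σ hσ => (tr_ex (hC.tr hQ hσ) (by positivity)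
      (by nlinarith only [ht1, h3, ht0]) hsa hs1 (hs0 σ hσ) (var_sx (hC.tr hQ hσ) hζ hV (hV' σ hσ) hc hp0
        hp.ge)).trans ?_) hτ).trans ?_
    · gcongr; nlinarith only [h2, ht0]
    · have h4 := one_sub_pow_le (x := t ^ 2 * v / 4) (by positivity) (by linarith) r
      have h5 : 1 ≤ ε * (1 + r * (t ^ 2 * v / 4)) := by
        have : ε * L = 4 := by rw [hL]; field_simp
        linarith only [this, hε, mul_le_mul_of_nonneg_left hr1 hε.le]
      exact le_of_mul_le_mul_right (h4.trans h5) (by positivity)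

variable [DecidableEq G] [Countable G]

theorem Cls.haar_inv (hC : Cls C) (hG : IsAmenable G) : ∃ Q ∈ C, ∃ Ω ∈ unitary Q.E,
    (∀ g, Q.act g Ω = Ω) ∧ ∀ τ ∈ Q.T, ∀ n, n ≠ 0 → τ (Ω ^ n) = 0 := by
  obtain ⟨K, hK⟩ := exists_exh G
  choose Q hQ W hW h using fun n => hC.haar_ap hG (K n) n (ε := 1 / (n + 1)) (by positivity)
  obtain ⟨Q', hQ', Θ, H⟩ := hC.up' Q hQ
  let W' : Prd fun n => (Q n).E := Prd.mk W ⟨1, fun n => norm_unitary_le (hW n)⟩
  refine ⟨Q', hQ', Θ W', Unitary.map_mem Θ ⟨Prd.ext fun n => (hW n).1, Prd.ext fun n => (hW n).2⟩,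
    H.fix W' fun g ε hε => ?_, fun τ hτ k hk => ?_⟩
  · filter_upwards [hK g, ev_small hε] with n h1 h2 σ hσ using ((h n σ hσ).1 g h1).trans h2
  rw [← map_pow, ← norm_le_zero_iff]
  refine H.norm τ hτ _ 0 fun ε hε => ?_
  filter_upwards [eventually_ge_atTop k, ev_small hε] with n h1 h2 σ hσ
  rw [zero_add, show (W' ^ k) n = W n ^ k from map_pow (Prd.ev n) W' k]
  exact ((h n σ hσ).2 k hk h1).trans h2

/-- steep ramps -/
noncomputable def fr (n : ℕ) (t : ℝ) : ℝ := max 0 (min 1 (2⁻¹ + (n + 1) ^ 4 * t))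

lemma fr_cont (n : ℕ) : Continuous (fr n) := by unfold fr; fun_prop

lemma fr_mem (n : ℕ) (t : ℝ) : 0 ≤ fr n t ∧ fr n t ≤ 1 :=
  ⟨le_max_left _ _, max_le zero_le_one (min_le_left _ _)⟩

lemma coin_est {E : Type*} [CStarAlgebra E] {σ : E →ₗ[ℂ] ℂ} (hσ' : IsTr σ) {Ω : E}
    (hΩ : Ω ∈ unitary E) (h2 : ∀ n, n ≠ 0 → σ (Ω ^ n) = 0) (n : ℕ) {y : E}
    (hy : y = cfc (fun t => fr n t * fr n t - fr n t) (Ω + star Ω)) : nq σ y ≤ 2 * (1 / (n + 1)) := by
  have hsa := IsSelfAdjoint.add_star_self Ω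
  have := fr_cont n
  have hy1 : ‖y‖ ≤ 1 := hy ▸ norm_cfc_le zero_le_one fun t _ => by
    rw [Real.norm_eq_abs, abs_le]; constructor <;> nlinarith [fr_mem n t]
  have hy2 : ‖(Ω + star Ω) * y‖ ≤ ((n + 1 : ℝ) ^ 4)⁻¹ := by
    rw [hy]
    nth_rw 1 [← cfc_id' ℝ (Ω + star Ω) hsa]
    rw [← cfc_mul ..]
    refine norm_cfc_le (by positivity) fun t _ => ?_
    by_cases ht : |t| ≤ ((n + 1 : ℝ) ^ 4)⁻¹
    · rw [norm_mul]
      refine (mul_le_of_le_one_right (norm_nonneg _) ?_).trans ht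
      rw [Real.norm_eq_abs, abs_le]; constructor <;> nlinarith [fr_mem n t]
    · rw [not_le, inv_lt_iff_one_lt_mul₀' (by positivity)] at ht
      have : fr n t * fr n t - fr n t = 0 := by
        rcases abs_cases t with ⟨h, -⟩ | ⟨h, -⟩ <;> rw [h] at ht
        · simp only [fr]; rw [min_eq_left (by linarith)]; simp
        · simp only [fr]; rw [max_eq_left (min_le_of_right_le (by linarith))]; simp
      simp only [this, mul_zero, norm_zero]; positivity
  have hV : -(Ω * Ω) ∈ unitary E := by simpa using smul_unitary (z := -1) (by simp) (mul_mem hΩ hΩ)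
  set V := -(Ω * Ω) with hVd
  have hp : 0 < (n + 1) ^ 2 := by positivity
  have h3 := tr_Pk hσ' hp hV fun k hk => by
    rw [hVd, neg_pow, ← sq, ← pow_mul, ← neg_one_smul ℂ, smul_pow, one_pow, smul_mul_assoc, one_mul,
      map_smul, h2 _ (by omega), smul_zero]
  have h4 : nq σ (Pk ((n + 1) ^ 2) V) ≤ 1 / (n + 1) := nq_le_of_sq (by positivity) (by simp [h3])
  have h5 : ∀ j : ℕ, ‖y - V ^ j * y‖ ≤ j * ((n + 1 : ℝ) ^ 4)⁻¹ := fun j => by
    induction j with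
    | zero => simp
    | succ j ih =>
      have : y - V ^ (j + 1) * y = (y - V ^ j * y) + V ^ j * Ω * ((Ω + star Ω) * y) := by
        rw [pow_succ, mul_assoc _ Ω, ← mul_assoc Ω, mul_add, hΩ.2, hVd]; noncomm_ring
      rw [this, Nat.cast_succ, add_mul (j : ℝ), one_mul]
      exact norm_add_le_of_le ih (by rwa [CStarRing.norm_mem_unitary_mul _ (mul_mem (pow_mem hV j) hΩ)])
  have h6 : ‖y - Pk ((n + 1) ^ 2) V * y‖ ≤ 1 / (n + 1) := by
    have : y - Pk ((n + 1) ^ 2) V * y = ((((n + 1) ^ 2 : ℕ) : ℂ))⁻¹ •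
        ∑ j ∈ range ((n + 1) ^ 2), (y - V ^ j * y) := by
      rw [sum_sub_distrib, sum_const, card_range, ← Nat.cast_smul_eq_nsmul ℂ, smul_sub, smul_smul,
        inv_mul_cancel₀ (by exact_mod_cast hp.ne'), one_smul, Pk, smul_mul_assoc, sum_mul]
    rw [this, norm_smul]
    refine (mul_le_mul_of_nonneg_left (norm_sum_le_of_le _
      (n := fun _ => (n + 1 : ℝ) ^ 2 * ((n + 1 : ℝ) ^ 4)⁻¹) fun j hj => (h5 j).trans ?_)
      (norm_nonneg _)).trans ?_
    · gcongr; exact_mod_cast (mem_range.1 hj).le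
    · simp only [norm_inv, Complex.norm_natCast, sum_const, card_range, nsmul_eq_mul]
      push_cast
      field_simp
      nlinarith [Nat.cast_nonneg (α := ℝ) n]
  have h7 := hσ'.pos.nq_add (y - Pk ((n + 1) ^ 2) V * y) (Pk ((n + 1) ^ 2) V * y)
  rw [sub_add_cancel] at h7
  linarith [(st_nq_le hσ'.st _).trans h6, (hσ'.nq_mul_le _ _).trans
    (mul_le_mul h4 hy1 (norm_nonneg _) (by positivity))]

lemma coin_tr {Q : GAlg.{u} G} {σ : Q.E →ₗ[ℂ] ℂ} (hσ' : IsTr σ) {Ω : Q.E}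
    (hΩ : Ω ∈ unitary Q.E) (h1 : ∀ g, Q.act g Ω = Ω) (h2 : ∀ n, n ≠ 0 → σ (Ω ^ n) = 0) (n : ℕ) :
    σ (cfc (fr n) (Ω + star Ω)) = 2⁻¹ := by
  have hsa : ∀ {E : Type u} [CStarAlgebra E] (x : E), IsSelfAdjoint (x + star x) := fun x =>
    IsSelfAdjoint.add_star_self x
  obtain ⟨S, _, π₁, π₂, X, a1, a2, a3⟩ := double (W := Ω) hσ' (fun w hw => by
    have : ∀ w, ev Q Ω w = ((⟨Ω, hΩ⟩ : unitary Q.E) ^ ch w : unitary Q.E) := fun w => by
      induction w with
      | nil => simp [ev, ch]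
      | cons p w ih =>
        rw [ev, ch, zpow_add, ih]
        cases p.2 <;> simp [map_star, h1, ← Unitary.star_eq_inv]
    rw [this]
    obtain ⟨k, hk | hk⟩ := (ch w).eq_nat_or_neg <;> rw [hk] at hw ⊢
    · simpa using h2 k (by simpa using hw)
    · simp [← Unitary.star_eq_inv, pos_star hσ'.pos, h2 k (by simpa using hw), -star_pow])
    (z := -1) (by simp)
  have h3 := a3 (cfc (fr n) (X 1 + star (X 1)))
  simp only [map_cfc_real _ (hsa _) (fr_cont n), map_add, map_star, a1, a2, h1, neg_smul, one_smul,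
    star_neg, ← neg_add, ← cfc_comp_neg _ _ (fr_cont n).continuousOn (hsa Ω)] at h3
  have h4 : cfc (fr n) (Ω + star Ω) + cfc (fun t => fr n (-t)) (Ω + star Ω) = 1 := by
    have := fr_cont n
    rw [← cfc_add .., ← cfc_const_one ℝ _ (hsa Ω)]
    refine cfc_congr fun t _ => ?_
    simp only [fr, mul_neg]
    generalize (n + 1 : ℝ) ^ 4 * t = x
    simp only [max_def, min_def]
    split_ifs <;> linarith
  have h5 := congrArg σ h4
  rw [map_add, ← h3, hσ'.one] at h5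
  linear_combination 2⁻¹ * h5

theorem Cls.coin (hC : Cls C) (hG : IsAmenable G) : ∃ Q ∈ C, ∃ π : Q.E, IsStarProjection π ∧
    (∀ g, Q.act g π = π) ∧ ∀ τ ∈ Q.T, τ π = 2⁻¹ := by
  obtain ⟨Q, hQ, Ω, hΩ, h1, h2⟩ := hC.haar_inv hG
  have hsa := IsSelfAdjoint.add_star_self Ω
  let π : Prd fun _ : ℕ => Q.E := Prd.mk (fun n => cfc (fr n) (Ω + star Ω))
    ⟨1, fun n => norm_cfc_le zero_le_one fun t _ => by
      rw [Real.norm_of_nonneg (fr_mem n t).1]; exact (fr_mem n t).2⟩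
  obtain ⟨Q', hQ', Θ, H⟩ := hC.up' (fun _ => Q) fun _ => hQ
  refine ⟨Q', hQ', Θ π, ⟨?_, (show IsSelfAdjoint π from Prd.ext fun n =>
    IsSelfAdjoint.cfc.star_eq).map Θ⟩, H.fix π fun g ε hε => Eventually.of_forall fun n σ _ => ?_,
    fun τ hτ => ?_⟩
  · rw [IsIdempotentElem, ← map_mul, ← sub_eq_zero, ← map_sub]
    refine H.zero _ fun ε hε => (ev_small (half_pos hε)).mono fun n hn σ hσ => ?_
    have := fr_cont n
    linarith [coin_est (hC.tr hQ hσ) hΩ (h2 σ hσ) n (y := (π * π - π) n)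
      (by rw [cfc_sub .., cfc_mul ..]; rfl)]
  · rw [Prd.mk_apply, map_cfc_real _ hsa (fr_cont n), map_add, map_star, h1, sub_self, nq_zero]
    exact hε.le
  · rw [← sub_eq_zero, ← norm_le_zero_iff, ← mul_one (2⁻¹ : ℂ), ← (hC.tr hQ' hτ).one, ← smul_eq_mul,
      ← map_smul, ← map_one Θ, ← map_smul, ← map_sub, ← map_sub]
    refine H.norm τ hτ _ 0 fun ε hε => Eventually.of_forall fun n σ hσ => ?_
    simp [π, (hC.tr hQ hσ).one, coin_tr (hC.tr hQ hσ) hΩ h1 (h2 σ hσ) n, hε.le]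

structure IsSel {Q Q' : TAlg.{u} G} {κ : Type} [Fintype κ] (j : Q.E →⋆ₐ[ℂ] Q'.E)
    (S : (κ → Q.E) →⋆ₙₐ[ℂ] Q'.E) (ω : ℝ) : Prop where
  eqv : TEqv j
  act : ∀ g y, Q'.act g (S y) = S fun k => Q.act g (y k)
  mul : ∀ x y, j x * S y = S fun k => x * y k
  mul' : ∀ x y, S y * j x = S fun k => y k * x
  lo : 1 ≤ 2 * ω * Fintype.card κ
  hi : ω * Fintype.card κ ≤ 1
  tr : ∀ y c, (∀ τ ∈ Q.T, ∑ k, (τ (y k)).re ≤ c) → ∀ τ ∈ Q'.T, (τ (S y)).re ≤ ω * c

theorem Cls.sel (hC : Cls C) (hG : IsAmenable G) {Q : TAlg.{u} G} (hQ : Q ∈ C) (κ : Type)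
    [Fintype κ] [Nonempty κ] : ∃ Q' ∈ C, ∃ (j : Q.E →⋆ₐ[ℂ] Q'.E) (S : (κ → Q.E) →⋆ₙₐ[ℂ] Q'.E)
      (ω : ℝ), IsSel j S ω := by
  classical
  obtain ⟨Q₀, h₀, π, hπ, h1, h2⟩ := hC.coin hG
  set d := Nat.clog 2 (Fintype.card κ)
  obtain ⟨Q₁, h₁, J, H⟩ := hC.mp h₀ d
  obtain ⟨e⟩ : Nonempty (κ ↪ (Fin d → Bool)) := Function.Embedding.nonempty_of_card_le
    (by simpa using Nat.le_pow_clog one_lt_two _)
  let b : Bool → Q₀.E := fun x => if x then π else 1 - π
  have hb : ∀ x, IsStarProjection (b x) := fun x => by cases x; exacts [hπ.one_sub, hπ]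
  let P : κ → Q₁.E := fun k => J fun l => b (e k l)
  have p1 : ∀ k, star (P k) = P k := fun k => by
    rw [← H.star]; exact congrArg J (funext fun l => (hb _).isSelfAdjoint.star_eq)
  have p2 : ∀ k k', P k * P k' = if k = k' then P k else 0 := fun k k' => by
    rw [← H.mul]
    split_ifs with h
    · subst h; exact congrArg J (funext fun l => (hb _).isIdempotentElem.eq)
    · obtain ⟨l, hl⟩ := Function.ne_iff.1 (e.injective.ne h)
      refine H.zero (l := l) ?_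
      change b _ * b _ = 0
      revert hl
      cases e k l <;> cases e k' l <;> simp [b, mul_sub, sub_mul, hπ.isIdempotentElem.eq]
  have p3 : ∀ g k, Q₁.act g (P k) = P k := fun g k => by
    rw [H.act]; exact congrArg J (funext fun l => by cases e k l <;> simp [b, h1])
  have p4 : ∀ τ ∈ Q₁.T, ∀ k, τ (P k) = ((2⁻¹ : ℝ) ^ d : ℝ) := fun τ hτ k => by
    rw [H.eq (c := fun _ => 2⁻¹) (fun σ hσ l => by
      cases e k l <;> simp [b, h2 σ hσ, (hC.tr h₀ hσ).one]; norm_num)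
      (fun σ hσ => (hC.tr h₀ hσ).one) hτ (hC.tr h₁ hτ).one]
    simp
  obtain ⟨Q', hQ', j₁, j₂, e₁, e₂, hc, hp⟩ := hC.pair h₁ hQ
  refine ⟨Q', hQ', j₂,
    { toFun := fun y => ∑ k, j₁ (P k) * j₂ (y k)
      map_smul' := fun c y => by simp [smul_sum]
      map_zero' := by simp
      map_add' := fun x y => by simp [mul_add, sum_add_distrib]
      map_mul' := fun x y => by
        simp only [sum_mul_sum, (hc _ _).symm.mul_mul_mul_comm, ← map_mul, p2]
        simp [apply_ite]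
      map_star' := fun y => by simp [star_sum, ← map_star, p1, (hc _ _).eq] }, 2⁻¹ ^ d, e₂,
    fun g y => ?_, fun x y => ?_, fun x y => ?_, ?_, ?_, fun y c h τ hτ => ?_⟩
  · simp [← e₁ g, ← e₂ g, p3]
  · simp [mul_sum, ← mul_assoc, (hc _ _).eq]
  · simp [sum_mul, mul_assoc]
  · rw [inv_pow, mul_right_comm, ← div_eq_mul_inv, one_le_div (by positivity)]
    rcases Nat.eq_or_lt_of_le (Fintype.card_pos (α := κ) : 1 ≤ _) with h | h
    · simp [d, ← h]
    · have h3 : 2 ^ d.pred < _ := Nat.pow_pred_clog_lt_self one_lt_two h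
      have h4 : 2 ^ d ≤ 2 * Fintype.card κ := by
        rw [show d = d.pred + 1 from (Nat.succ_pred (Nat.clog_pos one_lt_two h).ne').symm, pow_succ]
        omega
      exact_mod_cast h4
  · rw [inv_pow, inv_mul_le_iff₀ (by positivity), mul_one]
    exact_mod_cast Nat.le_pow_clog one_lt_two _
  · refine hp κ P y _ (fun τ₁ a₁ τ₂ a₂ => ?_) τ hτ
    simp only [p4 τ₁ a₁, ← mul_sum, Complex.re_ofReal_mul, Complex.re_sum]
    exact mul_le_mul_of_nonneg_left (h τ₂ a₂) (by positivity)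

end Vale.Agent.P095
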