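import Vale.Agent.P095.Psi
import Vale.Agent.P095.Sel

/-! Averages of projections and their thresholds. -/

namespace Vale.Agent.P095

open scoped CStarAlgebra ComplexConjugate Pointwise symmDiff
open Filter Topology Finset
open Vale.Agent.P101

attribute [local instance] CStarAlgebra.spectralOrder CStarAlgebra.spectralOrderedRing

universe u

variable {G : Type*} [Group G] {D : GAlg.{u} G} {τ : D.E →ₗ[ℂ] ℂ} {F F' : Finset G} {c κ : ℝ}
  {x : D.E}

/-- weighted sums over a finite set -/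
noncomputable def mu (D : GAlg.{u} G) (F : Finset G) (c : ℝ) : D.E →+ D.E where
  toFun x := ∑ g ∈ F, c • D.act g x
  map_zero' := by simp
  map_add' x y := by simp [sum_add_distrib]

lemma mu_apply (x : D.E) : mu D F c x = ∑ g ∈ F, c • D.act g x := rfl

lemma mu_nonneg (hc : 0 ≤ c) (hx : 0 ≤ x) : 0 ≤ mu D F c x :=
  sum_nonneg fun g _ => smul_nonneg hc (map_nonneg (D.act g) hx)

lemma mu_mono (hc : 0 ≤ c) (hx : 0 ≤ x) (h : F' ⊆ F) : mu D F' c x ≤ mu D F c x :=
  sum_le_sum_of_subset_of_nonneg h fun g _ _ => smul_nonneg hc (map_nonneg (D.act g) hx)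

lemma norm_mu (hc : 0 ≤ c) (h : c * F.card ≤ 1) (x : D.E) : ‖mu D F c x‖ ≤ ‖x‖ := by
  refine (norm_sum_le _ _).trans ?_
  simp only [norm_smul, GAlg.norm_act, Real.norm_of_nonneg hc, sum_const, nsmul_eq_mul]
  nlinarith [norm_nonneg x]

lemma act_mu [DecidableEq G] (h : G) (x : D.E) : D.act h (mu D F c x) = mu D (h • F) c x := by
  rw [mu_apply, mu_apply, sum_smul_finset, map_sum]
  refine sum_congr rfl fun g _ => ?_
  rw [D.act_mul, ← Complex.coe_smul, ← Complex.coe_smul, map_smul]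

lemma tr_mu (x : D.E) : (τ (mu D F c x)).re = c * ∑ g ∈ F, (τ (D.act g x)).re := by
  simp [mu_apply, mul_sum, LinearMap.map_smul_of_tower]

lemma tr_mu_le (hc : 0 ≤ c) (h : ∀ g, (τ (D.act g x)).re ≤ κ) :
    (τ (mu D F c x)).re ≤ c * F.card * κ := by
  rw [tr_mu, mul_assoc]
  exact mul_le_mul_of_nonneg_left (by simpa using sum_le_card_nsmul F _ κ fun g _ => h g) hc

lemma mu_sdiff [DecidableEq G] (h : F' ⊆ F) (x : D.E) :
    mu D F c x - mu D F' c x = mu D (F \ F') c x := by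
  rw [mu_apply, mu_apply, mu_apply, sum_sdiff_eq_sub h]

lemma rank_mu (ht : IsTr τ) (hc : 0 ≤ c) (hx : IsStarProjection x)
    (h : ∀ g, (τ (D.act g x)).re ≤ κ) {t : ℝ} (h0 : 0 < t) :
    (τ (psi t (mu D F c x))).re ≤ F.card * κ := by
  have h1 : mu D F c x = ∑ g ∈ F, star (√c • D.act g x) * (√c • D.act g x) :=
    sum_congr rfl fun g _ => by
      rw [star_smul, smul_mul_smul_comm, ← map_star, ← map_mul, hx.isSelfAdjoint.star_eq,
        hx.isIdempotentElem.eq, star_trivial, Real.mul_self_sqrt hc]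
  have h2 := ht.rank F (x := fun g => √c • D.act g x) (b := fun g => D.act g x) (fun g _ => by
    rw [mul_smul_comm, ← map_mul, hx.isIdempotentElem.eq]) h0
  rw [← h1] at h2
  refine h2.trans ?_
  simp only [← map_star, ← map_mul, hx.isSelfAdjoint.star_eq, hx.isIdempotentElem.eq]
  simpa using sum_le_card_nsmul F _ κ fun g _ => h g

lemma up_mu (ht : IsTr τ) (hc : 0 ≤ c) (hc' : c * F.card = 1) (hx : 0 ≤ x)
    (h : ∀ g, (τ (D.act g x)).re ≤ κ) {R : ℕ} (hR : 0 < R) :
    ∑ r ∈ range R, (τ (psi (th R r) (mu D F c x) ^ 2)).re ≤ R * κ :=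
  (ht.sum_psi_le (mu_nonneg hc hx) hR).trans (mul_le_mul_of_nonneg_left
    (by simpa [hc'] using tr_mu_le (F := F) hc h) (by positivity))

lemma high_mu (ht : IsTr τ) (hc : 0 ≤ c) (hc' : c * F.card = 1) (hx : IsStarProjection x)
    (h : ∀ g, (τ (D.act g x)).re = κ) {R : ℕ} (hR : 0 < R) (hR' : 4 * F.card ≤ R) :
    2⁻¹ ^ 17 * (R * κ) ≤ ∑ r ∈ range R, nq τ (psi (th R r) (mu D F c x) ^ 8) ^ 2 := by
  have h0 := mu_nonneg (F := F) hc hx.nonneg
  have h1 := pos_mono ht.pos (op_high h0 ((CStarAlgebra.norm_le_one_iff_of_nonneg _ h0).1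
    ((norm_mu hc hc'.le x).trans hx.norm_le)) hR)
  have h2 := rank_mu (F := F) ht hc hx (fun g => (h g).le) (t := (R : ℝ)⁻¹) (by positivity)
  have h3 : (τ (mu D F c x)).re = κ := by
    rw [tr_mu, sum_congr rfl fun g _ => h g, sum_const, nsmul_eq_mul, ← mul_assoc, hc', one_mul]
  have h4 : 0 ≤ κ := h3 ▸ pos_re ht.pos h0
  have h5 : (4 * F.card : ℝ) * κ ≤ R * κ := mul_le_mul_of_nonneg_right (by exact_mod_cast hR') h4
  simp only [map_sub, LinearMap.map_smul_of_tower, Complex.smul_re, Complex.sub_re, smul_eq_mul, h3,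
    map_sum, Complex.re_sum] at h1
  refine le_trans (by linarith) (h1.trans_eq (sum_congr rfl fun r _ => ?_))
  rw [nq_sq ht.pos, ((psi_nonneg h0 (th_pos hR r)).isSelfAdjoint.pow 8).star_eq, ← pow_add]

lemma rob_mu [DecidableEq G] (ht : IsTr τ) (hc : 0 ≤ c) (hx : IsStarProjection x)
    (h : ∀ g, (τ (D.act g x)).re ≤ κ) {R : ℕ} (hR : 0 < R) (g : G) :
    ∑ r ∈ range R, nq τ (D.act g (psi (th R r) (mu D F c x)) - psi (th R r) (mu D F c x)) ^ 2 ≤
      2 * R * (c * ((g • F) ∆ F).card * κ) + 4 * (F.card * κ) := by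
  have h0 := mu_nonneg (F := g • F ∩ F) hc hx.nonneg
  have h1 := ht.rob_psi h0 (mu_mono hc hx.nonneg inter_subset_left) hR
  have h2 := ht.rob_psi h0 (mu_mono hc hx.nonneg inter_subset_right) hR
  have h3 := rank_mu (F := g • F ∩ F) ht hc hx h (t := (R : ℝ)⁻¹) (by positivity)
  have h4 : 0 ≤ κ := (pos_re ht.pos (map_nonneg (D.act 1) hx.nonneg)).trans (h 1)
  have h5 : ((g • F ∩ F).card : ℝ) * κ ≤ F.card * κ :=
    mul_le_mul_of_nonneg_right (by exact_mod_cast card_le_card inter_subset_right) h4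
  rw [mu_sdiff inter_subset_left] at h1
  rw [mu_sdiff inter_subset_right] at h2
  have h6 := mul_le_mul_of_nonneg_left (tr_mu_le (F := g • F \ (g • F ∩ F)) hc h)
    (Nat.cast_nonneg (α := ℝ) R)
  have h7 := mul_le_mul_of_nonneg_left (tr_mu_le (F := F \ (g • F ∩ F)) hc h)
    (Nat.cast_nonneg (α := ℝ) R)
  have h8 : (((g • F) ∆ F).card : ℝ) = (g • F \ (g • F ∩ F)).card + (F \ (g • F ∩ F)).card := by
    rw [sdiff_inter_self_left, sdiff_inter_self_right, symmDiff_def, sup_eq_union,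
      card_union_of_disjoint disjoint_sdiff_sdiff, Nat.cast_add]
  refine (sum_le_sum (g := fun r => 2 * nq τ (psi (th R r) (mu D (g • F) c x) -
    psi (th R r) (mu D (g • F ∩ F) c x)) ^ 2 + 2 * nq τ (psi (th R r) (mu D F c x) -
    psi (th R r) (mu D (g • F ∩ F) c x)) ^ 2) fun r _ => ?_).trans ?_
  · rw [map_psi _ (mu_nonneg hc hx.nonneg) (th_pos hR r), act_mu]
    have := nq_tri ht.pos (psi (th R r) (mu D (g • F) c x)) (psi (th R r) (mu D (g • F ∩ F) c x))
      (psi (th R r) (mu D F c x))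
    rw [nq_comm (psi (th R r) (mu D (g • F ∩ F) c x))] at this
    nlinarith [pow_le_pow_left₀ (nq_nonneg _) this 2, sq_nonneg (nq τ (psi (th R r) (mu D (g • F) c x) -
      psi (th R r) (mu D (g • F ∩ F) c x)) - nq τ (psi (th R r) (mu D F c x) -
      psi (th R r) (mu D (g • F ∩ F) c x)))]
  · rw [sum_add_distrib, ← mul_sum, ← mul_sum, h8]
    linarith

/-- the defect of multiplicativity -/
noncomputable def dfc (D : GAlg.{u} G) (x p : D.E) (g h : G) : D.E :=
  D.act g x * D.act h p - D.act g p * D.act h x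

lemma mu_oz (ht : IsTr τ) (hc : 0 ≤ c) (hc' : c * F.card = 1) {p z : D.E} (hz : p * z = z) {e : ℝ}
    (he : 0 ≤ e) (h : c ^ 2 * ∑ g ∈ F, ∑ h ∈ F, nq τ (dfc D x p g h) ^ 2 ≤ e ^ 2) :
    nq τ (mu D F c x * mu D F c z - mu D F c p * mu D F c (x * z)) ≤ ‖z‖ * e := by
  have h1 : mu D F c x * mu D F c z - mu D F c p * mu D F c (x * z) =
      ∑ g ∈ F ×ˢ F, ((c ^ 2 : ℝ) : ℂ) • (dfc D x p g.1 g.2 * D.act g.2 z) := by
    simp only [mu_apply, sum_mul_sum, ← sum_sub_distrib, sum_product, smul_mul_smul_comm, dfc,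
      sub_mul, mul_assoc, ← map_mul, hz, Complex.coe_smul, smul_sub, sq]
  rw [h1]
  refine (nq_sum_le ht.pos _ _).trans ((sum_le_sum (g := fun g => ‖z‖ *
    (c * (c * nq τ (dfc D x p g.1 g.2)))) fun g _ => ?_).trans ?_)
  · rw [ht.pos.nq_smul, Complex.norm_real, Real.norm_of_nonneg (sq_nonneg c)]
    have := ht.nq_mul_le (dfc D x p g.1 g.2) (D.act g.2 z)
    rw [D.norm_act] at this
    nlinarith [mul_le_mul_of_nonneg_left this (sq_nonneg c)]
  · rw [← mul_sum]
    refine mul_le_mul_of_nonneg_left (abs_le_of_sq_le_sq' ?_ he).2 (norm_nonneg _)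
    refine (sum_mul_sq_le_sq_mul_sq _ _ _).trans (le_trans (le_of_eq ?_) h)
    simp only [sum_const, card_product, nsmul_eq_mul, mul_pow, ← mul_sum, sum_product, Nat.cast_mul]
    linear_combination (c * F.card + 1) * (c ^ 2 * ∑ g ∈ F, ∑ h ∈ F, nq τ (dfc D x p g h) ^ 2) * hc'

lemma sum_one_le {ι : Type*} [DecidableEq ι] (s : Finset ι) {d : ι → ℝ} (h0 : ∀ l, 0 ≤ d l)
    (h1 : ∀ l, d l ≤ 1) : ∑ k ∈ s, d k * ∏ l ∈ s.erase k, (1 - d l) + ∏ l ∈ s, (1 - d l) ≤ 1 := by
  induction s using Finset.induction_on with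
  | empty => simp
  | insert j s hj ih =>
    rw [sum_insert hj, prod_insert hj, erase_insert hj, sum_congr rfl (g := fun k => (1 - d j) *
      (d k * ∏ l ∈ s.erase k, (1 - d l))) fun k hk => by
        rw [erase_insert_of_ne (by rintro rfl; exact hj hk),
          prod_insert fun h => hj (mem_of_mem_erase h)]; ring, ← mul_sum]
    have h2 : 0 ≤ ∑ k ∈ s, d k * ∏ l ∈ s.erase k, (1 - d l) := sum_nonneg fun k _ =>
      mul_nonneg (h0 k) (prod_nonneg fun l _ => sub_nonneg.2 (h1 l))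
    nlinarith [mul_nonneg (h0 j) h2]

lemma sum_upd {m : ℕ} {d : Fin m → Bool → ℝ} (h0 : ∀ l s, 0 ≤ d l s) (h1 : ∀ l s, d l s ≤ 1) :
    ∑ k, ∑ β : Fin m → Bool, ∑ s, ∏ l, (if l = k then d l s else (1 - d l (β l)) / 2) ≤ 4 := by
  have h2 := sum_one_le univ (d := fun l => (d l true + d l false) / 2)
    (fun l => by linarith [h0 l true, h0 l false]) (fun l => by linarith [h1 l true, h1 l false])
  have h3 : 0 ≤ ∏ l, (1 - (d l true + d l false) / 2) := prod_nonneg fun l _ => by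
    linarith [h1 l true, h1 l false]
  refine le_trans (le_of_eq ?_) (mul_le_mul_of_nonneg_left ((le_add_of_nonneg_right h3).trans h2)
    (show (0 : ℝ) ≤ 4 by norm_num) |>.trans_eq (mul_one _))
  rw [mul_sum]
  refine sum_congr rfl fun k _ => ?_
  rw [sum_comm]
  have h4 : ∀ s, ∑ β : Fin m → Bool, ∏ l, (if l = k then d l s else (1 - d l (β l)) / 2) =
      2 * d k s * ∏ l ∈ univ.erase k, (1 - (d l true + d l false) / 2) := fun s => by
    rw [← Fintype.piFinset_univ, ← prod_univ_sum (f := fun l b => if l = k then d l s else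
      (1 - d l b) / 2), ← mul_prod_erase _ _ (mem_univ k)]
    congr 1
    · simp
    · refine prod_congr rfl fun l hl => ?_
      simp only [ne_of_mem_erase hl, if_false, Fintype.sum_bool]
      ring
  simp only [h4, Fintype.sum_bool]
  ring

end Vale.Agent.P095
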