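import Vale.Agent.P095.Blk1

/-! Small almost invariant non-commuting pairs. -/

namespace Vale.Agent.P095

open scoped CStarAlgebra ComplexConjugate Pointwise symmDiff
open Filter Topology Finset Function
open Vale.Agent.P101

attribute [local instance] CStarAlgebra.spectralOrder CStarAlgebra.spectralOrderedRing

universe u

variable {G : Type*} [Group G] {C : Set (TAlg.{u} G)}

lemma Cls.two (hC : Cls C) : ∃ Q ∈ C, ∃ q : Bool → Q.E, (∀ s, IsStarProjection (q s)) ∧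
    4 • ((q true * q false - q false * q true) * (q true * q false - q false * q true)) = -1 ∧
    ∀ τ ∈ Q.T, ∀ s, τ (q s) = 2⁻¹ := by
  obtain ⟨Q, hQ, e, he, h1⟩ := hC.units Bool
  have h2 : ∀ i j k l, e i j * e k l = if j = k then e i l else 0 := fun i j k l => by
    rw [he.mul, h1, one_mul]
  have h3 : (1 : Q.E) = e true true + e false false := by rw [← h1, P101.tr, Fintype.sum_bool]
  refine ⟨Q, hQ, fun s => if s then e true true else
    (2⁻¹ : ℂ) • (e true true + e false false + e true false + e false true), fun s => ?_, ?_,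
    fun τ hτ s => ?_⟩
  · cases s
    · refine ⟨?_, ?_⟩
      · simp only [IsIdempotentElem, Bool.false_eq_true, if_false, smul_mul_smul_comm, mul_add,
          add_mul, h2]
        simp
        module
      · simp only [IsSelfAdjoint, Bool.false_eq_true, if_false, star_smul, star_add, he.star]
        simp
        module
    · exact ⟨by simp [IsIdempotentElem, h2], he.star _ _⟩
  · rw [h3, ← Nat.cast_smul_eq_nsmul ℂ]
    simp [mul_add, add_mul, h2, mul_sub, sub_mul, smul_smul]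
    module
  · have ht := hC.tr hQ hτ
    have h4 : τ (e false false) = τ (e true true) := by
      simpa [h2] using ht.comm (e false true) (e true false)
    have h5 : ∀ i j, i ≠ j → τ (e i j) = 0 := fun i j h => by
      simpa [h2, h.symm] using ht.comm (e i i) (e i j)
    have h6 : τ (e true true) = 2⁻¹ := by
      have := ht.one
      rw [h3, map_add, h4] at this
      linear_combination this / 2
    cases s <;> simp [h4, h5, h6]
    norm_num

section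
variable {Q Q' : TAlg.{u} G} {m : ℕ} {J : (Fin m → Q.E) → Q'.E}

/-- one slot of a multiple product -/
noncomputable def MP.slot (H : MP J) {p : Fin m → Q.E} (hp : ∀ l, IsStarProjection (p l)) (k : Fin m) :
    Q.E →⋆ₙₐ[ℂ] Q'.E where
  toFun z := J (update p k z)
  map_smul' c z := H.smul k c _ _ (fun l hl => by simp [hl]) (by simp)
  map_zero' := H.zero (l := k) (by simp)
  map_add' x y := by
    rw [← sub_eq_iff_eq_add, eq_comm]
    exact H.sub k _ _ _ (fun l hl => by simp [hl]) (by simp)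
  map_mul' x y := by
    rw [← H.mul]
    congr 1
    ext l
    by_cases hl : l = k <;> simp [hl, (hp l).isIdempotentElem.eq]
  map_star' x := by
    rw [← H.star]
    congr 1
    ext l
    by_cases hl : l = k <;> simp [hl, (hp l).isSelfAdjoint.star_eq]

lemma MP.dfc (H : MP J) {p : Fin m → Q.E} (hp : ∀ l, IsStarProjection (p l)) (k : Fin m) (z : Q.E)
    (g h : G) : dfc Q'.toGAlg (H.slot hp k z) (H.slot hp k 1) g h =
      J (update (fun l => Q.act g (p l) * Q.act h (p l)) k (Q.act g z - Q.act h z)) := by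
  change Q'.act g (J _) * Q'.act h (J _) - Q'.act g (J _) * Q'.act h (J _) = _
  simp only [H.act, ← H.mul]
  exact (H.sub k _ _ _ (fun l hl => by simp [hl]) (by simp)).symm

lemma proj_pair {E : Type*} [CStarAlgebra E] {τ : E →ₗ[ℂ] ℂ} (ht : IsTr τ) {p p' : E}
    (hp : IsStarProjection p) (hp' : IsStarProjection p') (h : τ p = 2⁻¹) (h' : τ p' = 2⁻¹) :
    ∃ d : ℝ, 0 ≤ d ∧ d ≤ 1 ∧ τ (star (p - p') * (p - p')) = d ∧
      τ (star (p * p') * (p * p')) = ((1 - d) / 2 : ℝ) := by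
  have h1 : τ (star (p * p') * (p * p')) = τ (p * p') := by
    rw [star_mul, hp.isSelfAdjoint.star_eq, hp'.isSelfAdjoint.star_eq, mul_assoc, ← mul_assoc p,
      hp.isIdempotentElem.eq, ht.comm, mul_assoc, hp'.isIdempotentElem.eq]
  have h2 : τ (star (p - p') * (p - p')) = 1 - 2 * τ (p * p') := by
    rw [star_sub, hp.isSelfAdjoint.star_eq, hp'.isSelfAdjoint.star_eq, mul_sub, sub_mul, sub_mul,
      hp.isIdempotentElem.eq, hp'.isIdempotentElem.eq, map_sub, map_sub, map_sub, ht.comm p' p, h, h']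
    ring
  obtain ⟨d, h3, h4⟩ := ht.pos (p - p')
  obtain ⟨r, h5, h6⟩ := ht.pos (p * p')
  have h7 : d = 1 - 2 * r := by
    rw [h2, ← h1, h6] at h4
    exact_mod_cast h4.symm
  exact ⟨d, h3, by linarith, h4, by rw [h6, h7]; push_cast; ring⟩

lemma MP.dfc_sum (H : MP J) (hC : Cls C) (hQ : Q ∈ C) (hQ' : Q' ∈ C) {q : Bool → Q.E}
    (hq : ∀ s, IsStarProjection (q s)) (h2 : ∀ τ ∈ Q.T, ∀ s, τ (q s) = 2⁻¹) (g h : G) {τ}
    (hτ : τ ∈ Q'.T) : ∑ x : Fin m × (Fin m → Bool), ∑ s, nq τ (Vale.Agent.P095.dfc Q'.toGAlg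
      (H.slot (fun l => hq (x.2 l)) x.1 (q s)) (H.slot (fun l => hq (x.2 l)) x.1 1) g h) ^ 2 ≤ 4 := by
  have := H.prod ((Fin m × (Fin m → Bool)) × Bool) (fun _ => 1) (fun x =>
    Star.star (update (fun l => Q.act g (q (x.1.2 l)) * Q.act h (q (x.1.2 l))) x.1.1
      (Q.act g (q x.2) - Q.act h (q x.2))) * update (fun l => Q.act g (q (x.1.2 l)) *
      Q.act h (q (x.1.2 l))) x.1.1 (Q.act g (q x.2) - Q.act h (q x.2))) 4 (fun σ hσ => by
      choose d d0 d1 d2 d3 using fun l s => proj_pair (hC.tr hQ (hσ l)) ((hq s).map (Q.act g))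
        ((hq s).map (Q.act h)) (h2 _ (hC.inv hQ (hσ l) g) s) (h2 _ (hC.inv hQ (hσ l) h) s)
      refine le_of_eq_of_le ?_ (sum_upd d0 d1)
      rw [Fintype.sum_prod_type, Fintype.sum_prod_type, ← Complex.ofReal_re (∑ _, _)]
      push_cast
      congr 1
      refine sum_congr rfl fun k _ => sum_congr rfl fun β _ => sum_congr rfl fun s _ => ?_
      rw [one_mul]
      refine prod_congr rfl fun l _ => ?_
      by_cases hl : l = k
      · subst hl; simp [← d2]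
      · simp only [Pi.mul_apply, Pi.star_apply, update_of_ne hl, d3, if_neg hl]) τ hτ
  simp only [one_mul, H.mul, H.star, Fintype.sum_prod_type, Complex.re_sum] at this
  simpa only [H.dfc, nq_sq (hC.tr hQ' hτ).pos, Fintype.sum_prod_type] using this

end

/-- a small almost invariant pair with a large commutator -/
structure Blk (Q : TAlg.{u} G) (K : Finset G) (δ κ : ℝ) (A : Bool → Q.E) : Prop where
  pos : ∀ s, 0 ≤ A s
  nrm : ∀ s, ‖A s‖ ≤ 1
  up : ∀ τ ∈ Q.T, ∀ s, (τ (A s * A s)).re ≤ κ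
  lo : ∀ τ ∈ Q.T, 2⁻¹ ^ 26 * κ ≤ nq τ (cm (A true) (A false)) ^ 2
  inv : ∀ τ ∈ Q.T, ∀ g ∈ K, ∀ s, nq τ (Q.act g (A s) - A s) ^ 2 ≤ δ * κ

lemma cm_est {E : Type*} [CStarAlgebra E] {τ : E →ₗ[ℂ] ℂ} (ht : IsTr τ) {x y z : E} (hx : ‖x‖ ≤ 1)
    (hy : ‖y‖ ≤ 1) {e : ℝ} (h : nq τ (4 • (cm x y * cm x y) + z) ≤ e) :
    nq τ z ^ 2 ≤ 128 * nq τ (cm x y) ^ 2 + 2 * e ^ 2 := by
  have h1 : ‖cm x y‖ ≤ 2 := by
    have h2 := norm_mul_le_of_le hx hx
    have h3 := norm_mul_le_of_le hy hy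
    rw [← sq] at h2 h3
    exact (norm_sub_le_of_le (norm_mul_le_of_le h2 h3) (norm_mul_le_of_le h3 h2)).trans_eq
      (by norm_num)
  have h2 := nq_sub_le ht.pos (4 • (cm x y * cm x y) + z) (4 • (cm x y * cm x y))
  have h3 := ht.pos.nq_smul 4 (cm x y * cm x y)
  have h4 := (nq_mul_le ht.pos (cm x y) (cm x y)).trans
    (mul_le_mul_of_nonneg_right h1 (nq_nonneg _))
  rw [ofNat_smul_eq_nsmul, Complex.norm_ofNat] at h3
  rw [add_sub_cancel_left, h3] at h2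
  have h5 : nq τ z ≤ e + 8 * nq τ (cm x y) := by linarith
  nlinarith [pow_le_pow_left₀ (nq_nonneg _) h5 2, sq_nonneg (e - 8 * nq τ (cm x y))]

lemma IsSel.blk {Q Q' : TAlg.{u} G} {ι : Type} [Fintype ι] {j : Q.E →⋆ₐ[ℂ] Q'.E}
    {S : (ι → Q.E) →⋆ₙₐ[ℂ] Q'.E} {ω : ℝ} (H : IsSel j S ω) (hC : Cls C) (hQ : Q ∈ C) (hQ' : Q' ∈ C)
    {K : Finset G} {δ κ : ℝ} (hδ : 0 ≤ δ) (hκ : 0 ≤ κ) {A : Bool → ι → Q.E} (h0 : ∀ s i, 0 ≤ A s i)
    (h1 : ∀ s i, ‖A s i‖ ≤ 1)
    (h2 : ∀ τ ∈ Q.T, ∀ s, ∑ i, (τ (A s i ^ 2)).re ≤ Fintype.card ι * κ)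
    (h3 : ∀ τ ∈ Q.T, Fintype.card ι * (2⁻¹ ^ 25 * κ) ≤ ∑ i, nq τ (cm (A true i) (A false i)) ^ 2)
    (h4 : ∀ τ ∈ Q.T, ∀ g ∈ K, ∀ s, ∑ i, nq τ (Q.act g (A s i) - A s i) ^ 2 ≤
      Fintype.card ι * (δ * κ)) : Blk Q' K δ κ fun s => S (A s) where
  pos s := by
    choose y hy using fun i => CStarAlgebra.nonneg_iff_eq_star_mul_self.1 (h0 s i)
    rw [show A s = star y * y from funext hy, map_mul, map_star]
    exact star_mul_self_nonneg _
  nrm s := (NonUnitalStarAlgHom.norm_apply_le S _).trans ((pi_norm_le_iff_of_nonneg zero_le_one).2 (h1 s))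
  up τ hτ s := by
    rw [← map_mul]
    refine (H.tr _ _ (fun σ hσ => by simpa only [sq, Pi.mul_apply] using h2 σ hσ s) τ hτ).trans ?_
    nlinarith [H.hi]
  lo τ hτ := by
    have h5 : cm (S (A true)) (S (A false)) = S fun i => cm (A true i) (A false i) := by
      simp only [cm, sq, ← map_mul, ← map_sub]; rfl
    have h6 := H.tr (-(star (fun i => cm (A true i) (A false i)) * fun i => cm (A true i) (A false i)))
      (-(Fintype.card ι * (2⁻¹ ^ 25 * κ))) (fun σ hσ => by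
        simpa [nq_sq (hC.tr hQ hσ).pos] using h3 σ hσ) τ hτ
    rw [h5, nq_sq (hC.tr hQ' hτ).pos, ← map_star, ← map_mul]
    rw [map_neg, map_neg, Complex.neg_re] at h6
    nlinarith [H.lo]
  inv τ hτ g hg s := by
    rw [H.act, ← map_sub, nq_sq (hC.tr hQ' hτ).pos, ← map_star, ← map_mul]
    refine (H.tr _ _ (fun σ hσ => by simpa [nq_sq (hC.tr hQ hσ).pos] using h4 σ hσ g hg s) τ hτ).trans ?_
    nlinarith [H.hi, mul_nonneg hδ hκ]

theorem Cls.blk [DecidableEq G] [Countable G] (hC : Cls C) (hG : IsAmenable G) (K : Finset G)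
    {δ : ℝ} (hδ : 0 < δ) : ∃ Q ∈ C, ∃ κ, 0 < κ ∧ κ ≤ 1 / 16 ∧ ∃ A, Blk Q K δ κ A := by
  obtain ⟨Q₀, h₀, q, hq, h4, hq2⟩ := hC.two
  obtain ⟨F, hF, hF'⟩ := hG K (δ / 4) (by positivity)
  have hc0 : (0 : ℝ) < F.card := by exact_mod_cast hF.card_pos
  obtain ⟨c, hc, hc'⟩ : ∃ c : ℝ, 0 ≤ c ∧ c * F.card = 1 :=
    ⟨(F.card : ℝ)⁻¹, by positivity, inv_mul_cancel₀ hc0.ne'⟩
  obtain ⟨R, hR1, hR2⟩ : ∃ R : ℕ, 4 * F.card ≤ R ∧ 8 * F.card ≤ δ * R := by
    obtain ⟨n, hn⟩ := exists_nat_ge (8 * F.card / δ)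
    refine ⟨n + 4 * F.card, by omega, ?_⟩
    rw [div_le_iff₀ hδ] at hn
    push_cast
    nlinarith
  have hR : 0 < R := by have := hF.card_pos; omega
  choose Q hQ J H using fun m : ℕ => hC.mp h₀ (m + 1)
  let T : ∀ m, Fin (m + 1) × (Fin (m + 1) → Bool) → Q₀.E →⋆ₙₐ[ℂ] (Q m).E := fun m x =>
    (H m).slot (fun l => hq (x.2 l)) x.1
  have hp : ∀ m x {z}, IsStarProjection z → IsStarProjection (T m x z) := fun m x z hz => hz.map _
  have t1 : ∀ m x, ∀ τ ∈ (Q m).T, ∀ g, (τ ((Q m).act g (T m x 1))).re = 2⁻¹ ^ m := fun m x τ hτ g => by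
    have h1 := hC.inv (hQ m) hτ g
    have := (H m).eq (x := update (fun l => q (x.2 l)) x.1 1) (c := update (fun _ => 2⁻¹) x.1 1)
      (fun σ hσ l => by by_cases hl : l = x.1 <;> simp [hl, (hC.tr h₀ hσ).one, hq2 σ hσ])
      (fun σ hσ => (hC.tr h₀ hσ).one) h1 (hC.tr (hQ m) h1).one
    rw [prod_update_of_mem (mem_univ _), prod_const, card_univ_diff] at this
    rw [show τ ((Q m).act g (T m x 1)) = _ from this]
    simp [← Complex.ofReal_ofNat, ← Complex.ofReal_inv, ← Complex.ofReal_pow]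
  have t2 : ∀ m x, ∀ τ ∈ (Q m).T, ∀ s g, (τ ((Q m).act g (T m x (q s)))).re ≤ 2⁻¹ ^ m :=
    fun m x τ hτ s g => by
      rw [← t1 m x τ hτ g]
      exact pos_mono (hC.tr (hQ m) hτ).pos (OrderHomClass.mono _ (OrderHomClass.mono _ (hq s).le_one))
  let ε : ∀ m, Fin (m + 1) × (Fin (m + 1) → Bool) → ((Q m).E →ₗ[ℂ] ℂ) → ℝ := fun m x τ =>
    c ^ 2 * ∑ g ∈ F, ∑ h ∈ F, ∑ s, nq τ (dfc (Q m).toGAlg (T m x (q s)) (T m x 1) g h) ^ 2
  have e0 : ∀ m x τ, 0 ≤ ε m x τ := fun m x τ => by positivity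
  have e1 : ∀ m, ∀ τ ∈ (Q m).T, ∑ x, ε m x τ ≤ 4 := fun m τ hτ => by
    rw [← mul_sum, sum_comm]
    refine (mul_le_mul_of_nonneg_left (sum_le_card_nsmul F _ (F.card • 4) fun g _ => ?_)
      (sq_nonneg c)).trans_eq ?_
    · rw [sum_comm]
      exact sum_le_card_nsmul F _ 4 fun h _ => (H m).dfc_sum hC h₀ (hQ m) hq hq2 g h hτ
    · simp only [nsmul_eq_mul]
      linear_combination 4 * (c * F.card + 1) * hc'
  have e2 : ∀ m x, ∀ τ ∈ (Q m).T, ∀ s z, nq τ (mu _ F c (T m x (q s)) * mu _ F c (T m x z) -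
      mu _ F c (T m x 1) * mu _ F c (T m x (q s * z))) ≤ ‖z‖ * √(ε m x τ) := fun m x τ hτ s z => by
    rw [map_mul]
    refine (mu_oz (hC.tr (hQ m) hτ) hc hc' (by rw [← map_mul, one_mul]) (Real.sqrt_nonneg _) ?_).trans
      (mul_le_mul_of_nonneg_right (NonUnitalStarAlgHom.norm_apply_le _ _) (Real.sqrt_nonneg _))
    rw [Real.sq_sqrt (e0 m x τ)]
    refine mul_le_mul_of_nonneg_left (sum_le_sum fun g _ => sum_le_sum fun h _ => ?_) (sq_nonneg c)
    exact single_le_sum (f := fun s => nq τ (dfc (Q m).toGAlg (T m x (q s)) (T m x 1) g h) ^ 2)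
      (fun _ _ => sq_nonneg _) (mem_univ s)
  choose B hB using fun r : ℕ => block_err
    (I := Σ m, (Fin (m + 1) × (Fin (m + 1) → Bool)) × (Q m).T) (E := fun i => (Q i.1).E)
    (τ := fun i => i.2.2.1) (fun i => hC.tr (hQ i.1) i.2.2.2) (fun i => √(ε i.1 i.2.1 i.2.2.1))
    (fun i => (mu _ F c).comp (T i.1 i.2.1 : Q₀.E →+ (Q i.1).E)) h4
    (hq true).isIdempotentElem.eq (hq false).isIdempotentElem.eq (fun z => ‖z‖)
    (fun i z => (norm_mu hc hc'.le _).trans (NonUnitalStarAlgHom.norm_apply_le (T i.1 i.2.1) z))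
    (fun i => ⟨mu_nonneg hc (hp _ _ (IsStarProjection.one _)).nonneg,
      mu_nonneg hc (hp _ _ (hq true)).nonneg, mu_nonneg hc (hp _ _ (hq false)).nonneg⟩)
    (fun i z => e2 _ _ _ i.2.2.2 true z) (fun i z => e2 _ _ _ i.2.2.2 false z) (th_pos hR r)
  obtain ⟨m, hm, hm'⟩ : ∃ m : ℕ, 4 ≤ m ∧ 2 ^ 20 * ∑ r ∈ range R, B r ^ 2 ≤ m := by
    obtain ⟨n, hn⟩ := exists_nat_ge (2 ^ 20 * ∑ r ∈ range R, B r ^ 2)
    exact ⟨n + 4, by omega, hn.trans (by simp)⟩
  have : Nonempty (Fin R) := ⟨⟨0, hR⟩⟩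
  obtain ⟨Q', hQ', j, S, ω, hS⟩ := hC.sel hG (hQ m) ((Fin (m + 1) × (Fin (m + 1) → Bool)) × Fin R)
  have hcard : (Fintype.card (Fin (m + 1) × (Fin (m + 1) → Bool)) : ℝ) * 2⁻¹ ^ m = 2 * (m + 1) := by
    simp only [Fintype.card_prod, Fintype.card_fin, Fintype.card_pi, Fintype.card_bool, prod_const,
      card_univ]
    push_cast
    rw [inv_pow]
    field_simp
    ring
  refine ⟨Q', hQ', 2⁻¹ ^ m, by positivity, (pow_le_pow_of_le_one (by norm_num) (by norm_num) hm).trans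
    (by norm_num), _, hS.blk hC (hQ m) hQ' hδ.le (by positivity)
    (A := fun s x => psi (th R x.2) (mu _ F c (T m x.1 (q s))))
    (fun s x => psi_nonneg (mu_nonneg hc (hp _ _ (hq s)).nonneg) (th_pos hR _))
    (fun s x => norm_psi (mu_nonneg hc (hp _ _ (hq s)).nonneg) (th_pos hR _))
    (fun τ hτ s => ?_) (fun τ hτ => ?_) fun τ hτ g hg s => ?_⟩
  · rw [Fintype.sum_prod_type]
    refine (sum_le_card_nsmul _ _ _ fun x _ => (Fin.sum_univ_eq_sum_range (fun r =>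
      (τ (psi (th R r) (mu _ F c (T m x (q s))) ^ 2)).re) R).trans_le (up_mu (hC.tr (hQ m) hτ) hc hc'
        (hp _ _ (hq s)).nonneg (t2 m x τ hτ s) hR)).trans_eq ?_
    simp [mul_assoc]
  · have h5 : ∀ x, 2⁻¹ ^ 17 * (R * 2⁻¹ ^ m) ≤ 128 * ∑ r : Fin R, nq τ (cm (psi (th R r)
        (mu _ F c (T m x (q true)))) (psi (th R r) (mu _ F c (T m x (q false))))) ^ 2 +
        2 * (∑ r ∈ range R, B r ^ 2) * ε m x τ := fun x => by
      refine (high_mu (hC.tr (hQ m) hτ) hc hc' (hp _ x (IsStarProjection.one _)) (t1 m x τ hτ) hR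
        hR1).trans ((sum_le_sum fun r _ => cm_est (hC.tr (hQ m) hτ)
          (norm_psi (mu_nonneg hc (hp _ x (hq true)).nonneg) (th_pos hR _))
          (norm_psi (mu_nonneg hc (hp _ x (hq false)).nonneg) (th_pos hR _))
          (hB r ⟨m, x, τ, hτ⟩)).trans_eq ?_)
      rw [sum_add_distrib, ← mul_sum, ← mul_sum, Fin.sum_univ_eq_sum_range (fun r => nq τ (cm (psi (th R r)
        (mu _ F c (T m x (q true)))) (psi (th R r) (mu _ F c (T m x (q false))))) ^ 2), mul_assoc, sum_mul]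
      simp only [mul_pow, Real.sq_sqrt (e0 m x τ)]
    have h6 := sum_le_sum fun x (_ : x ∈ univ) => h5 x
    have h7 := mul_le_mul_of_nonneg_left (e1 m τ hτ)
      (show 0 ≤ 2 * ∑ r ∈ range R, B r ^ 2 by positivity)
    rw [sum_const, card_univ, nsmul_eq_mul, sum_add_distrib, ← mul_sum, ← mul_sum] at h6
    rw [Fintype.sum_prod_type, Fintype.card_prod, Fintype.card_fin, Nat.cast_mul]
    have h8 : (1 : ℝ) ≤ R := by exact_mod_cast hR
    have h9 : (R : ℝ) * (Fintype.card (Fin (m + 1) × (Fin (m + 1) → Bool)) * 2⁻¹ ^ m) =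
      R * (2 * (m + 1)) := by rw [hcard]
    dsimp only
    linarith [mul_le_mul_of_nonneg_right h8 (Nat.cast_nonneg (α := ℝ) m)]
  · rw [Fintype.sum_prod_type]
    refine (sum_le_card_nsmul _ _ (R * (δ * 2⁻¹ ^ m)) fun x _ => (Fin.sum_univ_eq_sum_range (fun r =>
      nq τ ((Q m).act g (psi (th R r) (mu _ F c (T m x (q s)))) -
        psi (th R r) (mu _ F c (T m x (q s)))) ^ 2) R).trans_le ((rob_mu (hC.tr (hQ m) hτ) hc
        (hp _ _ (hq s)) (t2 m x τ hτ s) hR g).trans ?_)).trans_eq (by simp [mul_assoc])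
    have h5 : c * ((g • F) ∆ F).card ≤ δ / 4 :=
      (mul_le_mul_of_nonneg_left (hF' g hg) hc).trans_eq (by linear_combination δ / 4 * hc')
    have h6 : (0 : ℝ) ≤ 2⁻¹ ^ m := by positivity
    nlinarith [mul_le_mul_of_nonneg_right h5 (mul_nonneg (Nat.cast_nonneg (α := ℝ) R) h6),
      mul_le_mul_of_nonneg_right hR2 h6]

end Vale.Agent.P095
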