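import Vale.Agent.P095.Tr

/-! Elements of small trace are sums of elements of small norm (Cuntz-Pedersen). -/

namespace Vale.Agent.P095

open scoped CStarAlgebra
open Filter Topology
open Vale.Agent.P101

attribute [local instance] CStarAlgebra.spectralOrder CStarAlgebra.spectralOrderedRing

universe u

namespace CP

variable {E : Type*} [CStarAlgebra E]

/-- `y = ∑ γ* γ` and `x = ∑ γ γ*` with all `γ` in `s` -/
def Rel (s : Submodule ℂ E) (y x : E) : Prop := ∃ (K : ℕ) (γ : Fin K → E), (∀ k, γ k ∈ s) ∧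
  ∑ k, star (γ k) * γ k = y ∧ ∑ k, γ k * star (γ k) = x

variable {s : Submodule ℂ E} {y x y' x' : E}

lemma Rel.zero : Rel s 0 0 := ⟨0, Fin.elim0, fun k => k.elim0, by simp, by simp⟩

lemma Rel.single {γ : E} (h : γ ∈ s) : Rel s (star γ * γ) (γ * star γ) :=
  ⟨1, fun _ => γ, fun _ => h, by simp, by simp⟩

lemma Rel.add (h : Rel s y x) (h' : Rel s y' x') : Rel s (y + y') (x + x') := by
  obtain ⟨K, γ, h1, rfl, rfl⟩ := h
  obtain ⟨K', γ', h2, rfl, rfl⟩ := h'
  refine ⟨K + K', Fin.append γ γ', fun k => ?_, ?_, ?_⟩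
  · induction k using Fin.addCases <;> simp [h1, h2]
  · simp [Fin.sum_univ_add]
  · simp [Fin.sum_univ_add]

lemma Rel.smul (h : Rel s y x) {t : ℝ} (ht : 0 ≤ t) : Rel s (t • y) (t • x) := by
  obtain ⟨K, γ, h1, rfl, rfl⟩ := h
  refine ⟨K, fun k => √t • γ k, fun k => s.smul_of_tower_mem _ (h1 k), ?_, ?_⟩ <;>
    simp [Finset.smul_sum, smul_smul, Real.mul_self_sqrt ht]

lemma Rel.sum {κ : Type*} (F : Finset κ) {y x : κ → E} (h : ∀ k, Rel s (y k) (x k)) :
    Rel s (∑ k ∈ F, y k) (∑ k ∈ F, x k) := by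
  classical
  induction F using Finset.induction_on with
  | empty => simpa using Rel.zero
  | insert a F ha ih => simpa [Finset.sum_insert ha] using (h a).add ih

lemma Rel.nonneg (h : Rel s y x) : 0 ≤ x := by
  obtain ⟨K, γ, -, -, rfl⟩ := h
  exact Finset.sum_nonneg fun _ _ => mul_star_self_nonneg _

/-- elements fixed by left multiplication -/
def Ls (v : E) : Submodule ℂ E where
  carrier := {γ | v * γ = γ}
  add_mem' ha hb := by simp_all [mul_add]
  zero_mem' := by simp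
  smul_mem' c a ha := by simp_all

/-- elements fixed by left and right multiplication -/
def Hs (v : E) : Submodule ℂ E where
  carrier := {γ | v * γ = γ ∧ γ * v = γ}
  add_mem' ha hb := by simp_all [mul_add, add_mul]
  zero_mem' := by simp
  smul_mem' c a ha := by simp_all

lemma star_mem {v b : E} (hv : IsSelfAdjoint v) (hb : b ∈ Hs v) : star b ∈ Hs v :=
  ⟨by rw [← hv.star_eq, ← star_mul, hb.2], by rw [← hv.star_eq, ← star_mul, hb.1]⟩

lemma iter {v d W Q : E} {m : ℕ} {c : Fin m → E} {η : ℝ} (hη : 0 < η) (hd : star d = d)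
    (hvd : v * d = d * v) (hc : ∀ j, v * c j = c j)
    (h1 : ∑ j, star (c j) * c j + η • (d * d) = 1) (h2 : ∑ j, c j * W * star (c j) = Q)
    (h3 : d * W * d = 1) (h0 : 0 ≤ W) (hle : y + Q ≤ W) (hy : Rel (Ls v) y y) :
    ∃ x, Rel (Ls v) y x ∧ ‖x‖ ≤ 2 * η := by
  let Ψ : E → E := fun x => ∑ j, c j * x * star (c j)
  have split : ∀ y x, Rel (Ls v) y x → ∃ y₂ y₃, y₂ + y₃ = y ∧ Rel (Ls v) y₂ (Ψ x) ∧
      Rel (Ls v) y₃ (η • (d * x * d)) := by
    rintro _ _ ⟨K, γ, hγ, rfl, rfl⟩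
    have a1 := Rel.sum Finset.univ fun j => Rel.sum Finset.univ fun k =>
      Rel.single (s := Ls v) (γ := c j * γ k) (show v * _ = _ by rw [← mul_assoc, hc])
    have a2 := (Rel.sum Finset.univ fun k => Rel.single (s := Ls v) (γ := d * γ k)
      (show v * _ = _ by rw [← mul_assoc, hvd, mul_assoc, show v * γ k = γ k from hγ k])).smul hη.le
    refine ⟨_, _, ?_, by simpa [Ψ, Finset.mul_sum, Finset.sum_mul, mul_assoc] using a1,
      by simpa [hd, Finset.mul_sum, Finset.sum_mul, mul_assoc] using a2⟩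
    rw [Finset.sum_comm, Finset.smul_sum, ← Finset.sum_add_distrib]
    refine Finset.sum_congr rfl fun k _ => ?_
    calc _ = star (γ k) * ((∑ j, star (c j) * c j + η • (d * d)) * γ k) := by
          simp [Finset.mul_sum, Finset.sum_mul, mul_assoc, add_mul, mul_add]
      _ = _ := by rw [h1, one_mul]
  let S : ℕ → E := fun n => ∑ k ∈ Finset.range n, Ψ^[k] y
  have hS : ∀ n, S n ≤ W := fun n => by
    induction n with
    | zero => simpa [S] using h0
    | succ n ih =>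
      have e : S (n + 1) = y + Ψ (S n) := by
        simp only [S, Finset.sum_range_succ', Function.iterate_succ_apply', Function.iterate_zero,
          id, add_comm y]
        simp only [Ψ, Finset.mul_sum, Finset.sum_mul]
        rw [Finset.sum_comm]
      rw [e]
      refine le_trans (add_le_add_right ?_ y) hle
      rw [← h2]
      exact Finset.sum_le_sum fun j _ => star_right_conjugate_le_conjugate ih _
  have key : ∀ n, ∃ y₁ y₂, y₁ + y₂ = y ∧ Rel (Ls v) y₁ (Ψ^[n] y) ∧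
      Rel (Ls v) y₂ (η • (d * S n * d)) := fun n => by
    induction n with
    | zero => exact ⟨y, 0, add_zero _, hy, by simpa [S] using Rel.zero⟩
    | succ n ih =>
      obtain ⟨y₁, y₂, e, a1, a2⟩ := ih
      obtain ⟨y₃, y₄, e', a3, a4⟩ := split _ _ a1
      refine ⟨y₃, y₂ + y₄, by rw [← e, ← e']; abel, by rwa [Function.iterate_succ_apply'], ?_⟩
      simpa [S, Finset.sum_range_succ, mul_add, add_mul] using a2.add a4
  have key2 : ∀ n, Rel (Ls v) y (Ψ^[n] y + η • (d * S n * d)) := fun n => by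
    obtain ⟨y₁, y₂, e, a1, a2⟩ := key n
    have := a1.add a2
    rwa [e] at this
  obtain ⟨N, hN⟩ := exists_nat_gt (‖W‖ / η)
  have hN0 : (0 : ℝ) < N := lt_of_le_of_lt (by positivity) hN
  have a1 := (Rel.sum (Finset.range N) key2).smul (inv_nonneg.2 hN0.le)
  rw [Finset.sum_const, Finset.card_range, ← Nat.cast_smul_eq_nsmul ℝ, smul_smul,
    inv_mul_cancel₀ hN0.ne', one_smul] at a1
  refine ⟨_, a1, (CStarAlgebra.norm_le_iff_le_algebraMap _ (by positivity) a1.nonneg).2 ?_⟩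
  have a2 : ∑ n ∈ Finset.range N, (Ψ^[n] y + η • (d * S n * d)) ≤ (‖W‖ + N * η) • (1 : E) := by
    rw [Finset.sum_add_distrib, add_smul]
    refine add_le_add ((hS N).trans ?_) ?_
    · rw [← Algebra.algebraMap_eq_smul_one]
      exact h0.isSelfAdjoint.le_algebraMap_norm_self
    · refine (Finset.sum_le_card_nsmul _ _ (η • (1 : E)) fun n _ => ?_).trans_eq ?_
      · refine smul_le_smul_of_nonneg_left ?_ hη.le
        rw [← h3]
        exact IsSelfAdjoint.conjugate_le_conjugate (hS n) hd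
      · rw [Finset.card_range, ← Nat.cast_smul_eq_nsmul ℝ, smul_smul]
  refine (smul_le_smul_of_nonneg_left a2 (inv_nonneg.2 hN0.le)).trans ?_
  rw [smul_smul, Algebra.algebraMap_eq_smul_one]
  refine smul_le_smul_of_nonneg_right ?_ zero_le_one
  rw [div_lt_iff₀ hη] at hN
  rw [inv_mul_le_iff₀ hN0]
  linarith

lemma small {v P Q : E} (hv : IsSelfAdjoint v) {η : ℝ} (hη : 0 < η) (hy : 0 ≤ y) (hvy : v * y = y)
    (h : Rel (Hs v) P Q) (hle : y + Q ≤ P + η • 1) : ∃ x, Rel (Ls v) y x ∧ ‖x‖ ≤ 2 * η := by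
  obtain ⟨m, b, hb, hP, hQ⟩ := h
  have hP0 : 0 ≤ P := hP ▸ Finset.sum_nonneg fun _ _ => star_mul_self_nonneg _
  have hPv : Commute P v := by
    rw [← hP]
    exact Commute.sum_left _ _ _ fun j _ => by
      rw [Commute, SemiconjBy, mul_assoc, (hb j).2, ← mul_assoc, (star_mem hv (hb j)).1]
  have hd0 := CFC.sqrt_nonneg (res P η)
  have hdd := CFC.sqrt_mul_sqrt_self _ (res_nonneg P hη)
  have hdP : Commute (CFC.sqrt (res P η)) P := (res_comm hP0 (Commute.refl P) η).cfcₙ_nnreal _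
  have hdv : Commute (CFC.sqrt (res P η)) v := (res_comm hP0 hPv η).cfcₙ_nnreal _
  generalize CFC.sqrt (res P η) = d at hd0 hdd hdP hdv
  have h3 : d * (P + η • 1) * d = 1 := by
    rw [mul_add, add_mul, hdP.eq, mul_assoc, mul_smul_comm, smul_mul_assoc, mul_one, hdd,
      mul_res_eq hP0 hη, Complex.coe_smul, sub_add_cancel]
  obtain ⟨r, hr0, hr⟩ : ∃ r : E, 0 ≤ r ∧ r * r = y :=
    ⟨_, CFC.sqrt_nonneg y, CFC.sqrt_mul_sqrt_self y hy⟩
  have hvr : v * r = r := by
    rw [← sub_eq_zero, ← CStarRing.mul_star_self_eq_zero_iff, star_sub, star_mul, hr0.star_eq,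
      show (v * r - r) * (r * star v - r) = (v * (r * r) - r * r) * (star v - 1) by noncomm_ring,
      hr, hvy, sub_self, zero_mul]
  refine iter (d := d) (W := P + η • 1) (Q := Q) (c := fun j => b j * d) hη hd0.star_eq hdv.eq.symm
    (fun j => by rw [← mul_assoc, (hb j).1]) ?_ ?_ h3
    (add_nonneg hP0 (smul_nonneg hη.le zero_le_one)) hle ?_
  · rw [← h3, ← hP]
    simp [hd0.star_eq, Finset.mul_sum, Finset.sum_mul, mul_assoc, mul_add, add_mul]
  · rw [← hQ]
    refine Finset.sum_congr rfl fun j _ => ?_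
    rw [star_mul, hd0.star_eq, ← mul_assoc, mul_assoc (b j), mul_assoc (b j), h3, mul_one]
  · have := Rel.single (s := Ls v) (γ := r) hvr
    rwa [hr0.star_eq, hr] at this

lemma sep {v : E} (hv : IsSelfAdjoint v) {η : ℝ} (hη : 0 < η) (hy : IsSelfAdjoint y)
    (h : ∀ P Q, Rel (Hs v) P Q → ¬ y + Q ≤ P + η • 1) : ∃ f : E →ₗ[ℂ] ℂ, IsState f ∧
      (∀ a ∈ Hs v, ∀ b ∈ Hs v, f (a * b) = f (b * a)) ∧ η ≤ (f y).re := by
  obtain ⟨f, hf⟩ := RCLike.geometric_hahn_banach_open_point (𝕜 := ℂ) (x := y)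
    (s := {x : E | ∃ P Q c, c < η ∧ Rel (Hs v) P Q ∧ x + star x + Q ≤ P + (2 * c) • 1}) (by
      rintro x ⟨P, Q, c, hc, h1, h2⟩ x' ⟨P', Q', c', hc', h1', h2'⟩ a b ha hb hab
      refine ⟨_, _, a * c + b * c', (convex_Iio η) hc hc' ha hb hab,
        (h1.smul ha).add (h1'.smul hb), ?_⟩
      have := add_le_add (smul_le_smul_of_nonneg_left h2 ha) (smul_le_smul_of_nonneg_left h2' hb)
      refine (le_of_eq ?_).trans (this.trans_eq ?_)
      · simp only [star_add, star_smul, star_trivial]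
        module
      · module)
    (Metric.isOpen_iff.2 (by
      rintro x ⟨P, Q, c, hc, h1, h2⟩
      refine ⟨η - c, by linarith, fun x' hx' => ⟨P, Q, c + ‖x' - x‖, ?_, h1, ?_⟩⟩
      · rw [Metric.mem_ball, dist_eq_norm] at hx'
        linarith
      · have h3 := (IsSelfAdjoint.add_star_self (x' - x)).le_algebraMap_norm_self
        have h4 : ‖x' - x + star (x' - x)‖ • (1 : E) ≤ (2 * ‖x' - x‖) • 1 :=
          smul_le_smul_of_nonneg_right ((norm_add_le _ _).trans (by rw [norm_star, two_mul]))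
            zero_le_one
        rw [Algebra.algebraMap_eq_smul_one] at h3
        refine (le_of_eq ?_).trans ((add_le_add h2 (h3.trans h4)).trans_eq ?_)
        · rw [star_sub]; abel
        · module))
    (by
      rintro ⟨P, Q, c, hc, h1, h2⟩
      refine h _ _ (h1.smul (t := 2⁻¹) (by positivity)) ?_
      have h3 := add_le_add (smul_le_smul_of_nonneg_left h2 (show (0 : ℝ) ≤ 2⁻¹ by positivity))
        (smul_nonneg (sub_nonneg.2 hc.le) (zero_le_one (α := E)))
      refine (le_of_eq ?_).trans (h3.trans_eq ?_)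
      · rw [hy.star_eq]; module
      · module)
  replace hf : ∀ x P Q c, c < η → Rel (Hs v) P Q → x + star x + Q ≤ P + (2 * c) • 1 →
      (f x).re < (f y).re := fun x P Q c h1 h2 h3 => hf x ⟨P, Q, c, h1, h2, h3⟩
  have h0 : 0 < (f y).re := by simpa using hf 0 0 0 0 hη Rel.zero (by simp)
  have key : ∀ x P Q, Rel (Hs v) P Q → x + star x + Q ≤ P → (f x).re ≤ 0 := fun x P Q h1 h2 => by
    by_contra! h3
    have ht : 0 ≤ (f y).re / (f x).re := by positivity
    have h4 := hf (((f y).re / (f x).re) • x) _ _ 0 hη (h1.smul ht) (by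
      simpa using smul_le_smul_of_nonneg_left h2 ht)
    rw [f.map_smul_of_tower, Complex.smul_re, smul_eq_mul, div_mul_cancel₀ _ h3.ne'] at h4
    exact lt_irrefl _ h4
  have hp : IsPos (f : E →ₗ[ℂ] ℂ) := pos_of_re fun a => by
    have h1 := key (-(star a * a)) 0 0 Rel.zero (by
      rw [star_neg, star_mul, star_star, add_zero, ← neg_add, neg_nonpos]
      exact add_nonneg (star_mul_self_nonneg a) (star_mul_self_nonneg a))
    have h2 := key (Complex.I • (star a * a)) 0 0 Rel.zero (by simp)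
    have h3 := key (-Complex.I • (star a * a)) 0 0 Rel.zero (by simp)
    simp at h1 h2 h3
    exact ⟨h1, le_antisymm h3 h2⟩
  have ht : ∀ b ∈ Hs v, f (star b * b) = f (b * star b) := fun b hb => by
    have h1 : ∀ b ∈ Hs v, (f (star b * b)).re ≤ (f (b * star b)).re := fun b hb => by
      have := key (star b * b - b * star b) _ _ ((Rel.single hb).add (Rel.single hb))
        (le_of_eq (by simp only [star_sub, star_mul, star_star]; abel))
      rwa [map_sub, Complex.sub_re, sub_nonpos] at this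
    have h2 := h1 _ (star_mem hv hb)
    rw [star_star] at h2
    exact Complex.ext (le_antisymm (h1 b hb) h2) ((hp.im b).trans
      (pos_im hp (IsSelfAdjoint.mul_star_self b)).symm)
  have h1 : 0 < (f 1).re := by
    have := (Complex.re_le_norm _).trans (pos_norm_le hp y)
    exact pos_of_mul_pos_right (h0.trans_le this) (norm_nonneg y)
  have h2 : f 1 = (f 1).re := pos_eq_re hp (IsSelfAdjoint.one E)
  refine ⟨((f 1).re⁻¹ : ℝ) • (f : E →ₗ[ℂ] ℂ), ⟨?_, fun a => ?_⟩, fun a ha b hb => ?_,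
    le_of_forall_lt_imp_le_of_dense fun c hc => ?_⟩
  · change ((f 1).re⁻¹ : ℝ) • f 1 = 1
    nth_rw 2 [h2]
    rw [Complex.real_smul, ← Complex.ofReal_mul, inv_mul_cancel₀ h1.ne', Complex.ofReal_one]
  · obtain ⟨r, hr, hr'⟩ := hp a
    exact ⟨(f 1).re⁻¹ * r, by positivity, by simp [hr']⟩
  · change ((f 1).re⁻¹ : ℝ) • f _ = ((f 1).re⁻¹ : ℝ) • f _
    congr 1
    have e1 := ht _ ((Hs v).add_mem (star_mem hv ha) hb)
    have e2 := ht _ ((Hs v).add_mem (star_mem hv ha) ((Hs v).smul_mem Complex.I hb))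
    have e3 := ht a ha
    have e4 := ht b hb
    simp only [star_add, star_smul, star_star, add_mul, mul_add, map_add, smul_mul_assoc,
      mul_smul_comm, map_smul, smul_eq_mul, RCLike.star_def, Complex.conj_I] at e1 e2
    linear_combination (1 / 2 : ℂ) * e1 - (Complex.I / 2) * e2 + ((1 - Complex.I) / 2) * e3 +
      (-1 / 2 + Complex.I / 2 : ℂ) * e4 + ((f (a * b) - f (b * a) - f (star b * star a) + f (star a * star b)) / 2 +
        Complex.I / 2 * (f (b * star b) - f (star b * b))) * Complex.I_mul_I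
  · have h3 := hf (c • 1) 0 0 c hc Rel.zero (le_of_eq (by simp [two_mul, add_smul]))
    rw [f.map_smul_of_tower, Complex.smul_re, smul_eq_mul] at h3
    change c ≤ (((f 1).re⁻¹ : ℝ) • f y).re
    rw [Complex.smul_re, smul_eq_mul, le_inv_mul_iff₀ h1, mul_comm]
    exact h3.le

end CP

variable {G : Type*} [Group G] {A : Type*} [NonUnitalCStarAlgebra A] {X : GAlg.{u} G} {S : Sys A X}

open CP in
lemma cp_alt (hS : S.Good) {e : X.E} (he : 0 ≤ e) {η : ℝ} (hη : 0 < η) {u u' : A}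
    (hu : IsSelfAdjoint u) (hu' : IsSelfAdjoint u') (huu : u' * u = u) :
    ∃ f : X.E →ₗ[ℂ] ℂ, IsState f ∧ ((∃ (K : ℕ) (γ : Fin K → A), (∀ k, u' * γ k = γ k) ∧
      S.φ (∑ k, star (γ k) * γ k) = S.φ (u * u) * e * S.φ (u * u) ∧
      ‖∑ k, γ k * star (γ k)‖ ≤ 2 * η) ∨
    (∀ a ∈ Hs (S.φ u'), ∀ b ∈ Hs (S.φ u'), f (a * b) = f (b * a)) ∧
      η ≤ (f (S.φ (u * u) * e * S.φ (u * u))).re) := by
  have hv : IsSelfAdjoint (S.φ (u * u)) := (hu.mul_self_nonneg.isSelfAdjoint).map S.φ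
  have hy := hv.conjugate_nonneg he
  by_cases h : ∀ P Q, Rel (Hs (S.φ u')) P Q → ¬ S.φ (u * u) * e * S.φ (u * u) + Q ≤ P + η • 1
  · obtain ⟨f, h1, h2⟩ := sep (hu'.map S.φ) hη hy.isSelfAdjoint h
    exact ⟨f, h1, Or.inr h2⟩
  · push Not at h
    obtain ⟨P, Q, h1, h2⟩ := h
    obtain ⟨_, ⟨K, γ, h3, h4, rfl⟩, h5⟩ := small (hu'.map S.φ) hη hy
      (by rw [← mul_assoc, ← mul_assoc, ← map_mul, ← mul_assoc, huu]) h1 h2
    have := hS.nontrivial
    obtain ⟨f, hf, -⟩ := exists_state (0 : X.E)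
    choose a ha using fun k => hS.ideal' (γ k) u'
    replace ha : ∀ k, γ k = S.φ (a k) := fun k => (h3 k).symm.trans (ha k)
    refine ⟨f, hf, Or.inl ⟨K, a, fun k => ?_, ?_, ?_⟩⟩
    · rw [← sub_eq_zero, ← norm_eq_zero, ← hS.iso, map_sub, map_mul, ← ha,
        show S.φ u' * γ k = γ k from h3 k, sub_self, norm_zero]
    · simpa [ha, map_star] using h4
    · rw [← hS.iso]
      simpa [ha, map_star] using h5

theorem cp {I : Type} {U : Ultrafilter I} {D : GAlg.{u} G} {ι : (Cen S U).E →⋆ₐ[ℂ] D.E}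
    (h : IsModel ι) (hS : S.Good) {e : (Cen S U).E} (he : ∀ i, 0 ≤ e i) {δ η : ℝ}
    (hδ : ∀ σ, IsTr σ → (σ (ι e)).re ≤ δ) (h0 : 0 ≤ δ) (hη : δ < η) {u u' : A}
    (hu : IsSelfAdjoint u) (hu1 : ‖u‖ ≤ 1) (hu' : IsSelfAdjoint u') (huu : u' * u = u) :
    ∀ᶠ i in U, ∃ (K : ℕ) (γ : Fin K → A), (∀ k, u' * γ k = γ k) ∧
      S.φ (∑ k, star (γ k) * γ k) = S.φ (u * u) * e i * S.φ (u * u) ∧
      ‖∑ k, γ k * star (γ k)‖ ≤ 2 * η := by
  choose f hf hf' using fun i => cp_alt hS (he i) (h0.trans_lt hη) hu hu' huu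
  by_contra hn
  have H := (Ultrafilter.eventually_not.2 hn).mono fun i hi => (hf' i).resolve_left hi
  clear hf' hn
  have hw : IsSelfAdjoint (S.φ (u * u)) := (hu.mul_self_nonneg.isSelfAdjoint).map S.φ
  have hw1 : ‖S.φ (u * u)‖ ≤ 1 := by
    rw [hS.iso]; simpa using norm_mul_le_of_le hu1 hu1
  obtain ⟨τ, hτ⟩ := exists_lim U (fun i => f i ∘ₗ LinearMap.mulRight ℂ (S.φ (u * u)) ∘ₗ
    LinearMap.mulLeft ℂ (S.φ (u * u)) ∘ₗ (Cen.ev (S := S) (U := U) i).toAlgHom.toLinearMap) (C := 1)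
      fun i x => (st_norm_le (hf i) _).trans ((norm_mul_le_of_le (norm_mul_le_of_le hw1
        (Cen.norm_apply_le x i)) hw1).trans_eq (mul_one _))
  replace hτ : ∀ x, Tendsto (fun i => f i (S.φ (u * u) * x i * S.φ (u * u))) U (𝓝 (τ x)) := hτ
  have hz : ∀ z : I → X.E, Tendsto z U (𝓝 0) → Tendsto (fun i => f i (z i)) U (𝓝 0) := fun z hz =>
    squeeze_zero_norm (fun i => st_norm_le (hf i) _) (tendsto_zero_iff_norm_tendsto_zero.1 hz)
  have hp : IsPos τ := pos_of_re fun x => by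
    have e : ∀ i, S.φ (u * u) * (star x * x) i * S.φ (u * u) =
        star (x i * S.φ (u * u)) * (x i * S.φ (u * u)) := fun i => by
      simp only [Cen.mul_apply, Cen.star_apply, star_mul, hw.star_eq, mul_assoc]
    have h1 := hτ (star x * x)
    simp only [e] at h1
    exact ⟨ge_of_tendsto' ((Complex.continuous_re.tendsto _).comp h1) fun i => IsPos.re (hf i).2 _,
      tendsto_nhds_unique ((Complex.continuous_im.tendsto _).comp h1)
        (tendsto_const_nhds.congr fun i => (IsPos.im (hf i).2 _).symm)⟩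
  have hm : ∀ x y, Tendsto (fun i => f i (S.φ u * x i * S.φ u * (S.φ u * y i * S.φ u))) U
      (𝓝 (τ (x * y))) := fun x y => by
    have h1 := (((Cen.comm x u).zero_mul_isBoundedUnder_le
      (isBoundedUnder_of ⟨_, Cen.norm_apply_le y⟩)).const_mul (S.φ u)).mul_const (S.φ u * S.φ u)
    have h2 := (isBoundedUnder_le_mul_tendsto_zero (isBoundedUnder_of ⟨_, Cen.norm_apply_le x⟩)
      (((Cen.comm y u).const_mul (S.φ u)).mul_const (S.φ u) |>.trans (by simp))).const_mul (S.φ u)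
    have h3 := (hτ (x * y)).add (hz _ ((h1.sub h2).trans (by simp)))
    rw [add_zero] at h3
    refine h3.congr fun i => ?_
    rw [← map_add, map_mul, Cen.mul_apply]
    congr 1
    noncomm_ring
  have hH : ∀ x : X.E, S.φ u * x * S.φ u ∈ CP.Hs (S.φ u') := fun x =>
    ⟨by rw [← mul_assoc, ← mul_assoc, ← map_mul, huu], by
      rw [mul_assoc, ← map_mul, ← hu.star_eq, ← hu'.star_eq, ← star_mul, huu]⟩
  have hc : ∀ x y, τ (x * y) = τ (y * x) := fun x y =>
    tendsto_nhds_unique (hm x y) ((hm y x).congr' (H.mono fun i hi => hi.1 _ (hH _) _ (hH _)))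
  have hk : ∀ x, ι x = 0 → τ x = 0 := fun x hx => tendsto_nhds_unique (hτ x) (hz _ (by
    simpa [mul_assoc] using (h.tend hx (u * u)).const_mul (S.φ (u * u))))
  have h1 : (τ 1).re ≤ 1 := le_of_tendsto' ((Complex.continuous_re.tendsto _).comp (hτ 1))
    fun i => (st_re_le (hf i) _).trans (by simpa using norm_mul_le_of_le hw1 hw1)
  have h2 : η ≤ (τ e).re :=
    ge_of_tendsto ((Complex.continuous_re.tendsto _).comp (hτ e)) (H.mono fun i hi => hi.2)
  have h3 : 0 < (τ 1).re := by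
    have := (Complex.re_le_norm _).trans (pos_norm_le hp e)
    exact pos_of_mul_pos_right (((h0.trans_lt hη).trans_le h2).trans_le this) (norm_nonneg e)
  obtain ⟨g, hg⟩ := ι.toAlgHom.toLinearMap.exists_rightInverse_of_surjective
    (LinearMap.range_eq_top.2 h.surj)
  have hσ : ∀ x, τ (g (ι x)) = τ x := fun x => by
    rw [← sub_eq_zero, ← map_sub]
    exact hk _ (by rw [map_sub, sub_eq_zero]; exact LinearMap.congr_fun hg (ι x))
  have h4 := hδ (((τ 1).re⁻¹ : ℝ) • (τ ∘ₗ g)) ⟨⟨?_, fun y => ?_⟩, fun x y => ?_⟩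
  · change (((τ 1).re⁻¹ : ℝ) • τ (g (ι e))).re ≤ δ at h4
    rw [hσ, Complex.smul_re, smul_eq_mul, inv_mul_le_iff₀ h3] at h4
    nlinarith
  · change ((τ 1).re⁻¹ : ℝ) • τ (g 1) = 1
    rw [← map_one ι, hσ]
    nth_rw 2 [pos_eq_re hp (IsSelfAdjoint.one _)]
    rw [Complex.real_smul, ← Complex.ofReal_mul, inv_mul_cancel₀ h3.ne', Complex.ofReal_one]
  · obtain ⟨x, rfl⟩ := h.surj y
    obtain ⟨r, hr, hr'⟩ := hp x
    refine ⟨(τ 1).re⁻¹ * r, by positivity, ?_⟩
    change ((τ 1).re⁻¹ : ℝ) • τ (g _) = _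
    rw [← map_star, ← map_mul, hσ, hr', Complex.real_smul, Complex.ofReal_mul]
  · obtain ⟨x, rfl⟩ := h.surj x
    obtain ⟨y, rfl⟩ := h.surj y
    change ((τ 1).re⁻¹ : ℝ) • τ (g _) = ((τ 1).re⁻¹ : ℝ) • τ (g _)
    rw [← map_mul, ← map_mul, hσ, hσ, hc]

end Vale.Agent.P095
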