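import Vale.Agent.P095.Tr

/-! The canonical system, cut-downs and Choi roots. -/

namespace Vale.Agent.P095

open scoped CStarAlgebra
open Filter Topology
open Vale.Agent.P101

attribute [local instance] CStarAlgebra.spectralOrder CStarAlgebra.spectralOrderedRing

universe u

variable {G : Type*} [Group G] {A : Type u} [NonUnitalCStarAlgebra A]

/-- the unitization with the extended action -/
noncomputable def uniG (α : G →* (A ≃⋆ₐ[ℂ] A)) : GAlg.{u} G where
  E := Unitization ℂ A
  act g := Unitization.starMap (α g : A →⋆ₙₐ[ℂ] A)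
  act_one x := by
    induction x using Unitization.ind with
    | inl_add_inr r a =>
      simp only [map_add, Unitization.starMap_inr, Unitization.starMap_inl]
      simp [Unitization.algebraMap_eq_inl]
  act_mul g h x := by
    induction x using Unitization.ind with
    | inl_add_inr r a =>
      simp only [map_add, Unitization.starMap_inr, Unitization.starMap_inl, AlgHomClass.commutes]
      simp

/-- the canonical system -/
noncomputable def canon (α : G →* (A ≃⋆ₐ[ℂ] A)) : Sys A (uniG α) where
  φ := Unitization.inrNonUnitalStarAlgHom ℂ A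
  α g := α g
  cov g a := Unitization.starMap_inr _ a
  nrm g a := (StarAlgEquiv.norm_map (α g) a).le

lemma canon_good (α : G →* (A ≃⋆ₐ[ℂ] A)) (hA : IsSimple A) : (canon α).Good where
  ideal x a := by
    induction x using Unitization.ind with
    | inl_add_inr r b =>
      refine ⟨r • a + b * a, ?_⟩
      have : (Unitization.inl r + (b : Unitization ℂ A)) * (a : Unitization ℂ A) =
          ((r • a + b * a : A) : Unitization ℂ A) := by
        rw [add_mul, Unitization.inl_mul_inr]; simp
      exact this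
  iso a := Unitization.norm_inr a
  simple := hA

open scoped Matrix.Norms.L2Operator in
/-- Choi root of a completely positive map on a matrix algebra -/
lemma IsCP.choi {B : Type*} [NonUnitalCStarAlgebra B] {n : ℕ} {ψ : Matrix (Fin n) (Fin n) ℂ →ₗ[ℂ] B}
    (h : IsCP ψ) : ∃ d : Fin n → Fin n → B, ∀ x,
      ψ x = ∑ l, ∑ i, ∑ j, x i j • (star (d l i) * d l j) := by
  rcases n with _ | n
  · exact ⟨fun l => l.elim0, fun x => by simp [Subsingleton.elim x 0]⟩
  obtain ⟨N, hN⟩ := h (n + 1) (Matrix.of fun l j => if l = 0 then Matrix.single 0 j 1 else 0)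
  refine ⟨N, fun x => ?_⟩
  have h1 : ∀ i j, ψ (Matrix.single i j 1) = ∑ l, star (N l i) * N l j := fun i j => by
    have := congrFun (congrFun hN i) j
    rw [Matrix.map_apply, Matrix.mul_apply, Matrix.mul_apply, Finset.sum_eq_single 0 (by
      intro b _ hb; simp [hb]) (by simp)] at this
    simpa [Matrix.star_eq_conjTranspose] using this
  rw [Finset.sum_comm]
  nth_rw 1 [Matrix.matrix_eq_sum_single x]
  rw [map_sum]
  refine Finset.sum_congr rfl fun i _ => ?_
  rw [map_sum, Finset.sum_comm]
  refine Finset.sum_congr rfl fun j _ => ?_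
  rw [← Finset.smul_sum, ← h1, ← map_smul]
  simp

open scoped MultiplierAlgebra in
/-- the hypothesis of the one-sided intertwining argument -/
def Appr {A B : Type*} [NonUnitalCStarAlgebra A] [NonUnitalCStarAlgebra B]
    (β : G →* (B ≃⋆ₐ[ℂ] B)) (φ : A →⋆ₙₐ[ℂ] B) : Prop :=
  ∀ (FA : Finset A) (FB : Finset B) (FG : Finset G) (ε : ℝ), 0 < ε → ∃ v ∈ unitary 𝓜(ℂ, B),
    (∀ a ∈ FA, ‖v * (φ a : 𝓜(ℂ, B)) * star v - (φ a : 𝓜(ℂ, B))‖ ≤ ε) ∧
    (∀ b ∈ FB, ∃ a, ‖v * (φ a : 𝓜(ℂ, B)) * star v - (b : 𝓜(ℂ, B))‖ ≤ ε) ∧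
    ∀ g ∈ FG, ∀ b ∈ FB, ‖β g ((star v).fst ((β g).symm b)) - (star v).fst b‖ ≤ ε

end Vale.Agent.P095
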