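import Vale.Agent.P095.Mac

/-! Invariant projections, square zero elements, and the tracial conclusion. -/

namespace Vale.Agent.P095

open scoped CStarAlgebra ComplexConjugate Pointwise symmDiff
open Filter Topology Finset Function
open Vale.Agent.P101

attribute [local instance] CStarAlgebra.spectralOrder CStarAlgebra.spectralOrderedRing

universe u

variable {G : Type*} [Group G] {C : Set (TAlg.{u} G)}

/-- ramps -/
noncomputable def rp (R r : ℕ) (s : ℝ) : ℝ := max 0 (min 1 (R * s - r))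

lemma rp_cont (R r : ℕ) : Continuous (rp R r) := by unfold rp; fun_prop

lemma rp_mem (R r : ℕ) (s : ℝ) : 0 ≤ rp R r s ∧ rp R r s ≤ 1 :=
  ⟨le_max_left _ _, max_le zero_le_one (min_le_left _ _)⟩

lemma rp_sum (R : ℕ) {s : ℝ} (hs : 0 ≤ s) (n : ℕ) : ∑ r ∈ range n, rp R r s = min (R * s) n := by
  induction n with
  | zero => simp; positivity
  | succ n ih =>
    rw [sum_range_succ, ih, rp]
    push_cast
    simp only [min_def, max_def]
    split_ifs <;> linarith

lemma rp_def (R : ℕ) (s : ℝ) (n : ℕ) : ∑ r ∈ range n, (rp R r s - rp R r s * rp R r s) ≤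
    if (n : ℝ) ≤ R * s then 0 else 1 := by
  induction n with
  | zero => split_ifs <;> simp
  | succ n ih =>
    rw [sum_range_succ]
    push_cast
    by_cases h1 : (n : ℝ) + 1 ≤ R * s
    · rw [if_pos (by linarith)] at ih
      have : rp R n s = 1 := by rw [rp, min_eq_left (by linarith), max_eq_right zero_le_one]
      rw [if_pos h1, this]; linarith
    · rw [if_neg h1]
      split_ifs at ih with h2
      · nlinarith [rp_mem R n s]
      · have : rp R n s = 0 := max_eq_left (min_le_of_right_le (by linarith))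
        rw [this]; linarith

theorem Cls.proj_ap [DecidableEq G] [Countable G] (hC : Cls C) (hG : IsAmenable G) (n : ℕ) :
    ∃ Q ∈ C, ∃ p V : Q.E, (star p = p ∧ ‖p‖ ≤ 1 ∧ ∀ g, Q.act g p = p) ∧
      (star V = V ∧ ‖V‖ ≤ 1 ∧ ∀ g, Q.act g V = V) ∧ ∀ τ ∈ Q.T,
        2⁻¹ ^ 33 ≤ nq τ (p * V - V * p) ^ 2 ∧ nq τ (p - p * p) ^ 2 ≤ 1 / (n + 1) := by
  obtain ⟨Q, hQ, U, h1, h2⟩ := hC.mac hG
  obtain ⟨Q', hQ', j, S, ω, H⟩ := hC.sel hG hQ (Fin (n + 1))
  obtain ⟨u0, u1, u2⟩ := h1 true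
  obtain ⟨v0, v1, v2⟩ := h1 false
  set f : Fin (n + 1) → Q.E := fun r => cfc (rp (n + 1) r) (U true) with hf
  have hsp : ∀ s ∈ spectrum ℝ (U true), 0 ≤ s ∧ s ≤ 1 := fun s hs =>
    ⟨spectrum_nonneg_of_nonneg u0 hs, (CFC.le_one_iff _).1
      ((CStarAlgebra.norm_le_one_iff_of_nonneg _ u0).1 u1) s hs⟩
  have f1 : ∑ r, f r = ((n + 1 : ℕ) : ℝ) • U true := by
    rw [hf, Fin.sum_univ_eq_sum_range (fun r => cfc (rp (n + 1) r) (U true)),
      ← cfc_sum _ _ _ fun r _ => (rp_cont _ r).continuousOn, 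
      ← cfc_smul_id (R := ℝ) _ (U true)]
    refine cfc_congr fun s hs => ?_
    rw [Finset.sum_apply, rp_sum _ (hsp s hs).1, min_eq_left (by nlinarith [hsp s hs])]
    rfl
  have f2 : ∑ r, star (f r - f r * f r) * (f r - f r * f r) ≤ 1 := by
    have : ∀ r, star (f r - f r * f r) * (f r - f r * f r) = cfc (fun s => (rp (n + 1) r s -
        rp (n + 1) r s * rp (n + 1) r s) * (rp (n + 1) r s - rp (n + 1) r s * rp (n + 1) r s))
        (U true) := fun r => by
      have := rp_cont (n + 1) r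
      rw [hf, ← cfc_mul .., ← cfc_sub .., IsSelfAdjoint.cfc.star_eq, ← cfc_mul ..]
    simp only [this]
    rw [← cfc_sum _ _ _ fun r _ => by have := rp_cont (n + 1) r; fun_prop]
    refine cfc_le_one _ _ fun s _ => ?_
    rw [Finset.sum_apply]
    refine le_trans (sum_le_sum fun r _ => ?_) (((Fin.sum_univ_eq_sum_range (fun r => rp (n + 1) r s -
      rp (n + 1) r s * rp (n + 1) r s) _).trans_le (rp_def _ s _)).trans (by split_ifs <;> norm_num))
    obtain ⟨h3, h4⟩ := rp_mem (n + 1) r s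
    have h5 := mul_nonneg h3 (sub_nonneg.2 h4)
    nlinarith
  have hω := H.hi
  have hω' := H.lo
  simp only [Fintype.card_fin] at hω hω'
  refine ⟨Q', hQ', S f, j (U false), ⟨?_, (NonUnitalStarAlgHom.norm_apply_le S _).trans
    ((pi_norm_le_iff_of_nonneg zero_le_one).2 fun r => norm_cfc_le zero_le_one fun s _ => ?_),
    fun g => ?_⟩, ⟨by rw [← map_star, v0.isSelfAdjoint.star_eq],
    (NonUnitalStarAlgHom.norm_apply_le j _).trans v1, fun g => by rw [← H.eqv, v2]⟩,
    fun τ hτ => ⟨?_, ?_⟩⟩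
  · rw [← map_star]
    exact congrArg S (funext fun r => IsSelfAdjoint.cfc.star_eq)
  · rw [Real.norm_of_nonneg (rp_mem _ _ _).1]; exact (rp_mem _ _ _).2
  · rw [H.act]
    exact congrArg S (funext fun r => by rw [hf, map_cfc_real _ u0.isSelfAdjoint (rp_cont _ _), u2])
  · have h6 := H.tr (-(star (fun r => f r * U false - U false * f r) * fun r =>
      f r * U false - U false * f r)) (-((n + 1 : ℕ) * 2⁻¹ ^ 32)) (fun σ hσ => by
        have ht := hC.tr hQ hσ
        have h3 := nq_sum_le ht.pos univ fun r => f r * U false - U false * f r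
        rw [sum_sub_distrib, ← sum_mul, ← mul_sum, f1, smul_mul_assoc, mul_smul_comm, ← smul_sub,
          ← Complex.coe_smul, ht.pos.nq_smul, Complex.norm_real, Real.norm_natCast] at h3
        have h4 := (pow_le_pow_left₀ (mul_nonneg (Nat.cast_nonneg _) (nq_nonneg _)) h3 2).trans
          sq_sum_le_card_mul_sum_sq
        rw [card_univ, Fintype.card_fin, mul_pow, sq, mul_assoc] at h4
        have h5 := (mul_le_mul_of_nonneg_left (h2 σ hσ) (Nat.cast_nonneg (n + 1))).trans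
          (le_of_mul_le_mul_left h4 (by positivity))
        simpa [nq_sq ht.pos] using h5) τ hτ
    rw [H.mul, H.mul', ← map_sub, nq_sq (hC.tr hQ' hτ).pos, ← map_star, ← map_mul]
    rw [map_neg, map_neg, Complex.neg_re] at h6
    refine le_trans ?_ (neg_le_neg_iff.1 (h6.trans_eq (mul_neg _ _)))
    linarith
  · rw [← map_mul, ← map_sub, nq_sq (hC.tr hQ' hτ).pos, ← map_star, ← map_mul]
    refine (H.tr _ 1 (fun σ hσ => ?_) τ hτ).trans ?_
    · simpa [(hC.tr hQ hσ).one] using pos_mono (hC.tr hQ hσ).pos f2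
    · rw [le_div_iff₀ (by positivity)]
      push_cast at hω
      linarith

theorem Cls.proj [DecidableEq G] [Countable G] (hC : Cls C) (hG : IsAmenable G) :
    ∃ Q ∈ C, ∃ p V : Q.E, IsStarProjection p ∧ (∀ g, Q.act g p = p) ∧ star V = V ∧ ‖V‖ ≤ 1 ∧
      (∀ g, Q.act g V = V) ∧ ∀ τ ∈ Q.T, 2⁻¹ ^ 33 ≤ nq τ (p * V - V * p) ^ 2 := by
  choose Q hQ p V h1 h2 h3 using hC.proj_ap hG
  obtain ⟨Q', hQ', Θ, H⟩ := hC.up' Q hQ
  let y : Prd fun n => (Q n).E := Prd.mk p ⟨1, fun n => (h1 n).2.1⟩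
  let z : Prd fun n => (Q n).E := Prd.mk V ⟨1, fun n => (h2 n).2.1⟩
  refine ⟨Q', hQ', Θ y, Θ z, ⟨?_, ?_⟩, fun g => ?_, ?_, (NonUnitalStarAlgHom.norm_apply_le Θ _).trans
    (Prd.norm_le _ zero_le_one fun n => (h2 n).2.1), fun g => ?_, fun τ hτ => ?_⟩
  · rw [IsIdempotentElem, eq_comm, ← sub_eq_zero, ← map_mul, ← map_sub]
    refine H.zero _ fun ε hε => (ev_small (pow_pos hε 2)).mono fun n hn σ hσ => ?_
    exact (abs_le_of_sq_le_sq' ((h3 n σ hσ).2.trans hn) hε.le).2
  · rw [IsSelfAdjoint, ← map_star]; exact congrArg Θ (Prd.ext fun n => (h1 n).1)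
  · rw [← H.eqv]; exact congrArg Θ (Prd.ext fun n => (h1 n).2.2 g)
  · rw [← map_star]; exact congrArg Θ (Prd.ext fun n => (h2 n).1)
  · rw [← H.eqv]; exact congrArg Θ (Prd.ext fun n => (h2 n).2.2 g)
  · rw [← map_mul, ← map_mul, ← map_sub]
    exact H.lo hC hQ hQ' (fun n σ hσ => (h3 n σ hσ).1) hτ

/-- invariant square zero elements -/
structure Car (Q : TAlg.{u} G) (y : Q.E) (η : ℝ) : Prop where
  sq : y * y = 0
  le : 0 ≤ 1 - (star y * y + y * star y)
  inv : ∀ g, Q.act g y = y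
  tr : ∀ τ ∈ Q.T, (τ (1 - (star y * y + y * star y))).re ≤ η

theorem Cls.car_base [DecidableEq G] [Countable G] (hC : Cls C) (hG : IsAmenable G) :
    ∃ Q ∈ C, ∃ x w : Q.E, Car Q x (1 - 2⁻¹ ^ 33) ∧ star w = w ∧ (∀ g, Q.act g w = w) ∧
      w * x = -(x * w) ∧ w * w = 1 - (star x * x + x * star x) := by
  obtain ⟨Q, hQ, p, V, hp, h1, h2, h3, h4, h5⟩ := hC.proj hG
  obtain ⟨x, hx⟩ : ∃ x, x = p * V * (1 - p) := ⟨_, rfl⟩
  have pp := hp.isIdempotentElem.eq
  have ps := hp.isSelfAdjoint.star_eq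
  have a1 : p * x = x := by rw [hx, ← mul_assoc, ← mul_assoc, pp]
  have a2 : x * p = 0 := by rw [hx, mul_assoc, sub_mul, pp]; simp
  have a3 : x * x = 0 := by rw [← a1, ← mul_assoc, mul_assoc p, a2]; simp
  have a4 : star x * p = star x := by rw [← ps, ← star_mul, a1]
  have a5 : p * star x = 0 := by rw [← ps, ← star_mul, a2, star_zero]
  have a6 : star x * star x = 0 := by rw [← star_mul, a3, star_zero]
  have a7 : ‖x‖ ≤ 1 := hx ▸ (norm_mul_le_of_le (norm_mul_le_of_le hp.norm_le h3)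
    hp.one_sub.norm_le).trans_eq (by norm_num)
  have a8 : ∀ g, Q.act g x = x := fun g => by simp [hx, h1, h4]
  have a9 : 0 ≤ 1 - (star x * x + x * star x) := by
    have b1 := star_left_conjugate_nonneg (sub_nonneg.2 (CStarAlgebra.star_mul_le_algebraMap_norm_sq
      (a := x) |>.trans (show algebraMap ℝ Q.E (‖x‖ ^ 2) ≤ 1 from by
        rw [← map_one (algebraMap ℝ Q.E)]
        exact algebraMap_mono _ (pow_le_one₀ (norm_nonneg _) a7)))) (1 - p)
    have b2 := star_left_conjugate_nonneg (sub_nonneg.2 (CStarAlgebra.mul_star_le_algebraMap_norm_sq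
      (a := x) |>.trans (show algebraMap ℝ Q.E (‖x‖ ^ 2) ≤ 1 from by
        rw [← map_one (algebraMap ℝ Q.E)]
        exact algebraMap_mono _ (pow_le_one₀ (norm_nonneg _) a7)))) p
    convert add_nonneg b1 b2 using 1
    simp only [star_sub, star_one, ps, mul_sub, sub_mul, one_mul, mul_one, mul_assoc, a2, a4, pp,
      ← mul_assoc p (star x), a5, ← mul_assoc p x, a1, zero_mul, mul_zero]
    abel
  set h := star x * x + x * star x with hh
  have hs : IsSelfAdjoint h := (IsSelfAdjoint.star_mul_self x).add (IsSelfAdjoint.mul_star_self x)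
  have c1 : Commute h x := by
    simp only [hh, Commute, SemiconjBy, add_mul, mul_add, mul_assoc, a3, ← mul_assoc x x]
    simp
  have c2 : Commute h p := by
    simp only [hh, Commute, SemiconjBy, add_mul, mul_add, mul_assoc, a2, a4, ← mul_assoc p, a5, a1]
    simp
  obtain ⟨ρ, r1, r2, r3, r4, r5⟩ : ∃ ρ : Q.E, star ρ = ρ ∧ ρ * ρ = 1 - h ∧ Commute ρ x ∧
      Commute ρ p ∧ ∀ g, Q.act g ρ = ρ := by
    refine ⟨cfc (fun t => √(1 - t)) h, IsSelfAdjoint.cfc.star_eq, ?_, hs.commute_cfc c1 _,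
      hs.commute_cfc c2 _, fun g => ?_⟩
    · rw [cfc_sqrt_sq hs (by fun_prop) fun t ht => sub_nonneg.2 ((CFC.le_one_iff h).1
        (sub_nonneg.1 a9) t ht), cfc_sub .., cfc_const_one ℝ h, cfc_id' ℝ h]
    · rw [map_cfc_real _ hs (by fun_prop)]
      simp [hh, map_star, a8]
  refine ⟨Q, hQ, x, (p + p - 1) * ρ, ⟨a3, a9, a8, fun τ hτ => ?_⟩, ?_, fun g => by simp [h1, r5], ?_, ?_⟩
  · have := h5 τ hτ
    rw [show p * V - V * p = x - star x by simp [hx, ps, h2, mul_sub, sub_mul, mul_assoc],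
      nq_sq (hC.tr hQ hτ).pos, show star (x - star x) * (x - star x) = h by
        simp [hh, mul_sub, sub_mul, a3, a6]] at this
    simp only [map_sub, (hC.tr hQ hτ).one, Complex.sub_re, Complex.one_re]
    linarith
  · simp [r1, ps, mul_sub, sub_mul, mul_add, add_mul, r4.eq]
  · rw [mul_assoc, r3.eq, ← mul_assoc, ← mul_assoc]
    simp [mul_sub, sub_mul, mul_add, add_mul, a1, a2]
  · rw [← r2, (((r4.add_right r4).sub_right (Commute.one_right ρ))).mul_mul_mul_comm]
    simp [mul_sub, sub_mul, mul_add, add_mul, pp]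

theorem Cls.car [DecidableEq G] [Countable G] (hC : Cls C) (hG : IsAmenable G) {η : ℝ} (hη : 0 < η) :
    ∃ Q ∈ C, ∃ y, Car Q y η := by
  obtain ⟨Q₀, h₀, x, w, H, w1, w2, w3, w4⟩ := hC.car_base hG
  have key : ∀ n : ℕ, ∃ Q ∈ C, ∃ y, Car Q y ((1 - 2⁻¹ ^ 33) ^ n) := fun n => by
    induction n with
    | zero => exact ⟨Q₀, h₀, 0, by simp, by simp, by simp, fun τ hτ => by simp [(hC.tr h₀ hτ).one]⟩
    | succ n ih =>
      obtain ⟨Q₂, h₂, y, Hy⟩ := ih
      obtain ⟨Q, hQ, j₁, j₂, e₁, e₂, hc, hp⟩ := hC.pair h₀ h₂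
      have w5 : w * star x = -(star x * w) := by
        rw [← w1, ← star_mul, ← star_mul, w3]; simp
      have k : ∀ a b c d, j₁ a * j₂ b * (j₁ c * j₂ d) = j₁ (a * c) * j₂ (b * d) := fun a b c d => by
        rw [(hc c b).symm.mul_mul_mul_comm, map_mul, map_mul]
      have k1 : ∀ a c d, j₁ a * (j₁ c * j₂ d) = j₁ (a * c) * j₂ d := fun a c d => by
        rw [map_mul, mul_assoc]
      have k2 : ∀ a b c, j₁ a * j₂ b * j₁ c = j₁ (a * c) * j₂ b := fun a b c => by
        rw [map_mul, mul_assoc, mul_assoc, (hc c b).eq]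
      have h1 : 1 - (star (j₁ x + j₁ w * j₂ y) * (j₁ x + j₁ w * j₂ y) + (j₁ x + j₁ w * j₂ y) *
          star (j₁ x + j₁ w * j₂ y)) = j₁ (1 - (star x * x + x * star x)) *
            j₂ (1 - (star y * y + y * star y)) := by
        rw [star_add, star_mul, ← map_star, ← map_star, ← map_star, w1, ← (hc _ _).eq]
        simp only [mul_add, add_mul, k, k1, k2, ← map_mul j₁, w3, w5, w4]
        generalize star x * x = a
        generalize x * star x = b
        simp only [map_sub, map_add, map_neg, map_one]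
        noncomm_ring
      refine ⟨Q, hQ, j₁ x + j₁ w * j₂ y, ?_, ?_, fun g => ?_, fun τ hτ => ?_⟩
      · simp only [mul_add, add_mul, k, k1, k2, ← map_mul j₁, w3, H.sq, Hy.sq]
        simp
      · rw [h1]
        exact Commute.mul_nonneg (map_nonneg _ H.le) (map_nonneg _ Hy.le) (hc _ _)
      · rw [map_add, map_mul, ← e₁, ← e₁, ← e₂, H.inv, w2, Hy.inv]
      · rw [h1]
        simpa only [Fintype.sum_unique] using hp Unit (fun _ => 1 - (star x * x + x * star x))
          (fun _ => 1 - (star y * y + y * star y)) ((1 - 2⁻¹ ^ 33) ^ (n + 1)) (fun τ₁ h₁ τ₂ h₂' => by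
          rw [Fintype.sum_unique, pos_eq_re (hC.tr h₀ h₁).pos H.le.isSelfAdjoint, Complex.re_ofReal_mul,
            pow_succ']
          exact mul_le_mul (H.tr _ h₁) (Hy.tr _ h₂') (pos_re (hC.tr h₂ h₂').pos Hy.le)
            (by norm_num)) τ hτ
  obtain ⟨n, hn⟩ := exists_pow_lt_of_lt_one hη (show (1 - 2⁻¹ ^ 33 : ℝ) < 1 by norm_num)
  obtain ⟨Q, hQ, y, Hy⟩ := key n
  exact ⟨Q, hQ, y, Hy.sq, Hy.le, Hy.inv, fun τ hτ => (Hy.tr τ hτ).trans hn.le⟩

/-- the defect of being a square zero partial isometry of full support -/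
noncomputable def ee {E : Type*} [CStarAlgebra E] (x : E) : E :=
  1 - (star x * x - x * star x) * (star x * x - x * star x)

lemma map_ee {E E' : Type*} [CStarAlgebra E] [CStarAlgebra E'] (j : E →⋆ₐ[ℂ] E') (x : E) :
    j (ee x) = ee (j x) := by simp [ee, map_star]

lemma norm_kk {E : Type*} [CStarAlgebra E] {x : E} (hx : ‖x‖ ≤ 1) : ‖star x * x - x * star x‖ ≤ 1 :=
  norm_sub_le_one (star_mul_self_nonneg x) ((CStarAlgebra.norm_le_one_iff_of_nonneg _).1 (by
    rw [CStarRing.norm_star_mul_self]; exact mul_le_one₀ hx (norm_nonneg _) hx))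
    (mul_star_self_nonneg x) ((CStarAlgebra.norm_le_one_iff_of_nonneg _).1 (by
    rw [CStarRing.norm_self_mul_star]; exact mul_le_one₀ hx (norm_nonneg _) hx))

lemma ee_sub {E : Type*} [CStarAlgebra E] {τ : E →ₗ[ℂ] ℂ} (ht : IsTr τ) {x y : E} (hx : ‖x‖ ≤ 1)
    (hy : ‖y‖ ≤ 1) : (τ (ee x)).re ≤ (τ (ee y)).re + 8 * nq τ (x - y) := by
  have h1 : ∀ a z : E, ‖a‖ ≤ 1 → nq τ (a * z) ≤ nq τ z := fun a z ha =>
    (nq_mul_le ht.pos _ _).trans (mul_le_of_le_one_left (nq_nonneg _) ha)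
  have h2 : ∀ a z : E, ‖a‖ ≤ 1 → nq τ (z * a) ≤ nq τ z := fun a z ha =>
    (ht.nq_mul_le _ _).trans (mul_le_of_le_one_right (nq_nonneg _) ha)
  have h3 : nq τ ((star y * y - y * star y) - (star x * x - x * star x)) ≤ 4 * nq τ (x - y) := by
    rw [show (star y * y - y * star y) - (star x * x - x * star x) = (x * star (x - y) + (x - y) * star y)
      - (star x * (x - y) + star (x - y) * y) by rw [star_sub]; noncomm_ring]
    have := ht.nq_star (x - y)
    linarith [nq_sub_le ht.pos (x * star (x - y) + (x - y) * star y) (star x * (x - y) + star (x - y) * y),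
      ht.pos.nq_add (x * star (x - y)) ((x - y) * star y), ht.pos.nq_add (star x * (x - y))
      (star (x - y) * y), h1 x (star (x - y)) hx, h2 (star y) (x - y) (by rwa [norm_star]),
      h1 (star x) (x - y) (by rwa [norm_star]), h2 y (star (x - y)) hy]
  have h4 := norm_kk hx
  have h5 := norm_kk hy
  rw [ee, ee]
  generalize star x * x - x * star x = a at *
  generalize star y * y - y * star y = b at *
  rw [show 1 - a * a = 1 - b * b + (b * (b - a) + (b - a) * a) by noncomm_ring, map_add, map_add]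
  simp only [Complex.add_re]
  linarith [(Complex.re_le_norm _).trans (st_le_nq ht.st (b * (b - a))), h1 b (b - a) h5,
    (Complex.re_le_norm _).trans (st_le_nq ht.st ((b - a) * a)), h2 a (b - a) h4]

lemma Car.norm {Q : TAlg.{u} G} {y : Q.E} {η : ℝ} (H : Car Q y η) : ‖y‖ ≤ 1 := by
  have := (CStarAlgebra.norm_le_one_iff_of_nonneg _).2 ((le_add_of_nonneg_right
    (mul_star_self_nonneg y)).trans (sub_nonneg.1 H.le))
  rw [CStarRing.norm_star_mul_self] at this
  nlinarith [norm_nonneg y]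

lemma Car.ee {Q : TAlg.{u} G} {y : Q.E} {η : ℝ} (H : Car Q y η) {τ} (hτ : τ ∈ Q.T) (ht : IsTr τ) :
    (τ (ee y)).re ≤ 2 * η := by
  have h1 : star y * star y = 0 := by rw [← star_mul, H.sq, star_zero]
  have h2 := pos_re ht.pos H.le.isSelfAdjoint.mul_self_nonneg
  have h3 : Vale.Agent.P095.ee y + (1 - (star y * y + y * star y)) * (1 - (star y * y + y * star y)) =
      (1 - (star y * y + y * star y)) + (1 - (star y * y + y * star y)) := by
    simp only [Vale.Agent.P095.ee, mul_sub, sub_mul, mul_add, add_mul, mul_assoc, ← mul_assoc y y, H.sq,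
      ← mul_assoc (star y) (star y), h1, zero_mul, mul_zero, one_mul, mul_one]
    abel
  have h4 := congrArg (fun z => (τ z).re) h3
  simp only [map_add τ, Complex.add_re] at h4
  linarith [H.tr τ hτ]

theorem tr_small [DecidableEq G] [Countable G] {K : Set (GAlg.{u} G)} (hC : Cls (TC K))
    (hG : IsAmenable G) (F : Finset G) {δ : ℝ} (hδ : 0 < δ) : ∃ D ∈ K, ∃ x : D.E, ‖x‖ ≤ 1 ∧
      (∀ g ∈ F, ‖D.act g x - x‖ ≤ δ) ∧ ∀ σ, IsTr σ → (σ (ee x)).re ≤ δ := by
  obtain ⟨Q, hQ, y, H⟩ := hC.car hG (η := δ / 8) (by positivity)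
  obtain ⟨I, l, D, q, hl, hD, h⟩ := hQ
  obtain ⟨F', hF, hF'⟩ := hG F δ hδ
  have hc0 : (0 : ℝ) < F'.card := by exact_mod_cast hF.card_pos
  obtain ⟨c, hc, hc'⟩ : ∃ c : ℝ, 0 ≤ c ∧ c * F'.card = 1 :=
    ⟨(F'.card : ℝ)⁻¹, by positivity, inv_mul_cancel₀ hc0.ne'⟩
  obtain ⟨z, rfl, hz⟩ := exists_lift_le h.surj y
  have h1 := h.ev (y := ee z) (c := δ / 4) (fun τ hτ => by
    rw [map_ee]; linarith [H.ee hτ (h.tr hτ)]) (ε := δ / 4) (by positivity)
  have h2 := (eventually_all_finset F').2 fun g _ => h.ev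
    (y := star ((GAlg.prd D).act g z - z) * ((GAlg.prd D).act g z - z)) (c := 0) (fun τ hτ => by
      rw [map_mul, map_sub, h.eqv, H.inv]; simp) (ε := (δ / 16) ^ 2) (by positivity)
  obtain ⟨i, h3, h4⟩ := (h1.and h2).exists
  have h5 : ‖z i‖ ≤ 1 := (z.norm_apply_le i).trans (hz.trans H.norm)
  refine ⟨D i, hD i, mu _ F' c (z i), (norm_mu hc hc'.le _).trans h5, fun g hg => ?_, fun σ hσ => ?_⟩
  · rw [act_mu, ← sub_sub_sub_cancel_right _ _ (mu _ (g • F' ∩ F') c (z i)), mu_sdiff inter_subset_left,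
      mu_sdiff inter_subset_right, sdiff_inter_self_left, sdiff_inter_self_right]
    have h6 : ∀ s : Finset G, ‖mu _ s c (z i)‖ ≤ c * s.card := fun s => (norm_sum_le _ _).trans (by
      simp only [norm_smul, GAlg.norm_act, Real.norm_of_nonneg hc, sum_const, nsmul_eq_mul]
      nlinarith [mul_nonneg hc (Nat.cast_nonneg (α := ℝ) s.card)])
    have h7 := mul_le_mul_of_nonneg_left (hF' g hg) hc
    rw [symmDiff_def, sup_eq_union, card_union_of_disjoint disjoint_sdiff_sdiff, Nat.cast_add] at h7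
    refine (norm_sub_le_of_le (h6 _) (h6 _)).trans ?_
    nlinarith
  · have h6 : nq σ (mu _ F' c (z i) - z i) ≤ δ / 16 := by
      have : mu _ F' c (z i) - z i = ∑ g ∈ F', (c : ℂ) • ((D i).act g (z i) - z i) := by
        simp only [smul_sub, sum_sub_distrib, sum_const, Complex.coe_smul, mu_apply]
        rw [← Nat.cast_smul_eq_nsmul ℝ, smul_smul, mul_comm, hc', one_smul]
      rw [this]
      refine (nq_sum_le hσ.pos _ _).trans ((sum_le_card_nsmul _ _ (c * (δ / 16)) fun g hg => ?_).trans_eq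
        (by rw [nsmul_eq_mul, ← mul_assoc, mul_comm _ c, hc', one_mul]))
      rw [hσ.pos.nq_smul, Complex.norm_real, Real.norm_of_nonneg hc]
      exact mul_le_mul_of_nonneg_left (nq_le_of_sq (by positivity) (by simpa using h4 g hg σ hσ)) hc
    have h7 := h3 σ hσ
    rw [← Prd.ev_apply, map_ee, Prd.ev_apply] at h7
    linarith [ee_sub hσ ((norm_mu (F := F') hc hc'.le _).trans h5) h5]

end Vale.Agent.P095
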