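import Vale.Agent.P095.TC

/-! Consequences of the class axioms: limits and many commuting copies. -/

namespace Vale.Agent.P095

open scoped CStarAlgebra ComplexConjugate
open Filter Topology
open Vale.Agent.P101

attribute [local instance] CStarAlgebra.spectralOrder CStarAlgebra.spectralOrderedRing

universe u

variable {G : Type*} [Group G] {C : Set (TAlg.{u} G)}

lemma norm_le_of_re {z : ℂ} {r : ℝ} (h : ∀ c : ℂ, ‖c‖ = 1 → (c * z).re ≤ r) : ‖z‖ ≤ r := by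
  obtain ⟨c, hc, h1⟩ := Complex.exists_norm_eq_mul_self z
  simpa [← h1] using h c hc

lemma re_mul_le {c z : ℂ} (hc : ‖c‖ = 1) : (c * z).re ≤ ‖z‖ :=
  (Complex.re_le_norm _).trans_eq (by rw [norm_mul, hc, one_mul])

structure Up {Q : ℕ → TAlg.{u} G} {Q' : TAlg.{u} G}
    (Θ : (GAlg.prd fun n => (Q n).toGAlg).E →⋆ₐ[ℂ] Q'.E) : Prop where
  eqv : Eqv (D' := Q'.toGAlg) Θ
  re : ∀ τ ∈ Q'.T, ∀ (y : Prd fun n => (Q n).E) (c : ℝ),
    (∀ ε > 0, ∀ᶠ n in atTop, ∀ σ ∈ (Q n).T, (σ (y n)).re ≤ c + ε) → (τ (Θ y)).re ≤ c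
  norm : ∀ τ ∈ Q'.T, ∀ (y : Prd fun n => (Q n).E) (c : ℝ),
    (∀ ε > 0, ∀ᶠ n in atTop, ∀ σ ∈ (Q n).T, ‖σ (y n)‖ ≤ c + ε) → ‖τ (Θ y)‖ ≤ c
  zero : ∀ y : Prd fun n => (Q n).E,
    (∀ ε > 0, ∀ᶠ n in atTop, ∀ σ ∈ (Q n).T, nq σ (y n) ≤ ε) → Θ y = 0
  fix : ∀ y : Prd fun n => (Q n).E, (∀ g, ∀ ε > 0, ∀ᶠ n in atTop, ∀ σ ∈ (Q n).T,
    nq σ ((Q n).act g (y n) - y n) ≤ ε) → ∀ g, Q'.act g (Θ y) = Θ y

theorem Cls.up' (hC : Cls C) (Q : ℕ → TAlg.{u} G) (hQ : ∀ n, Q n ∈ C) :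
    ∃ Q' ∈ C, ∃ Θ : (GAlg.prd fun n => (Q n).toGAlg).E →⋆ₐ[ℂ] Q'.E, Up Θ := by
  obtain ⟨Q', h', Θ, h1, h2⟩ := hC.up Q hQ
  have h3 : ∀ y : Prd fun n => (Q n).E,
      (∀ ε > 0, ∀ᶠ n in atTop, ∀ σ ∈ (Q n).T, nq σ (y n) ≤ ε) → Θ y = 0 := fun y hy =>
    hC.faith h' _ fun τ hτ => by
      rw [nq, Real.sqrt_eq_zero', ← map_star, ← map_mul]
      refine h2 τ hτ _ 0 fun ε hε => (hy _ (Real.sqrt_pos.2 hε)).mono fun n hn σ hσ => ?_
      have := pow_le_pow_left₀ (nq_nonneg _) (hn σ hσ) 2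
      rw [nq_sq (hC.tr (hQ n) hσ).pos, Real.sq_sqrt hε.le] at this
      simpa using this
  refine ⟨Q', h', Θ, h1, h2, fun τ hτ y c hy => norm_le_of_re fun a ha => ?_, h3, fun y hy g => ?_⟩
  · have := h2 τ hτ (a • y) c fun ε hε => (hy ε hε).mono fun n hn σ hσ => by
      rw [Prd.smul_apply, map_smul]; exact (re_mul_le ha).trans (hn σ hσ)
    simpa using this
  · rw [← h1, ← sub_eq_zero, ← map_sub]
    exact h3 _ (hy g)

structure MP {Q Q' : TAlg.{u} G} {m : ℕ} (J : (Fin m → Q.E) → Q'.E) : Prop where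
  one : J 1 = 1
  mul : ∀ x y, J (x * y) = J x * J y
  star : ∀ x, J (star x) = star (J x)
  act : ∀ g x, Q'.act g (J x) = J fun l => Q.act g (x l)
  sub : ∀ l x y z, (∀ l', l' ≠ l → x l' = z l' ∧ y l' = z l') → z l = x l - y l → J z = J x - J y
  smul : ∀ l (c : ℂ) x z, (∀ l', l' ≠ l → x l' = z l') → z l = c • x l → J z = c • J x
  norm : ∀ x, (∀ l, ‖x l‖ ≤ 1) → ‖J x‖ ≤ 1
  prod : ∀ (κ : Type) [Fintype κ] (a : κ → ℂ) (x : κ → Fin m → Q.E) (c : ℝ),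
    (∀ τ : Fin m → Q.E →ₗ[ℂ] ℂ, (∀ l, τ l ∈ Q.T) → (∑ k, a k * ∏ l, τ l (x k l)).re ≤ c) →
    ∀ τ ∈ Q'.T, (∑ k, a k * τ (J (x k))).re ≤ c

theorem Cls.mp (hC : Cls C) {Q : TAlg.{u} G} (hQ : Q ∈ C) (m : ℕ) :
    ∃ Q' ∈ C, ∃ J : (Fin m → Q.E) → Q'.E, MP J := by
  induction m with
  | zero =>
    exact ⟨Q, hQ, fun _ => 1, rfl, by simp, by simp, by simp, fun l => l.elim0, fun l => l.elim0,
      fun _ _ => norm_one_le, fun κ _ a x c h τ hτ => by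
        simpa [(hC.tr hQ hτ).one] using h Fin.elim0 fun l => l.elim0⟩
  | succ m ih =>
    obtain ⟨Q₂, h₂, J, H⟩ := ih
    obtain ⟨Q', h', j₁, j₂, e₁, e₂, hc, hp⟩ := hC.pair hQ h₂
    refine ⟨Q', h', fun x => j₁ (x 0) * j₂ (J (Fin.tail x)), ?_, fun x y => ?_, fun x => ?_,
      fun g x => ?_, fun l x y z h1 h2 => ?_, fun l c x z h1 h2 => ?_, fun x hx => ?_,
      fun κ _ a x c h τ hτ => ?_⟩
    · rw [show Fin.tail (1 : Fin (m + 1) → Q.E) = 1 from rfl, H.one]; simp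
    · rw [show Fin.tail (x * y) = Fin.tail x * Fin.tail y from rfl, H.mul, Pi.mul_apply, map_mul,
        map_mul, (hc _ _).mul_mul_mul_comm]
    · rw [show Fin.tail (star x) = star (Fin.tail x) from rfl, H.star, Pi.star_apply, star_mul,
        ← map_star, ← map_star, (hc _ _).eq]
    · rw [map_mul, ← e₁, ← e₂, H.act]; rfl
    · induction l using Fin.cases with
      | zero =>
        have e1 : Fin.tail x = Fin.tail z := funext fun l => (h1 _ l.succ_ne_zero).1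
        have e2 : Fin.tail y = Fin.tail z := funext fun l => (h1 _ l.succ_ne_zero).2
        rw [h2, e1, e2, map_sub, sub_mul]
      | succ l =>
        rw [(h1 0 l.succ_ne_zero.symm).1, (h1 0 l.succ_ne_zero.symm).2, ← mul_sub, ← map_sub,
          H.sub l (Fin.tail x) (Fin.tail y) (Fin.tail z)
            (fun l' hl => h1 _ fun h => hl (Fin.succ_injective _ h)) h2]
    · induction l using Fin.cases with
      | zero =>
        rw [h2, show Fin.tail x = Fin.tail z from funext fun l => h1 _ l.succ_ne_zero, map_smul,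
          smul_mul_assoc]
      | succ l =>
        rw [h1 0 l.succ_ne_zero.symm, ← mul_smul_comm, ← map_smul, H.smul l c (Fin.tail x)
          (Fin.tail z) (fun l' hl => h1 _ fun h => hl (Fin.succ_injective _ h)) h2]
    · simpa using norm_mul_le_of_le ((NonUnitalStarAlgHom.norm_apply_le j₁ _).trans (hx 0))
        ((NonUnitalStarAlgHom.norm_apply_le j₂ _).trans (H.norm (Fin.tail x) fun l => hx l.succ))
    · have := hp κ (fun k => a k • x k 0) (fun k => J (Fin.tail (x k))) c (fun τ₁ h₁ τ₂ h₂ => by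
        refine H.prod κ _ _ c (fun τ hτ => ?_) τ₂ h₂
        have := h (Fin.cons τ₁ τ) fun l => by induction l using Fin.cases <;> simp [*]
        simpa [Fin.prod_univ_succ, mul_assoc, Fin.tail] using this) τ hτ
      simpa using this

section
variable {Q Q' : TAlg.{u} G} {m : ℕ} {J : (Fin m → Q.E) → Q'.E}

lemma MP.zero (H : MP J) {x : Fin m → Q.E} {l : Fin m} (h : x l = 0) : J x = 0 := by
  rw [H.sub l x x x (fun _ _ => ⟨rfl, rfl⟩) (by simp [h]), sub_self]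

lemma MP.prod_norm (H : MP J) (κ : Type) [Fintype κ] (a : κ → ℂ) (x : κ → Fin m → Q.E) (c : ℝ)
    (h : ∀ τ : Fin m → Q.E →ₗ[ℂ] ℂ, (∀ l, τ l ∈ Q.T) → ‖∑ k, a k * ∏ l, τ l (x k l)‖ ≤ c)
    {τ} (hτ : τ ∈ Q'.T) : ‖∑ k, a k * τ (J (x k))‖ ≤ c :=
  norm_le_of_re fun b hb => by
    have := H.prod κ (fun k => b * a k) x c (fun τ hτ => by
      simp only [mul_assoc, ← Finset.mul_sum]; exact (re_mul_le hb).trans (h τ hτ)) τ hτ
    simpa only [mul_assoc, ← Finset.mul_sum] using this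

lemma MP.norm_le (H : MP J) {x : Q.E} {r : ℝ} (h : ∀ τ ∈ Q.T, ‖τ x‖ ≤ r) {τ} (hτ : τ ∈ Q'.T) :
    ‖τ (J fun _ => x)‖ ≤ r ^ m := by
  simpa using H.prod_norm Unit (fun _ => 1) (fun _ _ => x) (r ^ m) (fun τ hτ => by
    simpa using (Finset.prod_le_prod (fun l _ => norm_nonneg _) fun l _ => h _ (hτ l)).trans_eq
      (Fin.prod_const m r)) hτ

lemma norm_prod_sub {κ : Type*} (s : Finset κ) {a b : κ → ℂ} (ha : ∀ k, ‖a k‖ ≤ 1)
    (hb : ∀ k, ‖b k‖ ≤ 1) : ‖∏ k ∈ s, a k - ∏ k ∈ s, b k‖ ≤ ∑ k ∈ s, ‖a k - b k‖ := by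
  classical
  induction s using Finset.induction_on with
  | empty => simp
  | insert k s hk ih =>
    rw [Finset.prod_insert hk, Finset.prod_insert hk, Finset.sum_insert hk,
      show ∀ p q : ℂ, a k * p - b k * q = (a k - b k) * q + a k * (p - q) from fun p q => by ring]
    refine norm_add_le_of_le ?_ ((norm_mul_le_of_le (ha k) ih).trans_eq (one_mul _))
    rw [norm_mul, norm_prod]
    exact mul_le_of_le_one_right (norm_nonneg _)
      (Finset.prod_le_one (fun _ _ => norm_nonneg _) fun _ _ => hb _)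

lemma MP.sub_le (H : MP J) {x y : Q.E} {r : ℝ}
    (h : ∀ τ ∈ Q.T, ‖τ x‖ ≤ 1 ∧ ‖τ y‖ ≤ 1 ∧ ‖τ x - τ y‖ ≤ r) {τ} (hτ : τ ∈ Q'.T) :
    ‖τ (J fun _ => x) - τ (J fun _ => y)‖ ≤ m * r := by
  simpa [sub_eq_add_neg] using H.prod_norm (Fin 2) ![1, -1] ![fun _ => x, fun _ => y] (m * r)
    (fun τ hτ => by
      simpa [sub_eq_add_neg] using (norm_prod_sub Finset.univ (fun l => (h _ (hτ l)).1)
        fun l => (h _ (hτ l)).2.1).trans ((Finset.sum_le_sum fun l _ => (h _ (hτ l)).2.2).trans_eq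
          (by simp))) hτ

lemma MP.eq (H : MP J) {x : Fin m → Q.E} {c : Fin m → ℂ} (h : ∀ τ ∈ Q.T, ∀ l, τ (x l) = c l)
    (h1 : ∀ τ ∈ Q.T, τ 1 = 1) {τ} (hτ : τ ∈ Q'.T) (h2 : τ 1 = 1) : τ (J x) = ∏ l, c l := by
  have := H.prod_norm (Fin 2) ![1, -∏ l, c l] ![x, 1] 0 (fun τ hτ => by
    simp [fun l => h _ (hτ l) l, fun l => h1 _ (hτ l)]) hτ
  simpa [H.one, h2, add_neg_eq_zero] using this

lemma MP.nonneg (H : MP J) {x : Fin m → Q.E} (h : ∀ l, 0 ≤ x l) : 0 ≤ J x := by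
  choose y hy using fun l => CStarAlgebra.nonneg_iff_eq_star_mul_self.1 (h l)
  rw [show x = Star.star y * y from funext hy, H.mul, H.star]
  exact star_mul_self_nonneg _

lemma MP.unitary (H : MP J) {x : Fin m → Q.E} (h : ∀ l, x l ∈ unitary Q.E) : J x ∈ unitary Q'.E :=
  ⟨by rw [← H.star, ← H.mul, ← H.one]; exact congrArg J (funext fun l => (h l).1),
    by rw [← H.star, ← H.mul, ← H.one]; exact congrArg J (funext fun l => (h l).2)⟩

end

end Vale.Agent.P095
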