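import Vale.Agent.P095.Cmp3

/-! Comparison from nuclearity. -/

namespace Vale.Agent.P095

open scoped CStarAlgebra
open Filter Topology Matrix
open Vale.Agent.P101 Cm

attribute [local instance] CStarAlgebra.spectralOrder CStarAlgebra.spectralOrderedRing

universe u

variable {G : Type*} [Group G] {A : Type*} [NonUnitalCStarAlgebra A] {X : GAlg.{u} G} {S : Sys A X}

lemma Cm.cut_choi (hA : IsSimple A) {z : A} (hz : z ≠ 0) {n : ℕ} (d : Fin n → Fin n → A)
    {κ : Type} [Fintype κ] (g : κ → κ → Matrix (Fin n) (Fin n) ℂ) {ε : ℝ} (hε : 0 < ε) :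
    ∃ (u : A) (m : ℕ) (ζ : Fin m → A), ‖u‖ ≤ 1 ∧ star u * u ≤ ∑ j, star (z * ζ j) * (z * ζ j) ∧
      ∀ k k', ‖∑ l, ∑ i, ∑ j, g k k' i j • (star (u * d l i) * (u * d l j)) -
        ∑ l, ∑ i, ∑ j, g k k' i j • (star (d l i) * d l j)‖ ≤ ε := by
  classical
  have hc : Continuous fun (d : Fin n → Fin n → A) (k k' : κ) =>
      ∑ l, ∑ i, ∑ j, g k k' i j • (star (d l i) * d l j) := by fun_prop
  obtain ⟨δ, hδ, h⟩ := Metric.continuous_iff.1 hc d ε hε
  obtain ⟨u, u', -, -, -, h1, h2, h3, m, ζ, h4⟩ := cut hA hz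
    (Finset.univ.image fun q : Fin n × Fin n => d q.1 q.2) (show 0 < δ / 3 by positivity)
  refine ⟨u', m, ζ, h1, h4, fun k k' => ?_⟩
  have h5 := h (fun l i => u' * d l i) ((dist_pi_lt_iff hδ).2 fun l => (dist_pi_lt_iff hδ).2 fun i => by
    have h6 := (h3 _ (Finset.mem_image_of_mem _ (Finset.mem_univ (l, i)))).1
    rw [dist_eq_norm, show u' * d l i - d l i = (u * d l i - d l i) - u' * (u * d l i - d l i) by
      rw [mul_sub, ← mul_assoc, h2]; abel]
    linarith [norm_sub_le_of_le h6 (norm_mul_le_of_le h1 h6)])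
  rw [← dist_eq_norm]
  exact ((dist_pi_lt_iff hε).1 ((dist_pi_lt_iff hε).1 h5 k) k').le

open scoped Matrix.Norms.L2Operator in
theorem Cm.core (hS : S.Good) (hN : IsNuclear A) (L : Type) [Fintype L] [DecidableEq L]
    [Nonempty L] {m K : ℕ} {t η : ℝ} (ht : 0 < t) (hη : 0 ≤ η) (h1 : η ≤ t ^ 2)
    (h2 : η * Fintype.card L ≤ t ^ 2) {z u v : A} {ζ : Fin m → A} {γ : Fin (K + 1) → A} (hz : z ≠ 0)
    (hu : star u * u ≤ ∑ j, star (z * ζ j) * (z * ζ j)) (hγ : ∀ k, u * γ k = γ k)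
    (hy : ‖∑ k, star (γ k) * γ k‖ ≤ 1) (hv : ‖v‖ ≤ 1) {N : Matrix (Fin (K + 1)) (Fin (K + 1)) A}
    (hM : ∀ k k', (Nᴴ * N) k k' =
      (if k = k' then (η : ℂ) • (star v * v) else 0) - star (γ k) * γ k') :
    ∃ (Γ κ : Type) (_ : Fintype Γ) (_ : DecidableEq Γ) (_ : Nonempty Γ) (_ : Fintype κ),
      Fintype.card κ ≤ (m + 1) * Fintype.card Γ ∧ ∀ ε > 0, ∃ r : κ → L × Γ → A, ∀ a b,
        ‖S.φ (∑ l, star (z * r l a) * (z * r l b)) - if a = b then cfc (fun s : ℝ =>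
          max (s - 2 * (2 * (2 * t + t ^ 2) + t)) 0) (S.φ (∑ k, star (γ k) * γ k)) else 0‖ ≤ ε := by
  classical
  obtain ⟨ε, hε, hε'⟩ := exists_pos_mul_lt ht
    (Fintype.card (Fin (K + 1)) * (Fintype.card (Fin (K + 1)) * Fintype.card L) +
      Fintype.card (Fin (K + 1)))
  obtain ⟨n, φ, ψ, hφ, hψ, nφ, nψ, hF⟩ := hN (Finset.univ.image
    fun q : Fin (K + 1) × Fin (K + 1) => star (γ q.1) * γ q.2) _ (half_pos hε)
  obtain ⟨d, hd⟩ := hψ.choi
  obtain ⟨N₁, hN₁⟩ := hφ _ (of fun i k => if i = 0 then γ k else 0)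
  obtain ⟨N₂, hN₂⟩ := hφ _ N
  have F1 : ∀ k k', φ (star (γ k) * γ k') = ∑ i, star (N₁ i k) * N₁ i k' := fun k k' => by
    simpa [mul_apply, apply_ite star] using congrFun (congrFun hN₁ k) k'
  have F2 : ∀ k k', (if k = k' then φ ((η : ℂ) • (star v * v)) else 0) - φ (star (γ k) * γ k') =
      ∑ i, star (N₂ i k) * N₂ i k' := fun k k' => by
    have := congrFun (congrFun hN₂ k) k'
    rw [map_apply, hM, map_sub, apply_ite φ, map_zero, mul_apply] at this
    exact this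
  obtain ⟨u', m', ζ', hu1, hu', hc⟩ := cut_choi hS.simple hz d
    (fun k k' => φ (star (γ k) * γ k')) (half_pos hε)
  obtain ⟨Γ, _, _, _, ρ, hρ, U, μ, s1, s2, s3⟩ := spec L ht hη h1 h2 F1 F2 (by
    have := F2 0 0
    rw [if_pos rfl, sub_eq_iff_eq_add, F1] at this
    simp only [IsSelfAdjoint, this, star_add, star_sum, star_mul, star_star]) ((nφ _).trans (by
      rw [norm_smul, Complex.norm_real, Real.norm_of_nonneg hη, CStarRing.norm_star_mul_self]
      exact mul_le_of_le_one_right hη (mul_le_one₀ hv (norm_nonneg _) hv)))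
    (by rw [← map_sum]; exact (nφ _).trans hy) (n * m')
  obtain ⟨B, _, ⟨M⟩⟩ := exists_amp (L × Γ) X.E
  obtain ⟨l₀⟩ := ‹Nonempty L›
  have mono : ∀ {w : A} {i : ℕ} {ξ : Fin i → A}, star w * w ≤ ∑ j, star (z * ξ j) * (z * ξ j) →
      star (S.φ w) * S.φ w ≤ ∑ j, star (S.φ (z * ξ j)) * S.φ (z * ξ j) := fun h => by
    simpa only [map_sum, map_mul S.φ (star _), map_star] using OrderHomClass.mono S.φ h
  obtain ⟨x, hx⟩ := dominate M (e := fun g => (l₀, g)) (fun _ _ h => (Prod.ext_iff.1 h).2) hρ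
    (G := fun k k' => φ (star (γ k) * γ k')) (U := U) (μ := μ)
    (fun a i b j => by rw [s1]; simp [Xm, Matrix.sum_apply]) s2 (γ := fun k => S.φ (γ k))
    (d := fun l i => S.φ (d l i)) (mono hu) (mono hu') (fun k => by rw [← map_mul, hγ]) (by
      have h3 : star (S.φ u') * S.φ u' ≤ (1 : ℝ) • 1 :=
        le_smul_of_norm (IsSelfAdjoint.star_mul_self _) (by
          rw [CStarRing.norm_star_mul_self, hS.iso]; exact mul_le_one₀ hu1 (norm_nonneg _) hu1)
      have h4 : S.φ (ψ 1) = ∑ l, ∑ i, star (S.φ (d l i)) * S.φ (d l i) := by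
        simp [hd, one_apply, map_star]
      have h5 := le_smul_of_norm (a := S.φ (ψ 1)) (h4 ▸ (Finset.sum_nonneg fun _ _ =>
        Finset.sum_nonneg fun _ _ => star_mul_self_nonneg _).isSelfAdjoint)
        ((hS.iso _).trans_le ((nψ 1).trans norm_one_le))
      rw [one_smul, h4] at h5
      refine le_trans (Finset.sum_le_sum fun l _ => Finset.sum_le_sum fun i _ => ?_) h5
      simpa [mul_assoc] using conj_le h3 (S.φ (d l i)))
    (show 0 ≤ 2 * (2 * t + t ^ 2) by positivity) (ε := ε) (fun k k' => by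
      have h3 := hF _ (Finset.mem_image_of_mem _ (Finset.mem_univ (k, k')))
      have h4 := norm_add_le_of_le (hc k k') h3
      rw [← hd, sub_add_sub_cancel, add_halves, ← hS.iso] at h4
      simpa only [map_sub, map_sum, map_smul, map_mul, map_star] using h4)
  refine ⟨Γ, (Fin m × Γ) ⊕ ({r // μ r < -(2 * (2 * t + t ^ 2))} × Fin n × Fin m'), inferInstance,
    inferInstance, inferInstance, inferInstance, ?_, fun δ hδ => ?_⟩
  · simp only [Fintype.card_sum, Fintype.card_prod, Fintype.card_fin, Fintype.card_subtype]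
    linarith
  have hy0 : 0 ≤ ∑ k, star (S.φ (γ k)) * S.φ (γ k) :=
    Finset.sum_nonneg fun _ _ => star_mul_self_nonneg _
  obtain ⟨x', hx'⟩ := M.pull hy0.isSelfAdjoint (show 0 < 2 * (2 * t + t ^ 2) + t by positivity) hδ
    (hx.trans (add_le_add (smul_le_smul_of_nonneg_right (by linarith) zero_le_one) le_rfl))
  choose b hb using hS.ideal'
  refine ⟨fun l a => b (x' l a) (Sum.elim (fun q => ζ q.1) (fun q => ζ' q.2.2) l), fun a a' => ?_⟩
  refine le_of_eq_of_le ?_ (hx' a a')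
  simp only [map_sum, map_mul, map_star, ← hb]
  congr 2
  refine Finset.sum_congr rfl fun l _ => ?_
  rcases l with l | l <;> simp [mul_assoc]

theorem cmp (hS : S.Good) (hN : IsNuclear A)
    (hD : ∀ (κ : Type) [Fintype κ] [DecidableEq κ] (i₀ : κ), ∃ D ∈ Mod S, ∃ (φ : κ → κ → D.E)
      (v : Fin 1 → D.E), Data i₀ φ v) (Λ : Type) [Fintype Λ] [DecidableEq Λ] (m : ℕ) {θ : ℝ}
    (hθ : 0 < θ) : ∃ η > 0, ∀ (z u' : A) (ζ : Fin m → A) (K : ℕ) (γ : Fin K → A), z ≠ 0 →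
      star u' * u' ≤ ∑ j, star (z * ζ j) * (z * ζ j) → (∀ k, u' * γ k = γ k) →
      ‖∑ k, star (γ k) * γ k‖ ≤ 1 → ‖∑ k, γ k * star (γ k)‖ ≤ η → ∃ r : Λ → A, ∀ l l',
        ‖star (z * r l) * (z * r l') - if l = l' then ∑ k, star (γ k) * γ k else 0‖ ≤ θ := by
  classical
  rcases isEmpty_or_nonempty Λ with hΛ | hΛ
  · exact ⟨1, one_pos, fun _ _ _ _ _ _ _ _ _ _ => ⟨0, fun l => hΛ.elim l⟩⟩
  obtain ⟨t, ht, t1, t2⟩ : ∃ t : ℝ, 0 < t ∧ t ≤ 1 ∧ 16 * t ≤ θ :=
    ⟨min 1 (θ / 16), by positivity, min_le_left _ _, by linarith [min_le_right 1 (θ / 16)]⟩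
  have hc : (1 : ℝ) ≤ Fintype.card (Λ × Fin (m + 3)) := by exact_mod_cast Fintype.card_pos
  refine ⟨t ^ 2 / Fintype.card (Λ × Fin (m + 3)), by positivity,
    fun z u ζ K γ hz hu hγ hy hη => ?_⟩
  rcases K with _ | K
  · exact ⟨0, fun l l' => by simpa using hθ.le⟩
  obtain ⟨v, v0, v1, hv⟩ := exists_unit {∑ k, star (γ k) * γ k} (half_pos ht)
  obtain ⟨v2, v3⟩ := hv _ (Finset.mem_singleton_self _)
  obtain ⟨N, hM⟩ := gram_root hS γ v hη
  have e1 : ∑ k, star (γ k * v) * (γ k * v) = v * (∑ k, star (γ k) * γ k) * v := by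
    simp [Finset.mul_sum, Finset.sum_mul, v0.star_eq, mul_assoc]
  obtain ⟨Γ, κ, _, _, _, _, hκ, h⟩ := core hS hN (Λ × Fin (m + 3)) ht (by positivity)
    (div_le_self (by positivity) hc) (div_mul_cancel₀ _ (by positivity)).le hz hu
    (γ := fun k => γ k * v) (fun k => by rw [← mul_assoc, hγ])
    (e1 ▸ (norm_mul_le_of_le (norm_mul_le_of_le v1 hy) v1).trans_eq (by ring)) v1 hM
  obtain ⟨y', y1, y2⟩ := trunc hS (y := ∑ k, star (γ k * v) * (γ k * v)) (map_nonneg _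
    (Finset.sum_nonneg fun _ _ => star_mul_self_nonneg _))
    (show 0 < 2 * (2 * (2 * t + t ^ 2) + t) by positivity)
  obtain ⟨D, hD', φ, w₀, H⟩ := hD (Option κ) none
  obtain ⟨w, s, g, hw, hs⟩ := data_col H
  obtain ⟨f⟩ : Nonempty (Λ × Option (Option κ) ↪ (Λ × Fin (m + 3)) × Γ) :=
    Function.Embedding.nonempty_of_card_le (by
      have : 0 < Fintype.card Γ := Fintype.card_pos
      simp only [Fintype.card_prod, Fintype.card_option, Fintype.card_fin, mul_assoc]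
      exact Nat.mul_le_mul_left _ (by linarith))
  obtain ⟨r, hr⟩ := unperf hS hD' hw hs (z := z) (y := y') (Λ := Λ) (fun ε hε => by
    obtain ⟨r, hr⟩ := h ε hε
    refine ⟨fun l a => l.elim 0 fun l => r l (f a), fun a b => ?_⟩
    have := hr (f a) (f b)
    rw [← y1] at this
    rw [← hS.iso, map_sub, apply_ite S.φ, map_zero, Fintype.sum_option]
    simpa using this) ht
  refine ⟨r, fun l l' => ?_⟩
  have h3 := hr l l'
  split_ifs at h3 ⊢
  · rw [e1] at y2
    set y := ∑ k, star (γ k) * γ k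
    have h4 : ‖v * y * v - y‖ ≤ t := by
      rw [show v * y * v - y = v * (y * v - y) + (v * y - y) by noncomm_ring]
      linarith [norm_add_le_of_le (norm_mul_le_of_le v1 v3) v2]
    have h5 := norm_add_le_of_le (norm_add_le_of_le h3 y2) h4
    rw [sub_add_sub_cancel, sub_add_sub_cancel] at h5
    nlinarith
  · linarith

end Vale.Agent.P095
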