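import Vale.Agent.P095.Infra

/-! Approximate units dominated by finitely many copies of a given element. -/

namespace Vale.Agent.P095

open scoped CStarAlgebra
open Filter Topology
open Vale.Agent.P101

attribute [local instance] CStarAlgebra.spectralOrder CStarAlgebra.spectralOrderedRing

lemma full_approx {A : Type*} [NonUnitalCStarAlgebra A] (hA : IsSimple A) {z : A} (hz : z ≠ 0)
    {e : A} (he : IsSelfAdjoint e) {κ : ℝ} (hκ : 0 < κ) : ∃ (m : ℕ) (ζ : Fin m → A) (r : A),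
      IsSelfAdjoint r ∧ ‖r‖ ≤ κ ∧ e ≤ r + ∑ j, star (z * ζ j) * (z * ζ j) := by
  let P : Set A := {w | ∃ (m : ℕ) (ζ : Fin m → A), w + star w ≤ ∑ j, star (z * ζ j) * (z * ζ j)}
  let s : Set A := {a | ∀ x y : A, ∀ c : ℂ, c • (x * a * y) ∈ closure P}
  have hadd : ∀ {a b}, a ∈ closure P → b ∈ closure P → a + b ∈ closure P := fun ha hb =>
    map_mem_closure₂ continuous_add ha hb (by
      rintro a ⟨m, ζ, h⟩ b ⟨m', ζ', h'⟩
      refine ⟨m + m', Fin.append ζ ζ', ?_⟩
      rw [Fin.sum_univ_add]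
      simp only [Fin.append_left, Fin.append_right]
      exact (by rw [star_add]; abel : a + b + star (a + b) = (a + star a) + (b + star b)).trans_le
        (add_le_add h h'))
  have h1 : ∀ b, b ∈ s := simple_of hA s
    (by
      have : s = ⋂ x, ⋂ y, ⋂ c : ℂ, (fun a => c • (x * a * y)) ⁻¹' closure P := by
        ext a; simp [s]
      rw [this]
      exact isClosed_iInter fun x => isClosed_iInter fun y => isClosed_iInter fun c =>
        isClosed_closure.preimage (by fun_prop))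
    (fun x y c => subset_closure ⟨0, Fin.elim0, by simp⟩)
    (fun ha hb x y c => by rw [mul_add, add_mul, smul_add]; exact hadd (ha x y c) (hb x y c))
    (fun ha x y c => by simpa using ha x y (-c))
    (fun {a b} hb x y c => by simpa [mul_assoc] using hb (x * a) y c)
    (fun {a b} ha x y c => by simpa [mul_assoc] using ha x (b * y) c)
    (a := star z * z) (fun x y c => subset_closure ⟨2, ![star (c • x), y], by
      have := star_mul_self_nonneg (z * star (c • x) - z * y)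
      rw [Fin.sum_univ_two, ← sub_nonneg]
      convert this using 1
      rw [← smul_mul_assoc, ← smul_mul_assoc]
      generalize c • x = w
      simp only [Matrix.cons_val_zero, Matrix.cons_val_one, star_sub, star_mul, star_star]
      noncomm_ring⟩) (by simpa using hz)
  have h2 : (2⁻¹ : ℂ) • e ∈ closure P := by
    refine isClosed_closure.closure_subset (Metric.mem_closure_iff.2 fun δ hδ => ?_)
    obtain ⟨v, -, hv, hv'⟩ := exists_unit {e} (half_pos hδ)
    obtain ⟨h3, h4⟩ := hv' e (Finset.mem_singleton_self e)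
    refine ⟨_, h1 e v v 2⁻¹, ?_⟩
    rw [dist_comm, dist_eq_norm, ← smul_sub, norm_smul,
      show v * e * v - e = v * (e * v - e) + (v * e - e) by noncomm_ring]
    have := norm_add_le_of_le (norm_mul_le_of_le hv h4) h3
    simp only [norm_inv, Complex.norm_ofNat]
    linarith
  obtain ⟨w, ⟨m, ζ, hw⟩, hw'⟩ := Metric.mem_closure_iff.1 h2 _ (half_pos hκ)
  refine ⟨m, ζ, e - (w + star w), he.sub (IsSelfAdjoint.add_star_self w), ?_, by
    simpa using add_le_add_right hw (e - (w + star w))⟩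
  have h3 : e - (w + star w) = ((2⁻¹ : ℂ) • e - w) + star ((2⁻¹ : ℂ) • e - w) := by
    simp only [star_sub, star_smul, he.star_eq, star_inv₀, star_ofNat]
    module
  rw [dist_eq_norm] at hw'
  rw [h3]
  linarith [norm_add_le ((2⁻¹ : ℂ) • e - w) (star ((2⁻¹ : ℂ) • e - w)), norm_star ((2⁻¹ : ℂ) • e - w)]

lemma cut_aux {A : Type*} [NonUnitalCStarAlgebra A] {e : A} (he : IsSelfAdjoint e) {κ : ℝ}
    (hκ : 0 < κ) : ∃ k : A, IsSelfAdjoint k ∧ cfcₙ (fun t : ℝ => min 1 (max (t / κ - 2) 0)) e *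
      cfcₙ (fun t : ℝ => min 1 (max (t / κ - 2) 0)) e = k * e * k - κ • (k * k) := by
  obtain ⟨g, hg'⟩ : ∃ g : ℝ → ℝ, g = fun t => min 1 (max (t / κ - 2) 0) := ⟨_, rfl⟩
  obtain ⟨k, hk'⟩ : ∃ k : ℝ → ℝ, k = fun t => g t / √(max (t - κ) κ) := ⟨_, rfl⟩
  have hg : Continuous g := by rw [hg']; fun_prop
  have hk : Continuous k := hk' ▸ hg.div (by fun_prop) fun t =>
    (Real.sqrt_pos.2 (lt_max_of_lt_right hκ)).ne'
  have g0 : g 0 = 0 := by simp [hg']
  have k0 : k 0 = 0 := by simp [hk', g0]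
  refine ⟨cfcₙ k e, IsSelfAdjoint.cfcₙ, ?_⟩
  rw [← hg']
  nth_rw 4 [← cfcₙ_id' ℝ e]
  rw [← cfcₙ_mul _ _ _ hg.continuousOn g0 hg.continuousOn g0,
    ← cfcₙ_mul _ _ _ hk.continuousOn k0 hk.continuousOn k0,
    ← cfcₙ_mul _ _ _ hk.continuousOn k0 (by fun_prop) rfl,
    ← cfcₙ_mul _ _ _ (by fun_prop) (by simp) hk.continuousOn k0,
    ← cfcₙ_smul _ _ _ (by fun_prop) (by simp [k0]),
    ← cfcₙ_sub _ _ _ (by fun_prop) (by simp) (by fun_prop) (by simp [k0])]
  refine cfcₙ_congr fun t _ => ?_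
  simp only [hk', smul_eq_mul]
  rcases le_total t (2 * κ) with h | h
  · have : g t = 0 := by
      simp only [hg']
      rw [max_eq_right, min_eq_right zero_le_one]
      rw [sub_nonpos, div_le_iff₀ hκ]; linarith
    simp [this]
  · rw [max_eq_left (by linarith)]
    have h5 := Real.mul_self_sqrt (show 0 ≤ t - κ by linarith)
    have h6 : √(t - κ) ≠ 0 := (Real.sqrt_pos.2 (by linarith)).ne'
    field_simp
    rw [sq √(t - κ), h5]

/-- approximate units dominated by finitely many copies of `z` -/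
theorem cut {A : Type*} [NonUnitalCStarAlgebra A] (hA : IsSimple A) {z : A} (hz : z ≠ 0)
    (F : Finset A) {ε : ℝ} (hε : 0 < ε) : ∃ u u' : A, 0 ≤ u ∧ ‖u‖ ≤ 1 ∧ 0 ≤ u' ∧ ‖u'‖ ≤ 1 ∧
      u' * u = u ∧ (∀ a ∈ F, ‖u * a - a‖ ≤ ε ∧ ‖a * u - a‖ ≤ ε) ∧
      ∃ (m : ℕ) (ζ : Fin m → A), star u' * u' ≤ ∑ j, star (z * ζ j) * (z * ζ j) := by
  obtain ⟨e, he, he1, he2⟩ := exists_unit F (half_pos hε)
  obtain ⟨κ, hκ, hκ'⟩ := exists_pos_mul_lt (half_pos hε) (3 * ∑ a ∈ F, ‖a‖)
  obtain ⟨m, ζ, r, hr, hr', h⟩ := full_approx hA hz he.isSelfAdjoint hκ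
  obtain ⟨k, hks, h4⟩ := cut_aux he.isSelfAdjoint hκ
  have hsp : ∀ t ∈ quasispectrum ℝ e, 0 ≤ t ∧ t ≤ 1 := fun t ht =>
    ⟨quasispectrum_nonneg_of_nonneg e he t ht, by
      have := (le_abs_self t).trans (norm_apply_le_norm_cfcₙ (fun t : ℝ => t) e ht)
      rw [cfcₙ_id' ℝ e] at this
      linarith⟩
  have f0 : max (0 - 3 * κ) 0 = 0 := by simp [hκ.le]
  have h1 : ‖cfcₙ (fun t => max (t - 3 * κ) 0) e - e‖ ≤ 3 * κ := by
    nth_rw 2 [← cfcₙ_id' ℝ e]
    rw [← cfcₙ_sub _ _ _ (by fun_prop) (by exact f0) (by fun_prop) rfl]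
    refine norm_cfcₙ_le fun t ht => ?_
    simp only [Real.norm_eq_abs, abs_le]
    constructor
    · linarith [le_max_left (t - 3 * κ) 0]
    · linarith [max_le (show t - 3 * κ ≤ t by linarith) (hsp t ht).1]
  refine ⟨cfcₙ (fun t => max (t - 3 * κ) 0) e, cfcₙ (fun t : ℝ => min 1 (max (t / κ - 2) 0)) e,
    cfcₙ_nonneg fun t _ => le_max_right _ _, norm_cfcₙ_le fun t ht => ?_,
    cfcₙ_nonneg fun t _ => le_min zero_le_one (le_max_right _ _), norm_cfcₙ_le fun t ht => ?_, ?_,
    fun a ha => ?_, m, fun j => ζ j * k, ?_⟩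
  · rw [Real.norm_of_nonneg (le_max_right _ _)]
    exact max_le (by linarith [(hsp t ht).2]) zero_le_one
  · rw [Real.norm_of_nonneg (le_min zero_le_one (le_max_right _ _))]
    exact min_le_left _ _
  · rw [← cfcₙ_mul _ _ _ (by fun_prop) (by simp) (by fun_prop) (by exact f0)]
    refine cfcₙ_congr fun t _ => ?_
    rcases le_total t (3 * κ) with h | h
    · simp only [max_eq_right (sub_nonpos.2 h), mul_zero]
    · have : 1 ≤ max (t / κ - 2) 0 := le_max_of_le_left (by
        rw [le_sub_iff_add_le, le_div_iff₀ hκ]; linarith)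
      simp only [min_eq_left this, one_mul]
  · have h2 := mul_le_mul_of_nonneg_left (Finset.single_le_sum (fun a _ => norm_nonneg a) ha)
      (show 0 ≤ 3 * κ by positivity)
    obtain ⟨h3, h4⟩ := he2 a ha
    generalize cfcₙ (fun t => max (t - 3 * κ) 0) e = u at h1
    constructor
    · rw [show u * a - a = (u - e) * a + (e * a - a) by noncomm_ring]
      linarith [norm_add_le_of_le (norm_mul_le_of_le h1 (le_refl ‖a‖)) h3]
    · rw [show a * u - a = a * (u - e) + (a * e - a) by noncomm_ring]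
      linarith [norm_add_le_of_le (norm_mul_le_of_le (le_refl ‖a‖) h1) h4]
  · have h2 := hks.conjugate_le_conjugate h
    have h3 := CStarAlgebra.star_left_conjugate_le_norm_smul (a := k) hr
    rw [hks.star_eq] at h3
    rw [IsSelfAdjoint.cfcₙ.star_eq, h4, sub_le_iff_le_add']
    refine h2.trans ?_
    rw [mul_add, add_mul, Finset.mul_sum, Finset.sum_mul]
    refine add_le_add (h3.trans (smul_le_smul_of_nonneg_right hr' hks.mul_self_nonneg)) (le_of_eq ?_)
    simp [hks.star_eq, mul_assoc]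

end Vale.Agent.P095
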