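import Vale.Agent.P095.Canon
import Vale.Agent.P095.Cut

/-! Matrix amplifications and the free estimate. -/

namespace Vale.Agent.P095.Cm

open scoped CStarAlgebra
open Matrix

attribute [local instance] CStarAlgebra.spectralOrder CStarAlgebra.spectralOrderedRing

universe v

/-- a C*-algebra of matrices -/
structure Amp (J : Type) [Fintype J] [DecidableEq J] (E : Type*) [CStarAlgebra E] (B : Type*)
    [CStarAlgebra B] where
  m : Matrix J J E ≃⋆ₐ[ℂ] B
  le : ∀ x a b, ‖x a b‖ ≤ ‖m x‖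

theorem exists_amp (J : Type) [Fintype J] [DecidableEq J] (E : Type v) [CStarAlgebra E] :
    ∃ (B : Type v) (_ : CStarAlgebra B), Nonempty (Amp J E B) :=
  ⟨CStarMatrix J J E, inferInstance, ⟨CStarMatrix.ofMatrixStarAlgEquiv, fun x a b =>
    CStarMatrix.norm_entry_le_norm (M := CStarMatrix.ofMatrix x) (i := a) (j := b)⟩⟩

open scoped Matrix.Norms.L2Operator in
lemma l2_entry {J : Type} [Fintype J] [DecidableEq J] (x : Matrix J J ℂ) (a b : J) :
    ‖x a b‖ ≤ ‖x‖ := by
  obtain ⟨B, _, ⟨M⟩⟩ := exists_amp J ℂ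
  exact (M.le x a b).trans (NonUnitalStarAlgHom.norm_apply_le M.m x)

section basic
variable {B : Type*} [CStarAlgebra B]

lemma norm_two {a : B} (ha : IsSelfAdjoint a) {r : ℝ} (hr : 0 ≤ r) (h1 : -(r • 1) ≤ a)
    (h2 : a ≤ r • 1) : ‖a‖ ≤ r := by
  rw [← Algebra.algebraMap_eq_smul_one] at h1 h2
  rw [← map_neg, algebraMap_le_iff_le_spectrum] at h1
  rw [le_algebraMap_iff_spectrum_le] at h2
  rw [← cfc_id' ℝ a]
  exact norm_cfc_le hr fun x hx => abs_le.2 ⟨h1 x hx, h2 x hx⟩

lemma le_smul_of_norm {a : B} (ha : IsSelfAdjoint a) {r : ℝ} (h : ‖a‖ ≤ r) : a ≤ r • 1 :=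
  ha.le_algebraMap_norm_self.trans (by
    rw [Algebra.algebraMap_eq_smul_one]; exact smul_le_smul_of_nonneg_right h zero_le_one)

lemma norm_of_le {a : B} (ha : 0 ≤ a) {r : ℝ} (hr : 0 ≤ r) (h : a ≤ r • 1) : ‖a‖ ≤ r :=
  (CStarAlgebra.norm_le_iff_le_algebraMap a hr ha).2 (by rwa [Algebra.algebraMap_eq_smul_one])

lemma conj_le {a : B} {r : ℝ} (h : a ≤ r • 1) (x : B) : star x * a * x ≤ r • (star x * x) := by
  simpa using star_left_conjugate_le_conjugate h x

/-- the sesquilinear form of a kernel -/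
def Q {κ : Type*} [Fintype κ] (g : κ → κ → B) (x y : κ → B) : B :=
  ∑ k, ∑ k', star (x k) * g k k' * y k'

variable {κ : Type*} [Fintype κ] [DecidableEq κ]

omit [DecidableEq κ] in
lemma Q_nonneg {ι : Type*} [Fintype ι] {g : κ → κ → B} {N : ι → κ → B}
    (h : ∀ k k', g k k' = ∑ i, star (N i k) * N i k') (x : κ → B) : 0 ≤ Q g x x := by
  have : Q g x x = ∑ i, star (∑ k, N i k * x k) * ∑ k, N i k * x k := by
    simp only [Q, h, star_sum, Finset.sum_mul, Finset.mul_sum, star_mul, mul_assoc]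
    rw [Finset.sum_comm]
    conv_rhs => rw [Finset.sum_comm]
    refine Finset.sum_congr rfl fun k _ => ?_
    rw [Finset.sum_comm]
  rw [this]
  exact Finset.sum_nonneg fun i _ => star_mul_self_nonneg _

lemma Q_le {ι : Type*} [Fintype ι] {g : κ → κ → B} {N : ι → κ → B} {p : B} {η : ℝ}
    (h : ∀ k k', (if k = k' then p else 0) - g k k' = ∑ i, star (N i k) * N i k') (hp : p ≤ η • 1)
    (x : κ → B) : Q g x x ≤ η • ∑ k, star (x k) * x k := by
  have h1 := Q_nonneg h x
  have h2 : Q (fun k k' => (if k = k' then p else 0) - g k k') x x =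
      ∑ k, star (x k) * p * x k - Q g x x := by
    simp [Q, mul_sub, sub_mul, Finset.sum_sub_distrib]
  rw [h2, sub_nonneg] at h1
  rw [Finset.smul_sum]
  exact h1.trans (Finset.sum_le_sum fun k _ => conj_le hp _)

lemma Q_single (g : κ → κ → B) (k : κ) (x : B) :
    Q g (Pi.single k x) (Pi.single k x) = star x * g k k * x := by
  simp [Q, Pi.single_apply, apply_ite star]

theorem free_abs {g : κ → κ → B} {v c r : κ → B} {d : B} {η t cc : ℝ} (ht : 0 < t) (hη : 0 ≤ η)
    (h1 : η ≤ t ^ 2) (h2 : η * cc ≤ t ^ 2) (hcc : 0 ≤ cc)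
    (gs : ∀ k k', star (g k k') = g k' k)
    (g0 : ∀ x, 0 ≤ Q g x x) (gη : ∀ x, Q g x x ≤ η • ∑ k, star (x k) * x k) (g1 : ∑ k, g k k ≤ 1)
    (hc : ∀ k k', star (v k * c k) * g k k' * (v k' * c k') = if k = k' then g k k * c k else 0)
    (hd : ∀ k, c k * d + r k * d = d) (cs : ∀ k, star (c k) = c k) (cc' : ∀ k, c k * c k = c k)
    (cg : ∀ k, c k * g k k = g k k * c k) (rs : ∀ k, star (r k) = r k) (rr : ∀ k, r k * r k = r k)
    (rg : ∀ k, r k * g k k = g k k * r k) (r1 : ∑ k, r k ≤ 1)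
    (hv : ∀ k, star (v k) * v k ≤ cc • 1) (d1 : ‖d‖ ≤ 1) :
    ‖star d * (Q g v v - ∑ k, g k k) * d‖ ≤ 2 * t + t ^ 2 := by
  set C : κ → B := fun k => v k * c k with hC
  set R : κ → B := fun k => v k * r k with hR
  have gk : ∀ k x, 0 ≤ star x * g k k * x := fun k x => Q_single g k x ▸ g0 _
  have e1 : Q g C C = ∑ k, g k k * c k := by simp only [Q, hC, hc]; simp
  have b1 : Q g C C ≤ 1 := by
    refine le_trans ?_ g1
    rw [e1]
    refine Finset.sum_le_sum fun k _ => ?_
    have := gk k (1 - c k)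
    rwa [star_sub, star_one, cs, sub_mul, one_mul, cg, mul_sub, mul_one, sub_mul, mul_assoc, cc',
      sub_self, sub_zero, sub_nonneg] at this
  have b2 : Q g R R ≤ (t ^ 2) • 1 := by
    refine (gη R).trans ?_
    have : ∑ k, star (R k) * R k ≤ cc • 1 := by
      refine le_trans ?_ (smul_le_smul_of_nonneg_left r1 hcc)
      rw [Finset.smul_sum]
      refine Finset.sum_le_sum fun k _ => ?_
      have := conj_le (hv k) (r k)
      rw [rs, rr] at this
      simpa [hR, rs, mul_assoc] using this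
    refine (smul_le_smul_of_nonneg_left this hη).trans ?_
    rw [smul_smul]
    exact smul_le_smul_of_nonneg_right h2 zero_le_one
  have b3 : 0 ≤ ∑ k, g k k * r k := Finset.sum_nonneg fun k _ => by
    have := gk k (r k)
    rwa [rs, rg, mul_assoc, rr] at this
  have b4 : ∑ k, g k k * r k ≤ (t ^ 2) • 1 := by
    refine le_trans ?_ ((smul_le_smul_of_nonneg_left r1 hη).trans
      (smul_le_smul_of_nonneg_right h1 zero_le_one))
    rw [Finset.smul_sum]
    refine Finset.sum_le_sum fun k _ => ?_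
    have := gη (Pi.single k (r k))
    rw [Q_single, rs, rg, mul_assoc, rr] at this
    simpa [Pi.single_apply, apply_ite star, rs, rr] using this
  have e2 : ∀ s : ℝ, Q g (s • C + R) (s • C + R) =
      (s ^ 2) • Q g C C + s • (Q g C R + Q g R C) + Q g R R := fun s => by
    simp only [Q, Pi.add_apply, Pi.smul_apply, star_add, star_smul, star_trivial, add_mul, mul_add,
      smul_mul_assoc, mul_smul_comm, Finset.sum_add_distrib, ← Finset.smul_sum, smul_add, smul_smul, sq]
    abel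
  have b5 : ∀ s : ℝ, s ^ 2 = t ^ 2 → 0 ≤ s • (Q g C R + Q g R C) + (2 * t ^ 2) • 1 := fun s hs => by
    have := g0 (s • C + R)
    rw [e2, hs] at this
    refine this.trans ?_
    have h3 := smul_le_smul_of_nonneg_left b1 (sq_nonneg t)
    rw [two_mul, add_smul, add_comm (t ^ 2 • Q g C C), add_assoc]
    exact add_le_add le_rfl (add_le_add h3 b2)
  have b6 : ∀ s : ℝ, s ^ 2 = 1 → 0 ≤ s • (Q g C R + Q g R C) + (2 * t) • 1 := fun s hs => by
    have := smul_nonneg (inv_nonneg.2 ht.le) (b5 (t * s) (by rw [mul_pow, hs, mul_one]))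
    rwa [smul_add, smul_smul, smul_smul, inv_mul_cancel_left₀ ht.ne',
      show t⁻¹ * (2 * t ^ 2) = 2 * t by field_simp] at this
  have e3 : star d * (Q g v v - ∑ k, g k k) * d =
      star d * (Q g C R + Q g R C + Q g R R - ∑ k, g k k * r k) * d := by
    have e4 : ∀ x y, star d * Q g x y * d = Q g (fun k => x k * d) fun k => y k * d := fun x y => by
      simp [Q, Finset.mul_sum, Finset.sum_mul, mul_assoc]
    have e5 : (fun k => v k * d) = fun k => ((1 : ℝ) • C + R) k * d := funext fun k => by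
      simp only [hC, hR, one_smul, Pi.add_apply, add_mul, mul_assoc, ← mul_add, hd]
    have e6 : (∑ k, g k k) * d = (∑ k, g k k * c k + ∑ k, g k k * r k) * d := by
      simp only [add_mul, Finset.sum_mul, ← Finset.sum_add_distrib, mul_assoc, ← mul_add, hd]
    rw [mul_sub, sub_mul, e4, e5, ← e4, e2, e1, mul_assoc _ (∑ k, g k k), e6]
    simp only [one_pow, one_smul]
    noncomm_ring
  have Qs : ∀ x y, star (Q g x y) = Q g y x := fun x y => by
    simp only [Q, star_sum, star_mul, star_star, gs, mul_assoc]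
    exact Finset.sum_comm
  have hs : IsSelfAdjoint (Q g C R + Q g R C + Q g R R - ∑ k, g k k * r k) :=
    IsSelfAdjoint.sub (by simp only [IsSelfAdjoint, star_add, Qs]; abel) b3.isSelfAdjoint
  have b7 : ‖Q g C R + Q g R C + Q g R R - ∑ k, g k k * r k‖ ≤ 2 * t + t ^ 2 := by
    refine norm_two hs (by positivity) ?_ ?_
    · have := add_nonneg (add_nonneg (b6 1 (by simp)) (g0 R)) (sub_nonneg.2 b4)
      rw [← sub_nonneg, add_smul]
      refine this.trans_eq ?_
      rw [one_smul]; abel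
    · have := add_nonneg (add_nonneg (b6 (-1) (by simp)) (sub_nonneg.2 b2)) b3
      rw [← sub_nonneg, add_smul]
      refine this.trans_eq ?_
      rw [neg_smul, one_smul]; abel
  rw [e3]
  refine norm_mul₃_le.trans ?_
  rw [norm_star]
  calc _ ≤ 1 * (2 * t + t ^ 2) * 1 := by gcongr
    _ = _ := by ring

end basic

section amp
variable {J : Type} [Fintype J] [DecidableEq J] {E : Type*} [CStarAlgebra E] {B : Type*}
  [CStarAlgebra B] (M : Amp J E B)

/-- scalar matrices -/
noncomputable def Amp.Δ : E →⋆ₐ[ℂ] B :=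
  (M.m : Matrix J J E →⋆ₐ[ℂ] B).comp
    { Matrix.scalarAlgHom J ℂ with
      map_star' := fun x => by simp [star_eq_conjTranspose, diagonal_conjTranspose] }

/-- constant matrices -/
noncomputable def Amp.π : Matrix J J ℂ →⋆ₐ[ℂ] B :=
  (M.m : Matrix J J E →⋆ₐ[ℂ] B).comp
    { (Algebra.ofId ℂ E).mapMatrix with
      map_star' := fun x => by ext a b; simp [Algebra.algebraMap_eq_smul_one] }

lemma Amp.Δ_eq (g : E) : M.Δ g = M.m (diagonal fun _ => g) := rfl

lemma Amp.π_eq (x : Matrix J J ℂ) : M.π x = M.m (x.map (algebraMap ℂ E)) := rfl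

lemma Amp.Δ_π (g : E) (x : Matrix J J ℂ) : M.Δ g * M.π x = M.m (of fun a b => x a b • g) := by
  rw [M.Δ_eq, M.π_eq, ← map_mul]
  congr 1
  ext a b
  simp [Algebra.algebraMap_eq_smul_one]

lemma Amp.π_Δ (g : E) (x : Matrix J J ℂ) : M.π x * M.Δ g = M.Δ g * M.π x := by
  rw [M.Δ_π, M.Δ_eq, M.π_eq, ← map_mul]
  congr 1
  ext a b
  simp [Algebra.algebraMap_eq_smul_one]

lemma Amp.diag_nonneg {d : J → E} (h : ∀ a, 0 ≤ d a) : 0 ≤ M.m (diagonal d) := by
  choose r hr using fun a => CStarAlgebra.nonneg_iff_eq_star_mul_self.1 (h a)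
  have : diagonal d = star (diagonal r) * diagonal r := by
    simp [star_eq_conjTranspose, diagonal_conjTranspose, funext hr]
  rw [this, map_mul, map_star]
  exact star_mul_self_nonneg _

lemma Amp.diag_le {d : J → E} {c : ℝ} (h : ∀ a, d a ≤ c • 1) : M.m (diagonal d) ≤ c • 1 := by
  have := M.diag_nonneg fun a => sub_nonneg.2 (h a)
  rw [← sub_nonneg]
  refine this.trans_eq ?_
  rw [← map_one M.m, ← Complex.coe_smul c (M.m 1), ← map_smul, ← map_sub]
  congr 1
  ext a b
  by_cases h : a = b <;> simp [h]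

lemma Amp.π_diag_le {d : J → ℕ} {c : ℝ} (h : ∀ a, d a ≤ c) :
    M.π (diagonal fun a => (d a : ℂ)) ≤ c • 1 := by
  rw [M.π_eq, diagonal_map (map_zero _)]
  refine M.diag_le fun a => ?_
  rw [map_natCast, ← nsmul_one, ← Nat.cast_smul_eq_nsmul ℝ]
  exact smul_le_smul_of_nonneg_right (h a) zero_le_one

variable {κ Γ : Type} [Fintype κ] [DecidableEq κ] [DecidableEq Γ]

/-- the matrix of a map -/
def V (f : J → J) : Matrix J J ℂ := of fun a' a => if a' = f a then 1 else 0

lemma V_V (f f' : J → J) : star (V f) * V f' = of fun a b => if f a = f' b then 1 else 0 := by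
  ext a b
  simp [V, mul_apply, apply_ite star, eq_comm]

lemma Amp.V_le {f : J → J} {c : ℕ} (h : ∀ a', (Finset.univ.filter fun a => f a = a').card ≤ c) :
    ‖M.π (V f)‖ * ‖M.π (V f)‖ ≤ c := by
  have h1 : V f * star (V f) =
      diagonal fun a' => ((Finset.univ.filter fun a => f a = a').card : ℂ) := by
    ext a b
    by_cases hab : a = b
    · simp [V, mul_apply, apply_ite star, hab, eq_comm, ← ite_and]
    · rw [diagonal_apply_ne _ hab, mul_apply]
      refine Finset.sum_eq_zero fun x _ => ?_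
      simp only [V, star_apply, of_apply, apply_ite star]
      split_ifs with h1 h2 <;> simp_all
  rw [← CStarRing.norm_self_mul_star]
  refine norm_of_le (mul_star_self_nonneg _) (by positivity) ?_
  rw [← map_star, ← map_mul, h1]
  exact M.π_diag_le fun a => by exact_mod_cast h a

/-- the coefficients of the off-diagonal part -/
def χ (ρ : κ → J → Γ) (k : κ) (a : J) (k' : κ) (b : J) : ℂ :=
  (if ρ k a = ρ k' b then 1 else 0) - if k = k' ∧ a = b then 1 else 0

/-- the off-diagonal part -/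
def Xm (ρ : κ → J → Γ) (G : κ → κ → E) : Matrix J J E :=
  of fun a b => ∑ k, ∑ k', χ ρ k a k' b • G k k'

lemma Amp.Xm_eq {e : Γ → J} (he : Function.Injective e) (ρ : κ → J → Γ) (G : κ → κ → E) :
    M.m (Xm ρ G) = Q (fun k k' => M.Δ (G k k')) (fun k => M.π (V (e ∘ ρ k)))
      (fun k => M.π (V (e ∘ ρ k))) - ∑ k, M.Δ (G k k) := by
  have h1 : ∀ k k', star (M.π (V (e ∘ ρ k))) * M.Δ (G k k') * M.π (V (e ∘ ρ k')) =
      M.m (of fun a b => (if ρ k a = ρ k' b then (1 : ℂ) else 0) • G k k') := fun k k' => by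
    rw [← map_star, M.π_Δ, mul_assoc, ← map_mul, V_V, M.Δ_π]
    simp [he.eq_iff]
  simp only [Q, h1]
  simp only [M.Δ_eq, ← map_sum, ← map_sub]
  congr 1
  ext a b
  by_cases h : a = b <;> simp [Xm, χ, sub_smul, Matrix.sum_apply, h]

lemma Amp.V_le' {e : Γ → J} (he : Function.Injective e) {f : J → Γ} {c : ℕ}
    (h : ∀ g, (Finset.univ.filter fun a => f a = g).card ≤ c) :
    ‖M.π (V (e ∘ f))‖ * ‖M.π (V (e ∘ f))‖ ≤ c := M.V_le fun a' => by
  by_cases ha : ∃ g, e g = a'
  · obtain ⟨g, rfl⟩ := ha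
    simpa [he.eq_iff] using h g
  · rw [Finset.filter_eq_empty_iff.2 fun a _ (h : (e ∘ f) a = a') => ha ⟨_, h⟩]; simp

lemma Amp.Xm_norm {e : Γ → J} (he : Function.Injective e) {ρ : κ → J → Γ} {c : ℕ}
    (h : ∀ k g, (Finset.univ.filter fun a => ρ k a = g).card ≤ c) {G : κ → κ → E} {ε : ℝ}
    (hG : ∀ k k', ‖G k k'‖ ≤ ε) :
    ‖M.m (Xm ρ G)‖ ≤ Fintype.card κ * (Fintype.card κ * (c * ε)) + Fintype.card κ * ε := by
  have h1 := fun k => M.V_le' he (h k)
  have h2 : ∀ k k', ‖M.Δ (G k k')‖ ≤ ε := fun k k' =>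
    (NonUnitalStarAlgHom.norm_apply_le _ _).trans (hG k k')
  rw [M.Xm_eq he]
  refine norm_sub_le_of_le ?_ ?_
  · refine (norm_sum_le_of_le _ fun k _ => norm_sum_le_of_le (n := fun _ => c * ε) _
      fun k' _ => ?_).trans_eq (by simp)
    refine norm_mul₃_le.trans ?_
    rw [norm_star, mul_right_comm]
    refine mul_le_mul ?_ (h2 k k') (norm_nonneg _) (by positivity)
    nlinarith [h1 k, h1 k', sq_nonneg (‖M.π (V (e ∘ ρ k))‖ - ‖M.π (V (e ∘ ρ k'))‖)]
  · exact (norm_sum_le_of_le _ fun k _ => h2 k k).trans_eq (by simp)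

/-- locally tree-like systems -/
structure Free (ρ : κ → J → Γ) (c R : ℕ) : Prop where
  fib : ∀ k g, (Finset.univ.filter fun a => ρ k a = g).card ≤ c
  loc : ∀ a₀, ∃ (len : J → ℕ) (DC DR : κ → J → Prop), len a₀ = 0 ∧
    (∀ k k' a b, DC k a → DC k' b → ρ k a = ρ k' b → k = k' ∧ a = b) ∧
    (∀ k k' a, DR k a → DR k' a → k = k') ∧ (∀ k a, len a < R → (DC k a ↔ ¬ DR k a)) ∧
    ∀ k k' a b, ρ k a = ρ k' b → len a ≤ len b + 2

open Classical in
/-- indicator matrices -/
noncomputable def ind (p : J → Prop) : Matrix J J ℂ := diagonal fun a => if p a then 1 else 0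

omit [Fintype J] in
lemma ind_star (p : J → Prop) : star (ind p) = ind p := by
  ext a b
  by_cases h : a = b <;> simp [ind, h, apply_ite star, eq_comm]

lemma ind_sq (p : J → Prop) : ind p * ind p = ind p := by
  simp [ind]

omit [Fintype κ] [DecidableEq Γ] in
lemma ind_V {e : Γ → J} (he : Function.Injective e) {ρ : κ → J → Γ} {DC : κ → J → Prop}
    (l1 : ∀ k k' a b, DC k a → DC k' b → ρ k a = ρ k' b → k = k' ∧ a = b) (k k' : κ) :
    star (V (e ∘ ρ k) * ind (DC k)) * (V (e ∘ ρ k') * ind (DC k')) =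
      if k = k' then ind (DC k) else 0 := by
  rw [star_mul, ind_star, mul_assoc, ← mul_assoc (star _), V_V]
  ext a b
  have := l1 k k' a b
  by_cases h : k = k' <;> by_cases h' : a = b <;> simp_all [ind, he.eq_iff] <;> tauto

lemma ind_add {p q r : J → Prop} (h : ∀ a, r a → (p a ↔ ¬q a)) :
    ind p * ind r + ind q * ind r = ind r := by
  ext a b
  have := h a
  by_cases h : a = b <;> by_cases h' : r a <;> by_cases h'' : q a <;> simp_all [ind]

theorem moment {e : Γ → J} (he : Function.Injective e) {ρ : κ → J → Γ} {c R : ℕ} (h : Free ρ c R)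
    {G : κ → κ → E} {ι ι' : Type*} [Fintype ι] [Fintype ι'] {N : ι → κ → E} {N' : ι' → κ → E}
    {p : E} {η t : ℝ} (ht : 0 < t) (hη : 0 ≤ η) (h1 : η ≤ t ^ 2) (h2 : η * c ≤ t ^ 2)
    (F1 : ∀ k k', G k k' = ∑ i, star (N i k) * N i k')
    (F2 : ∀ k k', (if k = k' then p else 0) - G k k' = ∑ i, star (N' i k) * N' i k')
    (hp : p ≤ η • 1) (G1 : ∑ k, G k k ≤ 1) {j : ℕ} (hj : 2 * j < R) (a₀ : J) :
    ‖(Xm ρ G ^ j) a₀ a₀‖ ≤ (2 * t + t ^ 2) ^ j := by
  classical
  obtain ⟨B, _, ⟨M⟩⟩ := exists_amp J E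
  obtain ⟨len, DC, DR, l0, l1, l2, l3, l4⟩ := h.loc a₀
  have pn : ∀ q : J → Prop, ‖M.π (ind q)‖ ≤ 1 := fun q => by
    have : IsStarProjection (M.π (ind q)) :=
      ⟨by rw [IsIdempotentElem, ← map_mul, ind_sq], by rw [IsSelfAdjoint, ← map_star, ind_star]⟩
    exact this.norm_le
  have key := free_abs (g := fun k k' => M.Δ (G k k')) (v := fun k => M.π (V (e ∘ ρ k)))
    (c := fun k => M.π (ind (DC k))) (r := fun k => M.π (ind (DR k)))
    (d := M.π (ind fun a => len a < R)) (cc := c) ht hη h1 h2 (by positivity)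
    (fun k k' => by simp only [← map_star, F1, star_sum, star_mul, star_star])
    (Q_nonneg (N := fun i k => M.Δ (N i k)) fun k k' => by simp only [F1, map_sum, map_mul, map_star])
    (Q_le (N := fun i k => M.Δ (N' i k)) (p := M.Δ p) (fun k k' => by
      simp only [← map_star, ← map_mul, ← map_sum, ← F2, map_sub, apply_ite M.Δ, map_zero]) (by
      have := OrderHomClass.mono M.Δ hp
      rwa [← Complex.coe_smul, map_smul, map_one, Complex.coe_smul] at this))
    (by rw [← map_sum, ← map_one M.Δ]; exact OrderHomClass.mono M.Δ G1)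
    (fun k k' => by
      rw [← map_mul, ← map_mul, ← map_star, M.π_Δ, mul_assoc, ← map_mul, ind_V he l1]
      split_ifs with h
      · rw [h]
      · simp)
    (fun k => by rw [← map_mul, ← map_mul, ← map_add, ind_add (l3 k)])
    (fun k => by rw [← map_star, ind_star]) (fun k => by rw [← map_mul, ind_sq])
    (fun k => M.π_Δ _ _) (fun k => by rw [← map_star, ind_star]) (fun k => by rw [← map_mul, ind_sq])
    (fun k => M.π_Δ _ _)
    (by
      have := M.π_diag_le (d := fun a => (Finset.univ.filter fun k => DR k a).card) (c := 1)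
        fun a => by
          exact_mod_cast Finset.card_le_one.2 fun k hk k' hk' => l2 k k' a (by simpa using hk)
            (by simpa using hk')
      rw [one_smul] at this
      refine le_of_eq_of_le ?_ this
      rw [← map_sum]
      congr 1
      ext a b
      by_cases h : a = b <;> simp [ind, h, Matrix.sum_apply])
    (fun k => le_smul_of_norm (IsSelfAdjoint.star_mul_self _) (by
      rw [CStarRing.norm_star_mul_self]
      exact M.V_le' he (h.fib k))) (pn _)
  rw [← M.Xm_eq he, ← map_star, ind_star, M.π_eq, ← map_mul, ← map_mul] at key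
  set Y := (ind fun a => len a < R).map (algebraMap ℂ E) * Xm ρ G *
    (ind fun a => len a < R).map (algebraMap ℂ E) with hY
  have hY' : ∀ a b, len a < R → len b < R → Y a b = Xm ρ G a b := fun a b ha hb => by
    simp [hY, ind, diagonal_map, ha, hb]
  have hX : ∀ a b, len b + 2 < len a → Xm ρ G a b = 0 ∧ Y a b = 0 := fun a b hab => by
    have : Xm ρ G a b = 0 := Finset.sum_eq_zero fun k _ => Finset.sum_eq_zero fun k' _ => by
      rw [χ, if_neg fun h => by have := l4 _ _ _ _ h; omega,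
        if_neg fun h => by rw [h.2] at hab; omega, sub_zero, zero_smul]
    exact ⟨this, by simp [hY, ind, diagonal_map, this]⟩
  have ind' : ∀ i, 2 * i < R → ∀ a, (Xm ρ G ^ i) a a₀ = (Y ^ i) a a₀ ∧
      (2 * i < len a → (Y ^ i) a a₀ = 0) := by
    intro i
    induction i with
    | zero => exact fun _ a => ⟨rfl, fun h => one_apply_ne fun h' => by rw [h', l0] at h; omega⟩
    | succ i ih =>
      intro hi a
      have ih' := ih (by omega)
      rw [pow_succ', pow_succ', mul_apply, mul_apply]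
      refine ⟨Finset.sum_congr rfl fun b _ => ?_, fun h => Finset.sum_eq_zero fun b _ => ?_⟩
      · rw [(ih' b).1]
        by_cases hb : 2 * i < len b
        · rw [(ih' b).2 hb, mul_zero, mul_zero]
        by_cases ha : len b + 2 < len a
        · rw [(hX a b ha).1, (hX a b ha).2]
        rw [hY' a b (by omega) (by omega)]
      · by_cases hb : 2 * i < len b
        · rw [(ih' b).2 hb, mul_zero]
        rw [(hX a b (by omega)).2, zero_mul]
  rw [(ind' j hj a₀).1]
  refine (M.le _ _ _).trans ?_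
  rw [map_pow]
  rcases j with _ | j
  · simpa using P101.norm_one_le
  exact (norm_pow_le' _ j.succ_pos).trans (by gcongr)

end amp

section words

theorem exists_words (Λ : Type) [Fintype Λ] [DecidableEq Λ] (R : ℕ) :
    ∃ (Γ : Type) (_ : Fintype Γ) (_ : DecidableEq Γ) (_ : Nonempty Γ) (s : Λ → Γ → Γ),
      (∀ σ g, s σ (s σ g) = g) ∧ ∀ g₀, ∃ (len : Γ → ℕ) (hd : Γ → Option Λ), len g₀ = 0 ∧
        (∀ σ g, len (s σ g) ≤ len g + 1) ∧
        ∀ σ g, len g < R → (hd (s σ g) = some σ ↔ hd g ≠ some σ) := by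
  classical
  let W := {w : List Λ // w.IsChain (· ≠ ·) ∧ w.length ≤ R}
  have : Finite W := ((List.finite_length_le Λ R).subset
    (s := {w : List Λ | w.length ≤ R}) (t := {w : List Λ | w.IsChain (· ≠ ·) ∧ w.length ≤ R})
    fun w hw => hw.2).to_subtype
  let t : Λ → List Λ → List Λ := fun σ w =>
    if w.head? = some σ then w.tail else if w.length < R then σ :: w else w
  have h1 : ∀ σ (w : W), (t σ w).IsChain (· ≠ ·) ∧ (t σ w).length ≤ R := fun σ ⟨w, h1, h2⟩ => by
    simp only [t]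
    split_ifs with h3 h4
    · exact ⟨h1.tail, by simp; omega⟩
    · refine ⟨List.isChain_cons.2 ⟨fun y hy h => h3 (h ▸ hy), h1⟩, h4⟩
    · exact ⟨h1, h2⟩
  have h2 : ∀ σ (w : W), w.1.head? = some σ → w.1.tail.head? ≠ some σ ∧ w.1.tail.length < R ∧
      σ :: w.1.tail = w := fun σ ⟨w, h1, h2⟩ h => by
    rcases w with _ | ⟨a, w⟩
    · simp at h
    obtain rfl : a = σ := by simpa using h
    exact ⟨fun h' => (List.isChain_cons.1 h1).1 _ h' rfl, h2, rfl⟩
  let T : Λ → W → W := fun σ w => ⟨t σ w, h1 σ w⟩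
  have h3 : ∀ σ, Function.Involutive (T σ) := fun σ w => Subtype.ext (by
    change t σ (t σ w) = w
    by_cases h : w.1.head? = some σ
    · obtain ⟨h4, h5, h6⟩ := h2 σ w h
      simp only [t, if_pos h, if_neg h4, if_pos h5, h6]
    · by_cases h' : w.1.length < R <;> simp [t, h, h'])
  let o : W := ⟨[], by simp⟩
  refine ⟨Equiv.Perm W, Fintype.ofFinite _, inferInstance, inferInstance,
    fun σ g => (h3 σ).toPerm _ * g, fun σ g => ?_, fun g₀ => ⟨fun g => ((g * g₀⁻¹) o).1.length,
      fun g => ((g * g₀⁻¹) o).1.head?, by simp [o], fun σ g => ?_, fun σ g hg => ?_⟩⟩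
  · ext1 w
    exact h3 σ _
  · change (t σ ((g * g₀⁻¹) o)).length ≤ _
    simp only [t]
    split_ifs <;> simp
    omega
  · change (t σ ((g * g₀⁻¹) o)).head? = _ ↔ _
    by_cases h : ((g * g₀⁻¹) o).1.head? = some σ
    · simp only [t, if_pos h]
      exact iff_of_false (h2 σ _ h).1 (not_not.2 h)
    · simp only [t, if_neg h, if_pos hg]
      exact iff_of_true rfl h

theorem exists_free (κ L : Type) [Fintype κ] [DecidableEq κ] [Fintype L] [DecidableEq L] (R : ℕ) :
    ∃ (Γ : Type) (_ : Fintype Γ) (_ : DecidableEq Γ) (_ : Nonempty Γ) (ρ : κ → L × Γ → Γ),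
      Free ρ (Fintype.card L) R := by
  obtain ⟨Γ, _, _, _, s, h1, h2⟩ := exists_words (κ × L) R
  refine ⟨Γ, inferInstance, inferInstance, inferInstance, fun k a => s (k, a.1) a.2,
    fun k g => ?_, fun a₀ => ?_⟩
  · rw [← Finset.card_univ]
    refine Finset.card_le_card_of_injOn Prod.fst (fun _ _ => by simp) fun a ha b hb hab => ?_
    simp only [Finset.coe_filter, Finset.mem_univ, true_and, Set.mem_ofPred_eq] at ha hb
    refine Prod.ext hab ?_
    rw [← h1 (k, a.1) a.2, ha, ← hb, hab, h1]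
  obtain ⟨len, hd, l0, l1, l2⟩ := h2 a₀.2
  refine ⟨fun a => len a.2, fun k a => hd (s (k, a.1) a.2) = some (k, a.1),
    fun k a => hd a.2 = some (k, a.1), l0, fun k k' a b ha hb hab => ?_,
    fun k k' a ha hb => by simpa [ha] using hb, fun k a ha => l2 _ _ ha, fun k k' a b hab => ?_⟩
  · beta_reduce at ha hb
    rw [hab, hb] at ha
    obtain ⟨rfl, h3⟩ : k' = k ∧ b.1 = a.1 := by simpa using ha
    refine ⟨rfl, Prod.ext h3.symm ?_⟩
    rw [← h1 (k', a.1) a.2, hab, h3, h1]
  · have h3 := l1 (k, a.1) (s (k, a.1) a.2)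
    rw [h1, hab] at h3
    have := l1 (k', b.1) b.2
    beta_reduce
    omega

end words

end Vale.Agent.P095.Cm
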