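import Vale.Agent.P095.Cmp1

/-! Counting eigenvalues and the domination step. -/

namespace Vale.Agent.P095.Cm

open scoped CStarAlgebra ComplexConjugate
open Matrix

attribute [local instance] CStarAlgebra.spectralOrder CStarAlgebra.spectralOrderedRing

lemma χ_star {J κ Γ : Type} [DecidableEq J] [DecidableEq κ] [DecidableEq Γ] (ρ : κ → J → Γ)
    (k : κ) (a : J) (k' : κ) (b : J) : star (χ ρ k a k' b) = χ ρ k' b k a := by
  simp [χ, apply_ite conj, eq_comm]

open scoped Matrix.Norms.L2Operator in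
theorem spec {κ : Type} (L : Type) [Fintype κ] [DecidableEq κ] [Fintype L] [DecidableEq L]
    [Nonempty L] {n : ℕ} {G : κ → κ → Matrix (Fin n) (Fin n) ℂ} {ι ι' : Type*} [Fintype ι]
    [Fintype ι'] {N : ι → κ → Matrix (Fin n) (Fin n) ℂ} {N' : ι' → κ → Matrix (Fin n) (Fin n) ℂ}
    {p : Matrix (Fin n) (Fin n) ℂ} {η t : ℝ} (ht : 0 < t) (hη : 0 ≤ η) (h1 : η ≤ t ^ 2)
    (h2 : η * Fintype.card L ≤ t ^ 2) (F1 : ∀ k k', G k k' = ∑ i, star (N i k) * N i k')
    (F2 : ∀ k k', (if k = k' then p else 0) - G k k' = ∑ i, star (N' i k) * N' i k')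
    (hp : IsSelfAdjoint p) (hp' : ‖p‖ ≤ η) (G1 : ‖∑ k, G k k‖ ≤ 1) (N₀ : ℕ) :
    ∃ (Γ : Type) (_ : Fintype Γ) (_ : DecidableEq Γ) (_ : Nonempty Γ) (ρ : κ → L × Γ → Γ),
      (∀ k g, (Finset.univ.filter fun a => ρ k a = g).card ≤ Fintype.card L) ∧
      ∃ (U : (L × Γ) × Fin n → (L × Γ) × Fin n → ℂ) (μ : (L × Γ) × Fin n → ℝ),
        (∀ a i b j, ∑ r, μ r * U (a, i) r * conj (U (b, j) r) = Xm ρ G a b i j) ∧
        (∀ a i b j, ∑ r, 1 * U (a, i) r * conj (U (b, j) r) = if (a, i) = (b, j) then 1 else 0) ∧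
        (Finset.univ.filter fun r => μ r < -(2 * (2 * t + t ^ 2))).card * N₀ ≤ Fintype.card Γ := by
  obtain ⟨j, hj⟩ : ∃ j, j = Fintype.card L * n * N₀ := ⟨_, rfl⟩
  obtain ⟨Γ, _, _, _, ρ, hρ⟩ := exists_free κ L (2 * (2 * j) + 1)
  obtain ⟨l₀⟩ := ‹Nonempty L›
  have gs : ∀ k k', star (G k k') = G k' k := fun k k' => by
    simp only [F1, star_sum, star_mul, star_star]
  have hm := moment (e := fun g => (l₀, g)) (fun _ _ h => (Prod.ext_iff.1 h).2) hρ ht hη h1 h2 F1 F2
    (le_smul_of_norm hp hp') (by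
      have := le_smul_of_norm (a := ∑ k, G k k) (by simp only [IsSelfAdjoint, star_sum, gs]) G1
      rwa [one_smul] at this) (j := 2 * j) (by omega)
  set X := compAlgEquiv (L × Γ) (Fin n) ℂ ℂ (Xm ρ G) with hX
  have hH : X.IsHermitian := by
    ext ⟨a, i⟩ ⟨b, j⟩
    have : ∀ k k', star (G k k' j i) = G k' k i j := fun k k' => by rw [← gs k k']; rfl
    simp only [hX, conjTranspose_apply, compAlgEquiv_apply, comp_apply, Xm, of_apply,
      Matrix.sum_apply, Matrix.smul_apply, star_sum, star_smul, this, χ_star]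
    exact Finset.sum_comm
  have hS := hH.spectral_theorem
  refine ⟨Γ, inferInstance, inferInstance, inferInstance, ρ, hρ.fib,
    hH.eigenvectorUnitary.1, hH.eigenvalues, fun a i b j => ?_, fun a i b j => ?_, ?_⟩
  · have := congrFun (congrFun hS (a, i)) (b, j)
    rw [Unitary.conjStarAlgAut_apply, mul_apply] at this
    refine Eq.trans ?_ this.symm
    simp [mul_comm]
  · have := congrFun (congrFun (Unitary.coe_mul_star_self hH.eigenvectorUnitary) (a, i)) (b, j)
    rw [mul_apply, one_apply] at this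
    simpa using this
  set θ := 2 * t + t ^ 2 with hθ
  have hθ0 : 0 < θ := by positivity
  have h3 : trace (X ^ (2 * j)) = ((∑ r, hH.eigenvalues r ^ (2 * j) : ℝ) : ℂ) := by
    conv_lhs => rw [hS, ← map_pow, Unitary.conjStarAlgAut_apply, trace_mul_cycle,
      Unitary.coe_star_mul_self]
    simp [diagonal_pow]
  have h4 : ∑ r, hH.eigenvalues r ^ (2 * j) ≤ Fintype.card L * Fintype.card Γ * n * θ ^ (2 * j) := by
    refine (le_abs_self _).trans ?_
    rw [← Real.norm_eq_abs, ← Complex.norm_real, ← h3, trace]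
    refine (norm_sum_le_of_le (n := fun _ => θ ^ (2 * j)) _ fun ⟨a, i⟩ _ => ?_).trans_eq (by simp)
    rw [hX, ← map_pow]
    exact (l2_entry _ i i).trans (hm a)
  set T := Finset.univ.filter fun r => hH.eigenvalues r < -(2 * θ)
  have h5 : T.card * (4 ^ j * θ ^ (2 * j)) ≤ ∑ r, hH.eigenvalues r ^ (2 * j) := by
    rw [← nsmul_eq_mul]
    refine (Finset.card_nsmul_le_sum T _ _ fun r hr => ?_).trans
      (Finset.sum_le_sum_of_subset_of_nonneg (Finset.subset_univ _) fun r _ _ => by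
        rw [pow_mul]; positivity)
    have h6 := (Finset.mem_filter.1 hr).2
    rw [pow_mul, pow_mul, ← mul_pow]
    exact pow_le_pow_left₀ (by positivity) (by nlinarith) _
  have h6 : T.card * 4 ^ j ≤ Fintype.card L * Fintype.card Γ * n := by
    have := h5.trans h4
    rw [← mul_assoc] at this
    exact_mod_cast le_of_mul_le_mul_right this (by positivity)
  have h7 : j ≤ 4 ^ j := (Nat.lt_pow_self (by norm_num)).le
  rcases n with _ | n
  · simp [Finset.eq_empty_of_isEmpty T]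
  have h8 : 0 < Fintype.card L * (n + 1) := Nat.mul_pos (Fintype.card_pos_iff.2 ⟨l₀⟩) n.succ_pos
  refine Nat.le_of_mul_le_mul_left ?_ h8
  calc _ = T.card * j := by rw [hj]; ring
    _ ≤ _ := (Nat.mul_le_mul_left _ h7).trans h6
    _ = _ := by ring

section amp
variable {J : Type} [Fintype J] [DecidableEq J] {E : Type*} [CStarAlgebra E] {B : Type*}
  [CStarAlgebra B] (M : Amp J E B)

/-- Gram matrices -/
def gram (x : J → E) : Matrix J J E := of fun a b => star (x a) * x b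

lemma Amp.gram_nonneg (x : J → E) : 0 ≤ M.m (gram x) := by
  rcases isEmpty_or_nonempty J with h | ⟨⟨a₀⟩⟩
  · rw [Subsingleton.elim (gram x) 0, map_zero]
  have : gram x = star (of fun i b => if i = a₀ then x b else 0) *
      of fun i b => if i = a₀ then x b else 0 := by
    ext a b
    simp [gram, mul_apply, apply_ite star]
  rw [this, map_mul, map_star]
  exact star_mul_self_nonneg _

lemma Amp.gram_le {p : E} {ι : Type*} [Fintype ι] {q : ι → E}
    (h : star p * p ≤ ∑ i, star (q i) * q i) (x : J → E) :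
    M.m (gram fun a => p * x a) ≤ ∑ i, M.m (gram fun a => q i * x a) := by
  obtain ⟨w, hw⟩ := CStarAlgebra.nonneg_iff_eq_star_mul_self.1 (sub_nonneg.2 h)
  rw [← sub_nonneg]
  refine (M.gram_nonneg fun a => w * x a).trans_eq ?_
  rw [← map_sum, ← map_sub]
  congr 1
  ext a b
  have := congrArg (fun s => star (x a) * s * x b) hw
  simpa [gram, Matrix.sum_apply, mul_assoc, mul_sub, sub_mul, Finset.mul_sum, Finset.sum_mul]
    using this.symm

omit [DecidableEq J] in
lemma gram_conj (x : J → E) (r : Matrix J J E) : star r * gram x * r = gram (x ᵥ* r) := by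
  ext a b
  simp only [gram, mul_apply, of_apply, vecMul, dotProduct, star_sum, star_mul, Finset.sum_mul,
    Finset.mul_sum, star_apply, mul_assoc]

omit [DecidableEq J] in
lemma gram_sum {n : ℕ} (U : J × Fin n → J × Fin n → ℂ) (c : J × Fin n → ℂ) (d : Fin n → Fin n → E)
    (a b : J) : (∑ r, c r • ∑ l, gram fun b => ∑ j, conj (U (b, j) r) • d l j) a b =
      ∑ l, ∑ i, ∑ j, (∑ r, c r * U (a, i) r * conj (U (b, j) r)) • (star (d l i) * d l j) := by
  simp only [Matrix.sum_apply, Matrix.smul_apply, gram, of_apply, star_sum, star_smul,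
    Finset.sum_mul, Finset.mul_sum, Finset.smul_sum, Finset.sum_smul, smul_mul_smul_comm, smul_smul,
    RCLike.star_def, Complex.conj_conj, mul_assoc]
  rw [Finset.sum_comm]
  refine Finset.sum_congr rfl fun l _ => ?_
  rw [Finset.sum_comm]
  conv_rhs => rw [Finset.sum_comm]
  refine Finset.sum_congr rfl fun j _ => ?_
  rw [Finset.sum_comm]

variable {κ Γ : Type} [Fintype κ] [DecidableEq κ] [Fintype Γ] [DecidableEq Γ]

omit [Fintype J] in
lemma gram_row (ρ : κ → J → Γ) (γ : κ → E) :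
    (Xm ρ fun k k' => star (γ k) * γ k') + diagonal (fun _ => ∑ k, star (γ k) * γ k) =
      ∑ g, gram fun a => ∑ k, if ρ k a = g then γ k else 0 := by
  ext a b
  simp only [gram, Matrix.sum_apply, of_apply, star_sum, Finset.sum_mul, Finset.mul_sum]
  rw [Finset.sum_comm]
  simp_rw [Finset.sum_comm (s := (Finset.univ : Finset Γ))]
  rw [Finset.sum_comm]
  by_cases h : a = b <;> simp [Xm, χ, sub_smul, h, apply_ite star, eq_comm]

omit [Fintype J] [Fintype Γ] in
lemma Xm_sub (ρ : κ → J → Γ) {n : ℕ} (G : κ → κ → Matrix (Fin n) (Fin n) ℂ)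
    (d : Fin n → Fin n → Fin n → E) (H : κ → κ → E) :
    (of fun a b => ∑ l, ∑ i, ∑ j, (∑ k, ∑ k', χ ρ k a k' b * G k k' i j) • d l i j) - Xm ρ H =
      Xm ρ fun k k' => ∑ l, ∑ i, ∑ j, G k k' i j • d l i j - H k k' := by
  ext a b
  simp only [Xm, of_apply, Matrix.sub_apply, smul_sub, Finset.sum_sub_distrib, Finset.sum_smul,
    Finset.smul_sum, smul_smul]
  congr 1
  simp_rw [Finset.sum_comm (s := (Finset.univ : Finset κ)) (t := (Finset.univ : Finset (Fin n)))]

lemma Amp.gram_sum {n : ℕ} (U : J × Fin n → J × Fin n → ℂ) (c : J × Fin n → ℂ)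
    (d : Fin n → Fin n → E) (u' : E) :
    ∑ r, c r • ∑ l, M.m (gram fun b => u' * ∑ j, conj (U (b, j) r) • d l j) =
      M.m (of fun a b => ∑ l, ∑ i, ∑ j, (∑ r, c r * U (a, i) r * conj (U (b, j) r)) •
        (star (u' * d l i) * (u' * d l j))) := by
  simp only [← map_sum, ← map_smul]
  congr 1
  ext a b
  rw [of_apply, ← Cm.gram_sum U c fun l j => u' * d l j]
  simp only [Finset.mul_sum, mul_smul_comm]

lemma Amp.gram_smul {s : ℝ} (hs : 0 ≤ s) (u : E) (x : J → E) :
    s • M.m (gram fun a => u * x a) = M.m (gram fun a => u * (√s • x a)) := by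
  rw [← Complex.coe_smul, ← map_smul]
  congr 1
  ext a b
  simp [gram, smul_smul, Real.mul_self_sqrt hs]

theorem dominate {e : Γ → J} (he : Function.Injective e) {ρ : κ → J → Γ} {c : ℕ}
    (hρ : ∀ k g, (Finset.univ.filter fun a => ρ k a = g).card ≤ c) {n m m' : ℕ}
    {G : κ → κ → Matrix (Fin n) (Fin n) ℂ} {U : J × Fin n → J × Fin n → ℂ} {μ : J × Fin n → ℝ}
    (h1 : ∀ a i b j, ∑ r, μ r * U (a, i) r * conj (U (b, j) r) =
      ∑ k, ∑ k', χ ρ k a k' b * G k k' i j)
    (h2 : ∀ a i b j, ∑ r, 1 * U (a, i) r * conj (U (b, j) r) = if (a, i) = (b, j) then 1 else 0)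
    {γ : κ → E} {u u' : E} {ζ : Fin m → E} {ζ' : Fin m' → E} {d : Fin n → Fin n → E}
    (hu : star u * u ≤ ∑ j, star (ζ j) * ζ j) (hu' : star u' * u' ≤ ∑ j, star (ζ' j) * ζ' j)
    (hγ : ∀ k, u * γ k = γ k) (hd : ∑ l, ∑ i, star (u' * d l i) * (u' * d l i) ≤ 1) {ε θ : ℝ}
    (hθ : 0 ≤ θ) (hG : ∀ k k', ‖∑ l, ∑ i, ∑ j, G k k' i j • (star (u' * d l i) * (u' * d l j)) -
      star (γ k) * γ k'‖ ≤ ε) :
    ∃ x : (Fin m × Γ) ⊕ ({r // μ r < -θ} × Fin n × Fin m') → J → E,
      M.Δ (∑ k, star (γ k) * γ k) ≤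
        (θ + (Fintype.card κ * (Fintype.card κ * (c * ε)) + Fintype.card κ * ε)) • 1 +
        ∑ l, M.m (gram fun a => Sum.elim (fun q => ζ q.1) (fun q => ζ' q.2.2) l * x l a) := by
  obtain ⟨row, hrow⟩ : ∃ row : Γ → J → E, row = fun g a => ∑ k, if ρ k a = g then γ k else 0 :=
    ⟨_, rfl⟩
  obtain ⟨τ, hτ⟩ : ∃ τ : J × Fin n → Fin n → J → E,
    τ = fun r l b => ∑ j, conj (U (b, j) r) • d l j := ⟨_, rfl⟩
  obtain ⟨R, hR'⟩ : ∃ R : J × Fin n → B, R = fun r => ∑ l, M.m (gram fun b => u' * τ r l b) :=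
    ⟨_, rfl⟩
  have R0 : ∀ r, 0 ≤ R r := fun r => hR' ▸ Finset.sum_nonneg fun l _ => M.gram_nonneg _
  have hR := fun c => M.gram_sum U c d u'
  simp only [← congrFun (congrFun (congrFun hτ _) _) _, ← congrFun hR' _] at hR
  have e1 : M.m (Xm ρ fun k k' => star (γ k) * γ k') + M.Δ (∑ k, star (γ k) * γ k) =
      ∑ g, M.m (gram (row g)) := by
    rw [M.Δ_eq, ← map_add, ← map_sum, gram_row, hrow]
  have b1 : ∑ g, M.m (gram (row g)) ≤ ∑ q : Fin m × Γ, M.m (gram fun a => ζ q.1 * row q.2 a) := by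
    rw [Fintype.sum_prod_type, Finset.sum_comm]
    refine Finset.sum_le_sum fun g _ => le_of_eq_of_le ?_ (M.gram_le hu (row g))
    simp [hrow, Finset.mul_sum, hγ]
  have b2 : ∑ r, R r ≤ 1 := by
    have := hR fun _ => 1
    simp only [one_smul, h2] at this
    rw [this, ← one_smul ℝ (1 : B)]
    refine le_of_eq_of_le ?_ (M.diag_le (d := fun _ => ∑ l, ∑ i, star (u' * d l i) * (u' * d l i))
      fun _ => by rwa [one_smul])
    congr 1
    ext a b
    by_cases h : a = b <;> simp [h]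
  have e2 : ∑ r, μ r • R r - M.m (Xm ρ fun k k' => star (γ k) * γ k') = M.m (Xm ρ fun k k' =>
      ∑ l, ∑ i, ∑ j, G k k' i j • (star (u' * d l i) * (u' * d l j)) - star (γ k) * γ k') := by
    have := hR fun r => μ r
    simp only [Complex.coe_smul, h1] at this
    rw [this, ← map_sub, Xm_sub]
  have b3 := M.Xm_norm he hρ hG
  rw [← e2] at b3
  have y0 : 0 ≤ M.Δ (∑ k, star (γ k) * γ k) :=
    map_nonneg _ (Finset.sum_nonneg fun _ _ => star_mul_self_nonneg _)
  have s1 : IsSelfAdjoint (∑ r, μ r • R r - M.m (Xm ρ fun k k' => star (γ k) * γ k')) := by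
    rw [eq_sub_of_add_eq e1]
    exact (isSelfAdjoint_sum _ fun r _ => (IsSelfAdjoint.all _).smul (R0 r).isSelfAdjoint).sub
      ((Finset.sum_nonneg fun g _ => M.gram_nonneg _).isSelfAdjoint.sub y0.isSelfAdjoint)
  have b4 := le_smul_of_norm s1 b3
  have b5 : ∀ r, μ r < -θ → -μ r • R r ≤
      ∑ q : Fin n × Fin m', M.m (gram fun a => ζ' q.2 * (√(-μ r) • τ r q.1 a)) := fun r hr => by
    rw [Fintype.sum_prod_type, hR', Finset.smul_sum]
    exact Finset.sum_le_sum fun l _ => (M.gram_smul (by linarith) _ _).trans_le (M.gram_le hu' _)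
  have b6 : ∑ r, -μ r • R r ≤ θ • 1 + ∑ r : {r // μ r < -θ},
      ∑ q : Fin n × Fin m', M.m (gram fun a => ζ' q.2 * (√(-μ r) • τ r q.1 a)) := by
    rw [← Finset.sum_subtype (Finset.univ.filter fun r => μ r < -θ) (by simp) fun r =>
      ∑ q : Fin n × Fin m', M.m (gram fun a => ζ' q.2 * (√(-μ r) • τ r q.1 a)), Finset.sum_filter]
    refine le_trans ?_ (add_le_add (smul_le_smul_of_nonneg_left b2 hθ) le_rfl)
    rw [Finset.smul_sum, ← Finset.sum_add_distrib]
    refine Finset.sum_le_sum fun r _ => ?_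
    split_ifs with h
    · exact (b5 r h).trans (le_add_of_nonneg_left (smul_nonneg hθ (R0 r)))
    · rw [add_zero]
      exact smul_le_smul_of_nonneg_right (by linarith) (R0 r)
  refine ⟨Sum.elim (fun q => row q.2) fun q a => √(-μ q.1) • τ q.1 q.2.1 a, ?_⟩
  rw [Fintype.sum_sum_type, Fintype.sum_prod_type (α₁ := {r // μ r < -θ})]
  simp only [Sum.elim_inl, Sum.elim_inr]
  rw [← sub_nonneg] at b1 b4 b6 ⊢
  refine (add_nonneg (add_nonneg b1 b4) b6).trans_eq ?_
  rw [← e1, add_smul θ]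
  simp only [neg_smul, Finset.sum_neg_distrib]
  abel

end amp

lemma pull_le {B : Type*} [CStarAlgebra B] {Y H : B} (hY : IsSelfAdjoint Y) {θ ε : ℝ} (hθ : 0 < θ)
    (hε : 0 < ε) (h : Y ≤ θ • 1 + H) :
    ∃ r, ‖star r * H * r - cfc (fun t : ℝ => max (t - 2 * θ) 0) Y‖ ≤ ε := by
  let f : ℝ → ℝ := fun t => √(max (t - 2 * θ) 0)
  let g : ℝ → ℝ := fun t => f t / √(max (t - θ) θ)
  have hf : Continuous f := by fun_prop
  have hg : Continuous g := hf.div (by fun_prop) fun t =>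
    (Real.sqrt_pos.2 (lt_max_of_lt_right hθ)).ne'
  set x := cfc f Y
  set k := cfc g Y
  have xs : star x = x := IsSelfAdjoint.cfc.star_eq
  have ks : star k = k := IsSelfAdjoint.cfc.star_eq
  have e1 : x * x = cfc (fun t : ℝ => max (t - 2 * θ) 0) Y :=
    P101.cfc_sqrt_sq hY (by fun_prop) fun _ _ => le_max_right _ _
  have e2 : star k * (Y - θ • 1) * k = star x * x := by
    have : Y - θ • 1 = cfc (fun t : ℝ => t - θ) Y := by
      rw [cfc_sub _ _ _ (by fun_prop) (by fun_prop), cfc_id' ℝ Y, cfc_const θ Y,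
        Algebra.algebraMap_eq_smul_one]
    rw [ks, xs, this, e1, ← cfc_mul _ _ _ hg.continuousOn (by fun_prop),
      ← cfc_mul _ _ _ (by fun_prop) hg.continuousOn]
    refine cfc_congr fun t _ => ?_
    simp only [g, f]
    rcases le_total t (2 * θ) with h | h
    · simp [max_eq_right (sub_nonpos.2 h)]
    · rw [max_eq_left (by linarith), max_eq_left (by linarith)]
      have h5 := Real.mul_self_sqrt (show 0 ≤ t - θ by linarith)
      have h6 : √(t - θ) ≠ 0 := (Real.sqrt_pos.2 (by linarith)).ne'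
      have h7 := Real.mul_self_sqrt (show 0 ≤ t - 2 * θ by linarith)
      field_simp
      rw [sq √(t - θ), h5, sq, h7]
  have h1 : star x * x ≤ star k * H * k :=
    e2 ▸ star_left_conjugate_le_conjugate (sub_le_iff_le_add'.2 h) k
  set q := star k * H * k with hq'
  have hq : 0 ≤ q := (star_mul_self_nonneg x).trans h1
  obtain ⟨r, hr, hr'⟩ : ∃ r : B, 0 ≤ r ∧ r * r = res q ε :=
    ⟨_, CFC.sqrt_nonneg _, CFC.sqrt_mul_sqrt_self _ (res_nonneg q hε)⟩
  have hc : Commute r q := by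
    have := CFC.sqrt_unique hr' hr
    rw [← this]
    exact (res_comm hq (Commute.refl q) ε).cfcₙ_nnreal _
  have h2 := conj_res_le h1 hε
  have h3 : ‖x * res q ε * star x‖ ≤ 1 := (CStarAlgebra.norm_le_one_iff_of_nonneg _
    (star_right_conjugate_nonneg (res_nonneg q hε) x)).2 h2
  refine ⟨k * r * x, ?_⟩
  have e3 : star (k * r * x) * H * (k * r * x) = x * (r * q * r) * x := by
    simp only [hq', star_mul, xs, hr.star_eq, mul_assoc]
  rw [e3, hc.eq, mul_assoc q, hr', mul_res_eq hq hε, ← e1, mul_sub, sub_mul, mul_one,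
    sub_sub_cancel_left, norm_neg, mul_smul_comm, smul_mul_assoc, norm_smul, Complex.norm_real,
    Real.norm_of_nonneg hε.le]
  rw [xs] at h3
  exact mul_le_of_le_one_right hε.le h3

theorem Amp.pull {J : Type} [Fintype J] [DecidableEq J] {E : Type*} [CStarAlgebra E] {B : Type*}
    [CStarAlgebra B] (M : Amp J E B) {y : E} (hy : IsSelfAdjoint y) {κ : Type*} [Fintype κ]
    {ξ : κ → E} {x : κ → J → E} {θ ε : ℝ} (hθ : 0 < θ) (hε : 0 < ε)
    (h : M.Δ y ≤ θ • 1 + ∑ l, M.m (gram fun a => ξ l * x l a)) :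
    ∃ x' : κ → J → E, ∀ a b, ‖∑ l, star (ξ l * x' l a) * (ξ l * x' l b) -
      if a = b then cfc (fun t : ℝ => max (t - 2 * θ) 0) y else 0‖ ≤ ε := by
  obtain ⟨r, hr⟩ := pull_le (hy.map M.Δ) hθ hε h
  obtain ⟨r, rfl⟩ := EquivLike.surjective M.m r
  refine ⟨fun l => x l ᵥ* r, fun a b => ?_⟩
  rw [← map_cfc_real M.Δ hy (by fun_prop), M.Δ_eq, ← map_sum, ← map_star, ← map_mul, ← map_mul,
    ← map_sub] at hr
  refine le_of_eq_of_le ?_ ((M.le _ a b).trans hr)
  simp only [Finset.mul_sum, Finset.sum_mul, gram_conj]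
  simp [gram, Matrix.sum_apply, diagonal_apply, vecMul, dotProduct, Finset.mul_sum, mul_assoc]

end Vale.Agent.P095.Cm
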