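import Vale.Agent.P095.Cmp2

/-! Almost unperforation and Gram roots. -/

namespace Vale.Agent.P095.Cm

open scoped CStarAlgebra
open Filter Topology Matrix
open Vale.Agent.P101

attribute [local instance] CStarAlgebra.spectralOrder CStarAlgebra.spectralOrderedRing

universe u

lemma data_col {E : Type*} [CStarAlgebra E] {κ : Type*} [Fintype κ] [DecidableEq κ] {i₀ : κ}
    {φ : κ → κ → E} {v : Fin 1 → E} (h : Data i₀ φ v) : ∃ (w : κ → E) (s : Option κ → E) (g : E),
      (∀ l l', star (w l) * w l' = if l = l' then g else 0) ∧ ∑ i, star (s i) * g * s i = 1 := by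
  have hs : IsSelfAdjoint (tr φ) := h.oz.star_tr
  have hv := h.sum
  rw [Fin.sum_univ_one] at hv
  set q := cfc (fun t : ℝ => √(1 + t + t ^ 2 + t ^ 3)) (tr φ) with hq
  have e1 : q * (1 - tr φ) * q = 1 - tr φ ^ 4 := by
    have e2 : ∀ i : ℕ, 1 - tr φ ^ i = cfc (fun t : ℝ => 1 - t ^ i) (tr φ) := fun i => by
      rw [cfc_sub _ _ _ (by fun_prop) (by fun_prop), cfc_const_one ℝ _, cfc_pow_id _ _]
    have e3 := e2 1
    rw [pow_one] at e3
    rw [e2, e3, hq, ← cfc_mul _ _ _ (by fun_prop) (by fun_prop),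
      ← cfc_mul _ _ _ (by fun_prop) (by fun_prop)]
    refine cfc_congr fun t ht => ?_
    have h1 := spectrum.norm_le_norm_mul_of_mem ht
    have h2 : |t| ≤ 1 := h1.trans (mul_le_one₀ h.nrm (norm_nonneg _) norm_one_le)
    have h3 : 0 ≤ 1 + t + t ^ 2 + t ^ 3 := by
      have := mul_nonneg (show 0 ≤ 1 + t by linarith [abs_le.1 h2]) (show 0 ≤ 1 + t ^ 2 by positivity)
      linarith
    linear_combination (1 - t) * Real.mul_self_sqrt h3
  refine ⟨fun l => φ l i₀, fun i => i.elim (v 0 * q) (φ i₀), tr φ * φ i₀ i₀, fun l l' => by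
    rw [h.oz.star, h.oz.mul], ?_⟩
  have e4 : ∀ l, star (φ i₀ l) * (tr φ * φ i₀ i₀) * φ i₀ l = tr φ ^ 3 * φ l l := fun l => by
    rw [h.oz.star, ← mul_assoc, h.oz.comm, mul_assoc (tr φ), h.oz.mul, if_pos rfl, mul_assoc,
      mul_assoc, h.oz.mul, if_pos rfl]
    noncomm_ring
  rw [Fintype.sum_option]
  simp only [Option.elim, e4]
  rw [← Finset.mul_sum, star_mul, (show IsSelfAdjoint q from IsSelfAdjoint.cfc).star_eq]
  have e5 : q * star (v 0) * (tr φ * φ i₀ i₀) * (v 0 * q) = q * (star (v 0) * v 0) * q := by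
    have := h.oz.tr_top (h.top 0)
    calc _ = q * star (v 0) * (tr φ * (φ i₀ i₀ * v 0)) * q := by noncomm_ring
      _ = _ := by rw [h.top, this]; noncomm_ring
  rw [e5, hv, e1]
  change _ + _ * tr φ = _
  noncomm_ring

variable {G : Type*} [Group G] {A : Type*} [NonUnitalCStarAlgebra A] {X : GAlg.{u} G} {S : Sys A X}

theorem unperf (hS : S.Good) {D : GAlg.{u} G} (hD : D ∈ Mod S) {κ ι Λ : Type*} [Fintype κ]
    [DecidableEq κ] [Fintype ι] [DecidableEq ι] [Fintype Λ] [DecidableEq Λ] {w : κ → D.E}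
    {s : ι → D.E} {g : D.E} (hw : ∀ l l', star (w l) * w l' = if l = l' then g else 0)
    (hs : ∑ i, star (s i) * g * s i = 1) {z y : A}
    (h : ∀ ε > 0, ∃ t : κ → Λ × ι → A, ∀ a b,
      ‖∑ l, star (z * t l a) * (z * t l b) - if a = b then y else 0‖ ≤ ε) {ε : ℝ} (hε : 0 < ε) :
    ∃ r : Λ → A, ∀ l l', ‖star (z * r l) * (z * r l') - if l = l' then y else 0‖ ≤ ε := by
  obtain ⟨I, U, j, hj⟩ := hD
  obtain ⟨P, _, π, c, γ, H⟩ := hj.exact
  choose lf hlf using hj.surj
  obtain ⟨μ, hμ⟩ : ∃ μ : D.E → A → P, ∀ d a, μ d a = γ (lf d) * c (S.φ a) := ⟨_, fun _ _ => rfl⟩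
  have m0 : ∀ x a, γ x * c (S.φ a) = μ (j x) a := fun x a => by
    rw [hμ]; exact H.congr _ _ _ (hlf _).symm
  have m1 : ∀ d a d' a', star (μ d a) * μ d' a' = μ (star d * d') (star a * a') := fun d a d' a' => by
    have := m0 (star (lf d) * lf d') (star a * a')
    rw [map_mul j, map_star j, hlf, hlf] at this
    rw [← this, hμ, hμ, star_mul, ← map_star, ← map_star, ← map_star, mul_assoc, ← mul_assoc (γ _),
      ← map_mul, ← mul_assoc, ← (H.comm _ _).eq, mul_assoc, ← map_mul c, ← map_mul S.φ]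
  have m2 : ∀ d a, ‖μ d a‖ ≤ ‖d‖ * ‖a‖ := fun d a => by
    have := H.le (lf d) a
    rwa [hlf, ← hμ] at this
  have m3 : ∀ a, ∑ i, μ (star (s i) * g * s i) a = c (S.φ a) := fun a => by
    have := m0 (∑ i, lf (star (s i) * g * s i)) a
    rw [map_sum j, map_sum, Finset.sum_mul] at this
    simp only [hlf, hs, ← hμ] at this
    rw [this, ← map_one j, ← m0, map_one, one_mul]
  have m4 : ∀ a, μ 0 a = 0 := fun a => by rw [← map_zero j, ← m0, map_zero, zero_mul]
  obtain ⟨δ, hδ, hδ'⟩ := exists_pos_mul_lt (half_pos hε) (∑ i, ∑ i', ‖star (s i) * g * s i'‖)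
  obtain ⟨t, ht⟩ := h δ hδ
  let ρ : Λ → Prd fun _ : I => X.E := fun l =>
    ∑ i, ∑ k, Cen.val (lf (w k * s i)) * Prd.cst I X.E (S.φ (t k (l, i)))
  let x : Λ → Λ → Prd fun _ : I => X.E := fun l l' =>
    star (Prd.cst I X.E (S.φ z) * ρ l) * (Prd.cst I X.E (S.φ z) * ρ l') -
      Prd.cst I X.E (S.φ (if l = l' then y else 0))
  have e1 : ∀ l, π (Prd.cst I X.E (S.φ z) * ρ l) = ∑ i, ∑ k, μ (w k * s i) (z * t k (l, i)) := fun l => by
    simp only [ρ, map_mul, map_sum, ← H.hc, ← H.hγ, Finset.mul_sum, hμ, ← mul_assoc, (H.comm _ z).eq]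
  have e2 : ∀ l l', ‖π (x l l')‖ ≤ ε / 2 := fun l l' => by
    have e3 : c (S.φ (if l = l' then y else 0)) =
        ∑ i, ∑ i', μ (star (s i) * g * s i') (if (l, i) = (l', i') then y else 0) := by
      rw [← m3]
      by_cases h : l = l' <;> simp [h, apply_ite (μ _), hμ]
    have e4 : ∀ i i', ∑ k, ∑ k', μ (star (w k * s i) * (w k' * s i'))
        (star (z * t k (l, i)) * (z * t k' (l', i'))) = μ (star (s i) * g * s i')
          (∑ k, star (z * t k (l, i)) * (z * t k (l', i'))) := fun i i' => by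
      rw [hμ, map_sum, map_sum, Finset.mul_sum]
      refine Finset.sum_congr rfl fun k _ => ?_
      rw [← hμ, Finset.sum_eq_single k (fun k' _ hk => ?_) (by simp)]
      · rw [star_mul, mul_assoc, ← mul_assoc (star (w k)), hw, if_pos rfl, ← mul_assoc]
      · rw [star_mul, mul_assoc, ← mul_assoc (star (w k)), hw, if_neg hk.symm, zero_mul, mul_zero, m4]
    have e5 : π (x l l') = ∑ i, ∑ i', μ (star (s i) * g * s i')
        (∑ k, star (z * t k (l, i)) * (z * t k (l', i')) - if (l, i) = (l', i') then y else 0) := by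
      simp only [x]
      rw [map_sub, map_mul, map_star, e1, e1, ← H.hc, e3, star_sum, Finset.sum_mul_sum]
      simp only [star_sum, Finset.sum_mul_sum, m1, e4, ← Finset.sum_sub_distrib]
      simp only [hμ, map_sub, mul_sub]
    rw [e5]
    refine le_trans ?_ hδ'.le
    rw [Finset.sum_mul]
    refine norm_sum_le_of_le _ fun i _ => ?_
    rw [Finset.sum_mul]
    exact norm_sum_le_of_le _ fun i' _ => (m2 _ _).trans
      (mul_le_mul_of_nonneg_left (ht _ _) (norm_nonneg _))
  have e6 : ∀ᶠ i in U, ∀ l l', ‖x l l' i‖ ≤ ε := eventually_all.2 fun l => eventually_all.2 fun l' =>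
    (ev_le (H.tend (x l l')) (e2 l l') (half_pos hε)).mono fun i hi => by linarith
  obtain ⟨i, hi⟩ := e6.exists
  choose b hb using hS.ideal
  refine ⟨fun l => ∑ i', ∑ k, b (lf (w k * s i') i) (t k (l, i')), fun l l' => ?_⟩
  rw [← hS.iso]
  refine le_of_eq_of_le ?_ (hi l l')
  simp only [x, ρ, map_sub, map_mul, map_star, map_sum, ← hb, Prd.sub_apply, Prd.mul_apply,
    Prd.star_apply, Prd.cst_apply, Prd.sum_apply, Cen.val_apply]

lemma Amp.gram_norm {J : Type} [Fintype J] [DecidableEq J] {E : Type*} [CStarAlgebra E] {B : Type*}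
    [CStarAlgebra B] (M : Amp J E B) (x : J → E) : ‖M.m (gram x)‖ ≤ ‖∑ a, x a * star (x a)‖ := by
  rcases isEmpty_or_nonempty J with h | ⟨⟨a₀⟩⟩
  · rw [Subsingleton.elim (gram x) 0, map_zero, norm_zero]; exact norm_nonneg _
  set R : Matrix J J E := of fun i b => if i = a₀ then x b else 0 with hR
  have h1 : gram x = star R * R := by
    ext a b
    simp [hR, gram, mul_apply, apply_ite star]
  have h2 : R * star R = diagonal fun i => if i = a₀ then ∑ a, x a * star (x a) else 0 := by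
    ext a b
    by_cases h : a = a₀ <;> by_cases h' : b = a₀ <;> simp [hR, mul_apply, diagonal_apply, h, h']
    exact fun h => (h' h.symm).elim
  rw [h1, map_mul, map_star, CStarRing.norm_star_mul_self, ← CStarRing.norm_self_mul_star]
  refine norm_of_le (mul_star_self_nonneg _) (norm_nonneg _) ?_
  rw [← map_star, ← map_mul, h2]
  refine M.diag_le fun a => ?_
  split_ifs
  · exact le_smul_of_norm (Finset.sum_nonneg fun _ _ => mul_star_self_nonneg _).isSelfAdjoint le_rfl
  · exact smul_nonneg (norm_nonneg _) zero_le_one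

lemma phi_inj (hS : S.Good) : Function.Injective S.φ := fun a b h => by
  rw [← sub_eq_zero, ← norm_eq_zero, ← hS.iso, map_sub, h, sub_self, norm_zero]

theorem gram_root (hS : S.Good) {J : Type} [Fintype J] [DecidableEq J] (γ : J → A) (v : A) {η : ℝ}
    (h : ‖∑ k, γ k * star (γ k)‖ ≤ η) : ∃ N : Matrix J J A, ∀ k k', (Nᴴ * N) k k' =
      (if k = k' then (η : ℂ) • (star v * v) else 0) - star (γ k * v) * (γ k' * v) := by
  obtain ⟨B, _, ⟨M⟩⟩ := exists_amp J X.E
  have h1 := le_smul_of_norm (M.gram_nonneg fun k => S.φ (γ k)).isSelfAdjoint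
    ((M.gram_norm _).trans (show _ ≤ η by simpa only [← map_star, ← map_mul, ← map_sum, hS.iso]))
  obtain ⟨N, hN⟩ := CStarAlgebra.nonneg_iff_eq_star_mul_self.1 (sub_nonneg.2 h1)
  obtain ⟨N, rfl⟩ := EquivLike.surjective M.m N
  rw [← map_one M.m, ← Complex.coe_smul η (M.m 1), ← map_smul, ← map_sub, ← map_star, ← map_mul] at hN
  have h2 := EquivLike.injective M.m hN
  choose b hb using hS.ideal
  refine ⟨of fun i k => b (N i k) v, fun k k' => phi_inj hS ?_⟩
  have h3 := congrArg (fun s => star (S.φ v) * s * S.φ v) (congrFun (congrFun h2 k) k')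
  simp only [mul_apply, conjTranspose_apply, of_apply, map_sum, map_mul, map_star, ← hb, map_sub,
    apply_ite S.φ, map_smul, map_zero]
  simp only [mul_apply, star_apply, Finset.mul_sum, Finset.sum_mul, Matrix.sub_apply,
    Matrix.smul_apply, one_apply, gram, of_apply] at h3
  simp only [star_mul, mul_assoc] at h3 ⊢
  rw [← h3]
  split_ifs <;> simp [mul_sub, sub_mul, mul_assoc]

lemma trunc (hS : S.Good) {y : A} (hy : 0 ≤ S.φ y) {θ : ℝ} (hθ : 0 < θ) :
    ∃ y' : A, S.φ y' = cfc (fun t : ℝ => max (t - θ) 0) (S.φ y) ∧ ‖y' - y‖ ≤ θ := by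
  have hf : Continuous fun t : ℝ => max (t - θ) 0 / max t θ :=
    Continuous.div (by fun_prop) (by fun_prop) fun t => (lt_max_of_lt_right hθ).ne'
  obtain ⟨b, hb⟩ := hS.ideal (cfc (fun t : ℝ => max (t - θ) 0 / max t θ) (S.φ y)) y
  have h1 : S.φ b = cfc (fun t : ℝ => max (t - θ) 0) (S.φ y) := by
    rw [← hb]
    nth_rw 2 [← cfc_id' ℝ (S.φ y) hy.isSelfAdjoint]
    rw [← cfc_mul _ _ _ hf.continuousOn (by fun_prop)]
    refine cfc_congr fun t _ => ?_
    rcases le_total t θ with h | h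
    · simp [max_eq_right (sub_nonpos.2 h)]
    · simp only [max_eq_left h]
      exact div_mul_cancel₀ _ (hθ.trans_le h).ne'
  refine ⟨b, h1, ?_⟩
  rw [← hS.iso, map_sub, h1]
  nth_rw 2 [← cfc_id' ℝ (S.φ y) hy.isSelfAdjoint]
  rw [← cfc_sub _ _ _ (by fun_prop) (by fun_prop)]
  refine norm_cfc_le hθ.le fun t ht => ?_
  have := spectrum_nonneg_of_nonneg hy ht
  rw [Real.norm_eq_abs, abs_le]
  constructor
  · linarith [le_max_left (t - θ) 0]
  · linarith [max_le (show t - θ ≤ t by linarith) this]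

end Vale.Agent.P095.Cm
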