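import Vale.Agent.P095.Haar

/-! An almost invariant centred element with controlled variance. -/

namespace Vale.Agent.P095

open scoped CStarAlgebra ComplexConjugate Pointwise
open Filter Topology Finset
open Vale.Agent.P101

attribute [local instance] CStarAlgebra.spectralOrder CStarAlgebra.spectralOrderedRing

universe u

section
variable {E E' : Type*} [CStarAlgebra E] [CStarAlgebra E'] {τ : E →ₗ[ℂ] ℂ}

lemma norm_unitary_le {V : E} (hV : V ∈ unitary E) : ‖V‖ ≤ 1 := by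
  simpa using (CStarRing.norm_mem_unitary_mul 1 hV).trans_le norm_one_le

lemma haar_orth (ht : IsTr τ) {V : E} (hV : V ∈ unitary E) (h : ∀ n, n ≠ 0 → τ (V ^ n) = 0)
    (i j : ℕ) : τ (star (V ^ i) * V ^ j) = if i = j then 1 else 0 := by
  have h1 : ∀ i k, τ (star (V ^ i) * V ^ (i + k)) = if i = i + k then 1 else 0 := fun i k => by
    rw [pow_add, ← mul_assoc, (pow_mem hV i).1, one_mul]
    rcases eq_or_ne k 0 with rfl | hk
    · simp [ht.one]
    · simp [h k hk, hk]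
  rcases le_total i j with hij | hij
  · obtain ⟨k, rfl⟩ := Nat.exists_eq_add_of_le hij
    exact h1 i k
  · obtain ⟨k, rfl⟩ := Nat.exists_eq_add_of_le hij
    rw [ht.pos.herm, h1]
    simp [eq_comm, apply_ite]

/-- averaged powers -/
noncomputable def Pk (p : ℕ) (V : E) : E := (p : ℂ)⁻¹ • ∑ j ∈ range p, V ^ j

lemma norm_Pk (p : ℕ) {V : E} (hV : V ∈ unitary E) : ‖Pk p V‖ ≤ 1 := by
  rw [Pk, norm_smul]
  refine (mul_le_mul_of_nonneg_left (norm_sum_le_of_le _ (n := fun _ => 1) fun j _ =>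
    norm_unitary_le (pow_mem hV j)) (norm_nonneg _)).trans ?_
  simp [inv_mul_le_one]

lemma tr_Pk (ht : IsTr τ) {p : ℕ} (hp : 0 < p) {V : E} (hV : V ∈ unitary E)
    (h : ∀ n, n ≠ 0 → τ (V ^ n) = 0) : (τ (star (Pk p V) * Pk p V)).re = (p : ℝ)⁻¹ := by
  have : τ (star (Pk p V) * Pk p V) = ((p : ℝ)⁻¹ : ℝ) := by
    simp only [Pk, star_smul, star_sum, smul_mul_assoc, mul_smul_comm, sum_mul_sum, map_smul,
      map_sum, haar_orth ht hV h]
    simp +contextual [sum_ite_eq, hp.ne']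
  rw [this, Complex.ofReal_re]

lemma tr_Pk_sq (ht : IsTr τ) {p : ℕ} (hp : 0 < p) {V : E} (hV : V ∈ unitary E)
    (h : ∀ n, n ≠ 0 → τ (V ^ n) = 0) :
    (2 * p : ℝ)⁻¹ ≤ (τ (star (Pk p V) * Pk p V * (star (Pk p V) * Pk p V))).re := by
  have h1 : Commute (Pk p V) (star (Pk p V)) := by
    have : Commute V (star V) := hV.2.trans hV.1.symm
    simp only [Pk, star_smul, star_sum, star_pow]
    exact ((Commute.sum_left _ _ _ fun i _ => Commute.sum_right _ _ _ fun j _ =>
      this.pow_pow i j).smul_left _).smul_right _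
  have h2 := pos_cs ht.pos (∑ s ∈ range (2 * p), V ^ s) (Pk p V * Pk p V)
  have h3 : τ (star (∑ s ∈ range (2 * p), V ^ s) * (Pk p V * Pk p V)) = 1 := by
    simp only [Pk, star_sum, smul_mul_assoc, mul_smul_comm, map_smul]
    simp only [sum_mul_sum (range p), ← pow_add, mul_sum, sum_mul, map_sum, haar_orth ht hV h]
    rw [sum_congr rfl fun i hi => sum_congr rfl fun j hj => (sum_ite_eq' _ (i + j) _).trans
      (if_pos (by simp only [mem_range] at *; omega))]
    simp [hp.ne']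
  have h4 : nq τ (∑ s ∈ range (2 * p), V ^ s) ^ 2 = 2 * p := by
    rw [nq_sq ht.pos]
    simp only [star_sum, sum_mul_sum, map_sum, haar_orth ht hV h]
    simp +contextual [sum_ite_eq]
  have h5 := pow_le_pow_left₀ (norm_nonneg _) h2 2
  have h6 : star (Pk p V * Pk p V) * (Pk p V * Pk p V) =
      star (Pk p V) * Pk p V * (star (Pk p V) * Pk p V) := by
    rw [star_mul, mul_assoc, mul_assoc, ← mul_assoc (Pk p V), h1.eq, mul_assoc]
  rw [h3, mul_pow, h4, nq_sq ht.pos, h6] at h5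
  rw [inv_le_iff_one_le_mul₀' (by positivity)]
  simpa using h5

lemma sum_Pk {p : ℕ} (hp : 0 < p) {ζ : ℂ} (hζ : IsPrimitiveRoot ζ p) {V : E} (hV : V ∈ unitary E) :
    ∑ k ∈ range p, star (Pk p (ζ ^ k • V)) * Pk p (ζ ^ k • V) = 1 := by
  have h0 : conj ζ * ζ = 1 := by rw [Complex.conj_mul', hζ.norm'_eq_one hp.ne']; simp
  have h1 : ∀ i ∈ range p, ∀ j ∈ range p, ∑ k ∈ range p, (conj ζ ^ i * ζ ^ j) ^ k =
      if i = j then (p : ℂ) else 0 := fun i hi j hj => by
    split_ifs with h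
    · simp [h, ← mul_pow, h0]
    have h2 := geom_sum_mul (conj ζ ^ i * ζ ^ j) p
    rw [mul_pow, ← pow_mul, ← pow_mul, mul_comm i, mul_comm j, pow_mul, pow_mul, ← map_pow _ ζ p,
      hζ.pow_eq_one, map_one, one_pow, one_pow, one_mul, sub_self, mul_eq_zero, sub_eq_zero] at h2
    refine h2.resolve_right fun h3 => h (hζ.pow_inj (mem_range.1 hi) (mem_range.1 hj) ?_)
    rw [← one_mul (ζ ^ j), ← one_pow i, ← h0, mul_pow, mul_right_comm, h3, one_mul]
  simp only [Pk, star_smul, star_sum, smul_mul_assoc, mul_smul_comm, sum_mul_sum, smul_pow,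
    ← smul_sum, smul_smul]
  rw [sum_comm, sum_congr rfl fun i hi => sum_comm.trans (sum_congr rfl fun j hj => by
    rw [← sum_smul, sum_congr rfl fun k _ => show _ = (conj ζ ^ i * ζ ^ j) ^ k by
      simp only [star_pow, RCLike.star_def]; ring, h1 i hi j hj])]
  simp +contextual [sum_ite_eq, (pow_mem hV _).1, ← star_pow, smul_smul, ← Nat.cast_smul_eq_nsmul ℂ,
    hp.ne']
  rw [← mul_inv, inv_mul_cancel₀ (by simp [hp.ne']), one_smul]

/-- the root of the truncated kernel -/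
noncomputable def ya (p : ℕ) (V : E) : E :=
  cfc (fun t : ℝ => √(max (t - 1 / 4) 0)) (star (Pk p V) * Pk p V)

lemma ya_sq (p : ℕ) (V : E) : star (ya p V) * ya p V =
    cfc (fun t : ℝ => max (t - 1 / 4) 0) (star (Pk p V) * Pk p V) := by
  rw [ya, IsSelfAdjoint.cfc.star_eq]
  exact cfc_sqrt_sq (IsSelfAdjoint.star_mul_self _) (by fun_prop) fun _ _ => le_max_right _ _

lemma ya_le (p : ℕ) (V : E) : star (ya p V) * ya p V ≤ star (Pk p V) * Pk p V := by
  rw [ya_sq]
  nth_rw 2 [← cfc_id' ℝ (star (Pk p V) * Pk p V)]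
  exact cfc_mono fun t ht => max_le (by linarith)
    (spectrum_nonneg_of_nonneg (star_mul_self_nonneg _) ht)

lemma sq_spec {x : E} (hx : ‖x‖ ≤ 1) {t : ℝ} (ht : t ∈ spectrum ℝ (star x * x)) : 0 ≤ t ∧ t ≤ 1 := by
  refine ⟨spectrum_nonneg_of_nonneg (star_mul_self_nonneg _) ht, ?_⟩
  have h1 := spectrum.norm_le_norm_mul_of_mem ht
  have h2 := norm_mul_le_of_le ((norm_star x).trans_le hx) hx
  nlinarith [le_abs_self t, Real.norm_eq_abs t, norm_one_le (E := E), norm_nonneg (1 : E),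
    norm_nonneg (star x * x)]

lemma tr_ya (ht : IsTr τ) {p : ℕ} (hp : 0 < p) {V : E} (hV : V ∈ unitary E)
    (h : ∀ n, n ≠ 0 → τ (V ^ n) = 0) : (4 * p : ℝ)⁻¹ ≤ (τ (star (ya p V) * ya p V)).re ∧
      (τ (star (ya p V) * ya p V)).re ≤ (p : ℝ)⁻¹ ∧
      ∃ b, b * ya p V = ya p V ∧ (τ (b * star b)).re ≤ 8 * (p : ℝ)⁻¹ := by
  have h1 := tr_Pk ht hp hV h
  have h2 := tr_Pk_sq ht hp hV h
  have h0 := ya_le p V
  set X := star (Pk p V) * Pk p V with hX
  have hs : IsSelfAdjoint X := IsSelfAdjoint.star_mul_self _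
  have hsp : ∀ t ∈ spectrum ℝ X, 0 ≤ t ∧ t ≤ 1 := fun t ht => sq_spec (norm_Pk p hV) ht
  refine ⟨?_, h1 ▸ pos_mono ht.pos h0, cfc (fun t : ℝ => min 1 (max (8 * t - 1) 0)) X, ?_, ?_⟩
  · have h3 : X * X - (4⁻¹ : ℝ) • X ≤ star (ya p V) * ya p V := by
      rw [ya_sq, ← hX]
      nth_rw 1 2 3 [← cfc_id' ℝ X]
      rw [← cfc_mul .., ← cfc_smul .., ← cfc_sub ..]
      exact cfc_mono fun t ht => by
        rcases le_total t (1 / 4) with h | h
        · exact le_max_of_le_right (by simp only [smul_eq_mul]; nlinarith [hsp t ht])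
        · exact le_max_of_le_left (by simp only [smul_eq_mul]; nlinarith [hsp t ht])
    have h4 := pos_mono ht.pos h3
    rw [map_sub, LinearMap.map_smul_of_tower, Complex.sub_re, Complex.smul_re, h1] at h4
    simp only [mul_inv, smul_eq_mul] at *
    linarith
  · rw [ya, ← hX, ← cfc_mul ..]
    refine cfc_congr fun t _ => ?_
    rcases le_total t (1 / 4) with h | h
    · rw [max_eq_right (show t - 1 / 4 ≤ 0 by linarith)]; simp
    · rw [min_eq_left (le_max_of_le_left (by linarith)), one_mul]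
  · rw [IsSelfAdjoint.cfc.star_eq, ← cfc_mul .., ← h1, ← smul_eq_mul, ← Complex.smul_re,
      ← LinearMap.map_smul_of_tower]
    refine pos_mono ht.pos ?_
    nth_rw 2 [← cfc_id' ℝ X]
    rw [← cfc_smul ..]
    refine cfc_mono fun t ht => ?_
    have h3 : min 1 (max (8 * t - 1) 0) ≤ 8 * t :=
      (min_le_right _ _).trans (max_le (by linarith) (by linarith [hsp t ht]))
    simpa using mul_le_mul (min_le_left _ _) h3 (by positivity) zero_le_one

variable {κ : Type*}

/-- the averaged kernel -/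
noncomputable def Mx (p : ℕ) (c : ℝ) (F : Finset κ) (V : κ → E) : E :=
  ∑ g ∈ F, star ((c : ℂ) • ya p (V g)) * (c : ℂ) • ya p (V g)

lemma Mx_eq (p : ℕ) (c : ℝ) (F : Finset κ) (V : κ → E) :
    Mx p c F V = (c ^ 2) • ∑ g ∈ F, star (ya p (V g)) * ya p (V g) := by
  simp [Mx, smul_sum, smul_smul, sq, ← Complex.coe_smul]

lemma Mx_nonneg (p : ℕ) (c : ℝ) (F : Finset κ) (V : κ → E) : 0 ≤ Mx p c F V :=
  sum_nonneg fun _ _ => star_mul_self_nonneg _

lemma map_Mx (j : E →⋆ₐ[ℂ] E') (p : ℕ) (c : ℝ) (F : Finset κ) (V : κ → E) :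
    j (CFC.sqrt (Mx p c F V)) = CFC.sqrt (Mx p c F fun g => j (V g)) := by
  rw [map_sqrt j (Mx_nonneg ..)]
  simp only [Mx, map_sum, map_mul, map_star, map_smul, ya]
  simp only [map_cfc_real j (IsSelfAdjoint.star_mul_self _) (show Continuous fun t : ℝ =>
    √(max (t - 1 / 4) 0) by fun_prop), map_mul, map_star, Pk, map_smul, map_sum, map_pow]

lemma sqrt_le_one {a : E} (h : a ≤ 1) : CFC.sqrt a ≤ 1 := by simpa using CFC.sqrt_le_sqrt _ _ h

lemma sq_avg_le {ι : Type*} (s : Finset ι) {f : ι → E} (hf : ∀ i, IsSelfAdjoint (f i)) :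
    (∑ i ∈ s, f i) * (∑ i ∈ s, f i) ≤ (s.card : ℝ) • ∑ i ∈ s, f i * f i := by
  have h1 : 0 ≤ ∑ i ∈ s, ∑ j ∈ s, star (f i - f j) * (f i - f j) :=
    sum_nonneg fun _ _ => sum_nonneg fun _ _ => star_mul_self_nonneg _
  have h2 : ∑ i ∈ s, ∑ j ∈ s, star (f i - f j) * (f i - f j) =
      (2 : ℝ) • ((s.card : ℝ) • ∑ i ∈ s, f i * f i - (∑ i ∈ s, f i) * (∑ i ∈ s, f i)) := by
    simp only [star_sub, (hf _).star_eq, sub_mul, mul_sub, sum_sub_distrib, sum_const,
      ← mul_sum, ← sum_mul, ← smul_sum, Nat.cast_smul_eq_nsmul, two_smul]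
    abel
  rw [h2] at h1
  exact sub_nonneg.1 (nonneg_of_smul_nonneg_of_pos_left h1 two_pos)

end

variable {G : Type*} [Group G] {C : Set (TAlg.{u} G)}

lemma ev_append (D : GAlg G) (u : D.E) (w w' : List (G × Bool)) :
    ev D u (w ++ w') = ev D u w * ev D u w' := by
  induction w with
  | nil => simp [ev]
  | cons p w ih => simp [ev, ih, mul_assoc]

omit [Group G] in
lemma ch_append (w w' : List (G × Bool)) : ch (w ++ w') = ch w + ch w' := by
  induction w with
  | nil => simp [ch]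
  | cons p w ih => simp [ch, ih, add_assoc]

lemma double {D : GAlg.{u} G} {W : D.E} {τ : D.E →ₗ[ℂ] ℂ} (ht : IsTr τ)
    (h : ∀ w, ch w ≠ 0 → τ (ev D W w) = 0) {z : ℂ} (hz : ‖z‖ = 1) :
    ∃ (S : Type u) (_ : CStarAlgebra S) (π₁ π₂ : S →⋆ₐ[ℂ] D.E) (X : G → S),
      (∀ g, π₁ (X g) = D.act g W) ∧ (∀ g, π₂ (X g) = z • D.act g W) ∧ ∀ x, τ (π₁ x) = τ (π₂ x) := by
  let s : Set (D.E × D.E) := Set.range fun g => (D.act g W, z • D.act g W)
  let S := (StarAlgebra.adjoin ℂ s).topologicalClosure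
  have : IsClosed (S : Set (D.E × D.E)) := StarSubalgebra.isClosed_topologicalClosure _
  have hz0 : z ≠ 0 := by rintro rfl; simp at hz
  refine ⟨S, inferInstance, (StarAlgHom.fst ℂ _ _).comp S.subtype, (StarAlgHom.snd ℂ _ _).comp S.subtype,
    fun g => ⟨_, StarSubalgebra.le_topologicalClosure _ (StarAlgebra.subset_adjoin ℂ s ⟨g, rfl⟩)⟩,
    fun _ => rfl, fun _ => rfl, fun x => ?_⟩
  have hc := pos_cont ht.pos
  refine closure_minimal (t := {x : D.E × D.E | τ x.1 = τ x.2}) (fun y hy => ?_)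
    (isClosed_eq (by fun_prop) (by fun_prop)) x.2
  replace hy : y ∈ (StarAlgebra.adjoin ℂ s).toSubalgebra.toSubmodule := hy
  rw [StarAlgebra.adjoin_eq_span] at hy
  induction hy using Submodule.span_induction with
  | zero => simp
  | add a b _ _ ha hb => simp_all
  | smul c a _ ha => simp_all
  | mem y hy =>
    have : ∃ w, y = (ev D W w, z ^ ch w • ev D W w) := by
      induction hy using Submonoid.closure_induction with
      | one => exact ⟨[], by simp [ev, ch, Prod.ext_iff]⟩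
      | mul a b _ _ ha hb =>
        obtain ⟨w, rfl⟩ := ha
        obtain ⟨w', rfl⟩ := hb
        exact ⟨w ++ w', by simp [ev_append, ch_append, zpow_add₀ hz0, smul_smul, mul_comm]⟩
      | mem y hy =>
        rcases hy with ⟨g, rfl⟩ | ⟨g, hg⟩
        · exact ⟨[(g, true)], by simp [ev, ch]⟩
        · refine ⟨[(g, false)], ?_⟩
          rw [← star_star y, ← hg]
          simp [ev, ch, map_star, Complex.inv_eq_conj hz, Prod.ext_iff]
    obtain ⟨w, rfl⟩ := this
    by_cases hw : ch w = 0 <;> simp [hw, h]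

lemma haar_act {D : GAlg G} {W : D.E} {τ : D.E →ₗ[ℂ] ℂ}
    (h : ∀ w, ch w ≠ 0 → τ (ev D W w) = 0) (z : ℂ) (g : G) (n : ℕ) (hn : n ≠ 0) :
    τ ((z • D.act g W) ^ n) = 0 := by
  have h1 : ∀ n, ev D W (List.replicate n (g, true)) = D.act g W ^ n ∧
      ch (List.replicate n (g, true)) = n := fun n => by
    induction n with
    | zero => simp [ev, ch]
    | succ n ih => simp [List.replicate_succ, ev, ch, ih, pow_succ', add_comm]
  rw [smul_pow, map_smul, ← (h1 n).1, h _ (by simpa [(h1 n).2] using hn), smul_zero]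

end Vale.Agent.P095
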