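import Vale.Agent.P095.Coin

/-! An invariant Haar unitary. -/

namespace Vale.Agent.P095

open scoped CStarAlgebra ComplexConjugate Pointwise symmDiff
open Filter Topology Finset
open Vale.Agent.P101

attribute [local instance] CStarAlgebra.spectralOrder CStarAlgebra.spectralOrderedRing

universe u

section
variable {E E' : Type*} [CStarAlgebra E] [CStarAlgebra E'] {τ : E →ₗ[ℂ] ℂ} {κ : Type*}

lemma sa_norm_le {x : E} {r : ℝ} (hr : 0 ≤ r) (h1 : -(r • 1) ≤ x) (h2 : x ≤ r • 1) : ‖x‖ ≤ r := by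
  have h3 := sub_nonneg.2 h2
  have h4 := neg_le_iff_add_nonneg.1 h1
  have hx : IsSelfAdjoint x := by
    have h := h3.star_eq
    rwa [star_sub, star_smul, star_one, star_trivial, sub_right_inj] at h
  have h5 := Commute.mul_nonneg h3 h4 (show _ * _ = _ * _ by
    simp only [sub_mul, mul_sub, mul_add, add_mul, smul_mul_assoc, mul_smul_comm, one_mul, mul_one]
    module)
  have h6 : star x * x ≤ algebraMap ℝ E (r * r) := by
    rw [hx.star_eq, Algebra.algebraMap_eq_smul_one, ← sub_nonneg]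
    convert h5 using 1
    simp only [sub_mul, mul_add, smul_mul_assoc, mul_smul_comm, one_mul, mul_one]
    module
  rw [← CStarAlgebra.norm_le_iff_le_algebraMap _ (by positivity) (star_mul_self_nonneg x),
    CStarRing.norm_star_mul_self] at h6
  exact abs_le_of_sq_le_sq' (by nlinarith) hr |>.2

lemma norm_sub_le_one {a b : E} (ha : 0 ≤ a) (ha' : a ≤ 1) (hb : 0 ≤ b) (hb' : b ≤ 1) :
    ‖a - b‖ ≤ 1 :=
  sa_norm_le zero_le_one (by rw [one_smul]; exact (neg_le_neg hb').trans (by simpa))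
    (by rw [one_smul]; exact (sub_le_self _ hb).trans ha')

/-- the centred square root -/
noncomputable def sx (p : ℕ) (ζ : ℂ) (c : ℝ) (F : Finset κ) (V : κ → E) : E :=
  CFC.sqrt (Mx p c F V) - ((p : ℝ)⁻¹) • ∑ k ∈ range p, CFC.sqrt (Mx p c F fun g => ζ ^ k • V g)

lemma map_sx (j : E →⋆ₐ[ℂ] E') (p : ℕ) (ζ : ℂ) (c : ℝ) (F : Finset κ) (V : κ → E) :
    j (sx p ζ c F V) = sx p ζ c F fun g => j (V g) := by
  simp [sx, map_Mx, ← Complex.coe_smul]

lemma smul_unitary {z : ℂ} (hz : ‖z‖ = 1) {V : E} (hV : V ∈ unitary E) : z • V ∈ unitary E := by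
  constructor <;> simp [smul_smul, hV.1, hV.2, Complex.mul_conj', Complex.conj_mul', hz]

lemma sqrt_Mx_le {p : ℕ} {c : ℝ} {F : Finset κ} {V : κ → E} (hV : ∀ g, V g ∈ unitary E)
    (hc : c ^ 2 * F.card ≤ 1) : CFC.sqrt (Mx p c F V) ≤ 1 := by
  refine sqrt_le_one ?_
  rw [Mx_eq]
  refine (smul_le_smul_of_nonneg_left (sum_le_card_nsmul _ _ 1 fun g _ => (ya_le p _).trans ?_)
    (sq_nonneg c)).trans ?_
  · rw [← CStarAlgebra.norm_le_one_iff_of_nonneg _ (star_mul_self_nonneg _)]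
    simpa using norm_mul_le_of_le ((norm_star _).trans_le (norm_Pk p (hV g))) (norm_Pk p (hV g))
  · rw [← Nat.cast_smul_eq_nsmul ℝ, smul_smul]
    simpa using smul_le_smul_of_nonneg_right hc (zero_le_one' E)

lemma sx_sa (p : ℕ) (ζ : ℂ) (c : ℝ) (F : Finset κ) (V : κ → E) : IsSelfAdjoint (sx p ζ c F V) :=
  (CFC.sqrt_nonneg _).isSelfAdjoint.sub (smul_nonneg (by positivity)
    (sum_nonneg fun _ _ => CFC.sqrt_nonneg _)).isSelfAdjoint

lemma norm_sx {p : ℕ} {ζ : ℂ} (hζ : ‖ζ‖ = 1) {c : ℝ} {F : Finset κ} {V : κ → E}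
    (hV : ∀ g, V g ∈ unitary E) (hc : c ^ 2 * F.card ≤ 1) : ‖sx p ζ c F V‖ ≤ 1 := by
  refine norm_sub_le_one (CFC.sqrt_nonneg _) (sqrt_Mx_le hV hc) (smul_nonneg (by positivity)
    (sum_nonneg fun _ _ => CFC.sqrt_nonneg _)) ((smul_le_smul_of_nonneg_left
      (sum_le_card_nsmul _ _ 1 fun k _ => sqrt_Mx_le (fun g => smul_unitary (by simp [hζ]) (hV g)) hc)
      (by positivity)).trans ?_)
  rw [← Nat.cast_smul_eq_nsmul ℝ, smul_smul]
  simpa using smul_le_smul_of_nonneg_right (show (p : ℝ)⁻¹ * p ≤ 1 from inv_mul_le_one) (zero_le_one' E)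

lemma var_sx (ht : IsTr τ) {p : ℕ} {ζ : ℂ} (hζ : IsPrimitiveRoot ζ p) {c : ℝ} {F : Finset κ}
    {V : κ → E} (hV : ∀ g, V g ∈ unitary E) (h : ∀ g n, n ≠ 0 → τ (V g ^ n) = 0)
    (hc : c ^ 2 * F.card = 1) (hp0 : 0 < p) (hp : 2048 * F.card ≤ p) :
    (16 * p : ℝ)⁻¹ ≤ (τ (sx p ζ c F V * sx p ζ c F V)).re := by
  choose h1 h2 b hb hb' using fun g => tr_ya ht hp0 (hV g) (h g)
  have hp1 : (0 : ℝ) < p := by exact_mod_cast hp0
  have hp2 : (2048 * F.card : ℝ) ≤ p := by exact_mod_cast hp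
  set M := Mx p c F V with hM
  have hM0 : 0 ≤ M := Mx_nonneg ..
  set f := CFC.sqrt M
  set a := ((p : ℝ)⁻¹) • ∑ k ∈ range p, CFC.sqrt (Mx p c F fun g => ζ ^ k • V g) with ha
  have hf : 0 ≤ f := CFC.sqrt_nonneg _
  have hff : f * f = M := CFC.sqrt_mul_sqrt_self _ hM0
  have ha0 : 0 ≤ a := smul_nonneg (by positivity) (sum_nonneg fun _ _ => CFC.sqrt_nonneg _)
  have hτM : (τ M).re = c ^ 2 * ∑ g ∈ F, (τ (star (ya p (V g)) * ya p (V g))).re := by
    rw [hM, Mx_eq, LinearMap.map_smul_of_tower, Complex.smul_re, map_sum, Complex.re_sum,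
      smul_eq_mul]
  have b1 : (4 * p : ℝ)⁻¹ ≤ (τ M).re := by
    have := mul_le_mul_of_nonneg_left (card_nsmul_le_sum F _ _ fun g _ => h1 g) (sq_nonneg c)
    rwa [nsmul_eq_mul, ← mul_assoc, hc, one_mul, ← hτM] at this
  have b2 : (τ M).re ≤ (p : ℝ)⁻¹ := by
    have := mul_le_mul_of_nonneg_left (sum_le_card_nsmul F _ _ fun g _ => h2 g) (sq_nonneg c)
    rwa [nsmul_eq_mul, ← mul_assoc, hc, one_mul, ← hτM] at this
  have b3 : a * a ≤ (p : ℝ)⁻¹ • 1 := by
    have h3 := sq_avg_le (range p) fun k =>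
      (CFC.sqrt_nonneg (Mx p c F fun g => ζ ^ k • V g)).isSelfAdjoint
    rw [sum_congr rfl fun k _ => (CFC.sqrt_mul_sqrt_self _ (Mx_nonneg ..)).trans (Mx_eq ..),
      ← smul_sum, sum_comm] at h3
    have h4 := smul_le_smul_of_nonneg_left (h3.trans (smul_le_smul_of_nonneg_left
      (smul_le_smul_of_nonneg_left (sum_le_card_nsmul F _ 1 fun g _ =>
        (sum_le_sum fun k _ => ya_le p _).trans_eq (sum_Pk hp0 hζ (hV g))) (sq_nonneg c))
      (by positivity))) (show (0 : ℝ) ≤ (p : ℝ)⁻¹ * (p : ℝ)⁻¹ by positivity)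
    rw [← Nat.cast_smul_eq_nsmul ℝ, smul_smul, smul_smul, smul_smul, card_range, mul_assoc,
      mul_assoc, hc, mul_one, mul_assoc, inv_mul_cancel₀ hp1.ne', mul_one] at h4
    simpa only [ha, smul_mul_assoc, mul_smul_comm, smul_smul] using h4
  change _ ≤ (τ ((f - a) * (f - a))).re
  clear_value a f
  have hp3 : (p : ℝ)⁻¹ ≤ 1 := inv_le_one_of_one_le₀ (by exact_mod_cast hp0)
  have b4 : ‖a‖ ≤ 1 := by
    have := CStarAlgebra.norm_le_norm_of_nonneg_of_le (by simpa [ha0.star_eq] using star_mul_self_nonneg a) b3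
    nth_rw 1 [← ha0.star_eq] at this
    rw [CStarRing.norm_star_mul_self, norm_smul] at this
    have h5 := mul_le_mul hp3 (norm_one_le (E := E)) (norm_nonneg _) zero_le_one
    rw [Real.norm_of_nonneg (by positivity)] at this
    nlinarith [norm_nonneg a]
  set t : ℝ := ((32 * p : ℝ)⁻¹) ^ 2 with htd
  have ht0 : 0 < t := by positivity
  set R := M * res M t with hR
  have hR1 : R = 1 - (t : ℂ) • res M t := mul_res_eq hM0 ht0
  have hR0 : 0 ≤ R := Commute.mul_nonneg hM0 (res_nonneg _ ht0) (res_comm hM0 (Commute.refl M) t).symm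
  have hR2 : ‖R‖ ≤ 1 := (CStarAlgebra.norm_le_one_iff_of_nonneg _ hR0).2 (hR1 ▸ sub_le_self _
    (by rw [Complex.coe_smul]; exact smul_nonneg ht0.le (res_nonneg _ ht0)))
  have b5 : (τ R).re ≤ F.card * (8 * (p : ℝ)⁻¹) :=
    (ht.rank F (x := fun g => (c : ℂ) • ya p (V g)) (b := b) (fun g _ => by
      rw [mul_smul_comm, hb]) ht0).trans (by simpa using sum_le_card_nsmul F _ _ fun g _ => hb' g)
  have b6 : ‖f * (1 - R)‖ ≤ (32 * p : ℝ)⁻¹ := by
    have h3 : star (f * (1 - R)) * (f * (1 - R)) = (1 - R) * ((t : ℂ) • R) := by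
      rw [star_mul, star_sub, star_one, hR0.star_eq, hf.star_eq, mul_assoc, ← mul_assoc f, hff]
      nth_rw 2 [hR1]
      rw [sub_sub_cancel, mul_smul_comm]
    have h4 : ‖1 - R‖ ≤ 1 := norm_sub_le_one zero_le_one le_rfl hR0
      ((CStarAlgebra.norm_le_one_iff_of_nonneg _ hR0).1 hR2)
    have h5 := norm_mul_le_of_le h4 ((norm_smul_le (t : ℂ) R).trans
      (mul_le_of_le_one_right (norm_nonneg _) hR2))
    rw [← h3, CStarRing.norm_star_mul_self, Complex.norm_real, Real.norm_of_nonneg ht0.le] at h5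
    exact abs_le_of_sq_le_sq' (by nlinarith) (by positivity) |>.2
  clear_value R
  have b7 : (nq τ f * nq τ (R * a)) ^ 2 ≤ ((16 * p : ℝ)⁻¹) ^ 2 := by
    have h3 := ht.mul_mono (star_mul_self_nonneg R) b3
    have h4 := (Complex.re_le_norm _).trans (ht.norm_mul_le R hR0)
    rw [mul_smul_comm, mul_one, LinearMap.map_smul_of_tower, Complex.smul_re, hR0.star_eq] at h3
    rw [mul_pow, nq_sq ht.pos, nq_sq ht.pos, hf.star_eq, hff, star_mul, hR0.star_eq, ha0.star_eq,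
      mul_assoc a, ht.comm a, mul_assoc R, mul_assoc R, ← mul_assoc R]
    have h5 := pos_re ht.pos hR0
    have h6 : (F.card : ℝ) * (p : ℝ)⁻¹ ≤ 1 / 2048 := by
      rw [← div_eq_mul_inv, div_le_iff₀ hp1]; linarith
    calc _ ≤ (p : ℝ)⁻¹ * ((p : ℝ)⁻¹ * (F.card * (8 * (p : ℝ)⁻¹))) := by
          refine mul_le_mul b2 (h3.trans (mul_le_mul_of_nonneg_left ?_ (by positivity))) ?_
            (by positivity)
          · nlinarith
          · simpa [hR0.star_eq, ha0.star_eq] using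
              ht.mul_nonneg (star_mul_self_nonneg R) (star_mul_self_nonneg a)
      _ = (p : ℝ)⁻¹ ^ 2 * (8 * (F.card * (p : ℝ)⁻¹)) := by ring
      _ ≤ (p : ℝ)⁻¹ ^ 2 * (8 * (1 / 2048)) := by gcongr
      _ = _ := by ring
  have b8 : (τ (f * a)).re ≤ (16 * p : ℝ)⁻¹ + (32 * p : ℝ)⁻¹ := by
    rw [show f * a = f * (R * a) + f * (1 - R) * a by noncomm_ring, map_add, Complex.add_re]
    exact add_le_add ((Complex.re_le_norm _).trans ((ht.cs _ _).trans
      (abs_le_of_sq_le_sq' b7 (by positivity)).2))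
      ((st_re_le ht.st _).trans ((norm_mul_le_of_le b6 b4).trans_eq (mul_one _)))
  have b9 := ht.mul_nonneg ha0 ha0
  simp only [mul_sub, sub_mul, map_sub, Complex.sub_re, hff, ht.comm a f, mul_inv] at *
  linarith

lemma rob_Mx (ht : IsTr τ) [DecidableEq κ] {p : ℕ} (hp0 : 0 < p) (c : ℝ) (F F' : Finset κ)
    {V : κ → E} (hV : ∀ g, V g ∈ unitary E) (h : ∀ g n, n ≠ 0 → τ (V g ^ n) = 0) :
    nq τ (CFC.sqrt (Mx p c F V) - CFC.sqrt (Mx p c F' V)) ≤
      2 * √(c ^ 2 * (F ∆ F').card * (p : ℝ)⁻¹) := by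
  have key : ∀ F F' : Finset κ, nq τ (CFC.sqrt (Mx p c F V) - CFC.sqrt (Mx p c (F ∩ F') V)) ≤
      √(c ^ 2 * (F ∆ F').card * (p : ℝ)⁻¹) := fun F F' => by
    have h1 : Mx p c F V - Mx p c (F ∩ F') V = Mx p c (F \ F') V := by
      rw [Mx, ← sum_sdiff (inter_subset_left (s₁ := F) (s₂ := F')), sdiff_inter_self_left]
      exact add_sub_cancel_right _ _
    refine Real.le_sqrt_of_sq_le ((ht.sqrt_sub (Mx_nonneg ..)
      (sub_nonneg.1 (h1 ▸ Mx_nonneg ..))).trans ?_)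
    rw [h1, Mx_eq, LinearMap.map_smul_of_tower, Complex.smul_re, map_sum, Complex.re_sum,
      smul_eq_mul, mul_assoc]
    refine mul_le_mul_of_nonneg_left ((sum_le_card_nsmul _ _ _ fun g _ =>
      (tr_ya ht hp0 (hV g) (h g)).2.1).trans ?_) (sq_nonneg c)
    rw [nsmul_eq_mul]
    gcongr
    exact le_sup_left (a := F \ F')
  have h1 := key F' F
  rw [nq_comm, inter_comm, symmDiff_comm] at h1
  linarith [nq_tri ht.pos (CFC.sqrt (Mx p c F V)) (CFC.sqrt (Mx p c (F ∩ F') V))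
    (CFC.sqrt (Mx p c F' V)), key F F']

lemma rob_sx (ht : IsTr τ) [DecidableEq κ] {p : ℕ} (hp0 : 0 < p) {ζ : ℂ} (hζ : ‖ζ‖ = 1) (c : ℝ)
    (F F' : Finset κ) {V : κ → E} (hV : ∀ g, V g ∈ unitary E)
    (h : ∀ g n, n ≠ 0 → τ (V g ^ n) = 0) :
    nq τ (sx p ζ c F V - sx p ζ c F' V) ≤ 4 * √(c ^ 2 * (F ∆ F').card * (p : ℝ)⁻¹) := by
  have h1 := nq_sum_le ht.pos (range p) fun k => CFC.sqrt (Mx p c F fun g => ζ ^ k • V g) -
    CFC.sqrt (Mx p c F' fun g => ζ ^ k • V g)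
  have h2 := h1.trans (sum_le_card_nsmul _ _ _ fun k _ => rob_Mx ht hp0 c F F'
    (fun g => smul_unitary (by simp [hζ]) (hV g)) fun g n hn => by simp [smul_pow, h g n hn])
  rw [sx, sx, sub_sub_sub_comm, ← smul_sub, ← sum_sub_distrib]
  refine (nq_sub_le ht.pos _ _).trans ((add_le_add (rob_Mx ht hp0 c F F' hV h)
    (?_ : _ ≤ 2 * √(c ^ 2 * (F ∆ F').card * (p : ℝ)⁻¹))).trans_eq (by ring))
  rw [← Complex.coe_smul, ht.pos.nq_smul, Complex.norm_real, Real.norm_of_nonneg (by positivity),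
    inv_mul_le_iff₀ (by exact_mod_cast hp0)]
  simpa using h2

/-- exponentials -/
noncomputable def ex (t : ℝ) (s : E) : E := cfc (fun z : ℂ => Complex.exp (Complex.I * t * z)) s

lemma map_ex (j : E →⋆ₐ[ℂ] E') (t : ℝ) {s : E} (hs : IsSelfAdjoint s) : j (ex t s) = ex t (j s) :=
  StarAlgHomClass.map_cfc (R := ℂ) (S := ℂ) j _ s (by fun_prop) (map_continuous j) hs.isStarNormal
    (hs.map j).isStarNormal

lemma ex_unitary (t : ℝ) {s : E} (hs : IsSelfAdjoint s) : ex t s ∈ unitary E := by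
  have := hs.isStarNormal
  rw [ex, cfc_unitary_iff ..]
  intro z hz
  rw [hs.mem_spectrum_eq_re hz, RCLike.star_def, Complex.conj_mul',
    mul_assoc, ← Complex.ofReal_mul, Complex.norm_exp_I_mul_ofReal]
  simp

lemma ex_pow (t : ℝ) {s : E} (hs : IsSelfAdjoint s) (n : ℕ) : ex t s ^ n = ex (n * t) s := by
  have := hs.isStarNormal
  rw [ex, ← cfc_pow ..]
  refine cfc_congr fun z _ => ?_
  simp only [← Complex.exp_nat_mul]
  push_cast
  ring_nf

lemma ex_approx {t : ℝ} (h0 : 0 ≤ t) (h1 : t ≤ 1) {s : E} (hs : IsSelfAdjoint s) (h : ‖s‖ ≤ 1) :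
    ‖ex t s - (1 + (Complex.I * t) • s - ((t : ℂ) ^ 2 / 2) • (s * s))‖ ≤ t ^ 3 := by
  have := hs.isStarNormal
  nth_rw 2 3 4 [← cfc_id' ℂ s]
  rw [ex, ← cfc_mul .., ← cfc_smul .., ← cfc_smul .., ← cfc_const_one ℂ s, ← cfc_add ..,
    ← cfc_sub .., ← cfc_sub ..]
  refine norm_cfc_le (by positivity) fun z hz => ?_
  have h2 : ‖z‖ ≤ 1 := (spectrum.norm_le_norm_mul_of_mem hz).trans
    (by simpa using mul_le_mul h (norm_one_le (E := E)) (norm_nonneg _) zero_le_one)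
  have h3 : ‖Complex.I * t * z‖ ≤ t := by
    simpa [abs_of_nonneg h0] using mul_le_of_le_one_right h0 h2
  have h4 := Complex.exp_bound (h3.trans h1) (n := 3) (by norm_num)
  have h5 := pow_le_pow_left₀ (norm_nonneg _) h3 3
  refine le_trans (le_of_eq ?_) (h4.trans ?_)
  · congr 1
    simp only [sum_range_succ, smul_eq_mul, mul_pow, Complex.I_sq, Nat.factorial]
    simp
    ring
  · norm_num [Nat.factorial] at *
    nlinarith [pow_nonneg h0 3]

lemma tr_ex (ht : IsTr τ) {t v : ℝ} (h0 : 0 ≤ t) (h1 : t ≤ v / 4) {s : E} (hs : IsSelfAdjoint s)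
    (h : ‖s‖ ≤ 1) (h2 : τ s = 0) (h3 : v ≤ (τ (s * s)).re) : ‖τ (ex t s)‖ ≤ 1 - t ^ 2 * v / 4 := by
  have h4 := (st_re_le ht.st (s * s)).trans (norm_mul_le_of_le h h)
  have h5 := (st_norm_le ht.st _).trans (ex_approx h0 (by linarith) hs h)
  have h6 : τ (s * s) = (τ (s * s)).re := pos_eq_re ht.pos (by simp [IsSelfAdjoint, hs.star_eq])
  rw [map_sub, map_sub, map_add, map_smul, map_smul, h2, ht.one, h6] at h5
  have h7 : ‖(1 + (Complex.I * t) • (0 : ℂ) - ((t : ℂ) ^ 2 / 2) • ((τ (s * s)).re : ℂ))‖ =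
      1 - t ^ 2 / 2 * (τ (s * s)).re := by
    rw [← Real.norm_of_nonneg (r := 1 - _) (by nlinarith), ← Complex.norm_real]
    simp
  have h8 := norm_le_norm_add_norm_sub' (τ (ex t s))
    (1 + (Complex.I * t) • (0 : ℂ) - ((t : ℂ) ^ 2 / 2) • ((τ (s * s)).re : ℂ))
  nlinarith [sq_nonneg t]

lemma rob_ex (ht : IsTr τ) {t : ℝ} (h0 : 0 ≤ t) (h1 : t ≤ 1) {s s' : E} (hs : IsSelfAdjoint s)
    (hs' : IsSelfAdjoint s') (h : ‖s‖ ≤ 1) (h' : ‖s'‖ ≤ 1) (h2 : τ s = 0) (h2' : τ s' = 0) :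
    ‖τ (star (ex t s) * ex t s') - τ 1‖ ≤ t ^ 2 / 2 * nq τ (s' - s) ^ 2 + 8 * t ^ 3 := by
  have a1 := ex_approx h0 h1 hs h
  have a2 := ex_approx h0 h1 hs' h'
  set R := ex t s - (1 + (Complex.I * t) • s - ((t : ℂ) ^ 2 / 2) • (s * s)) with hR
  set R' := ex t s' - (1 + (Complex.I * t) • s' - ((t : ℂ) ^ 2 / 2) • (s' * s')) with hR'
  set Y := star R - ((t : ℂ) ^ 2 / 2) • (s * s) with hY
  set Y' := R' - ((t : ℂ) ^ 2 / 2) • (s' * s') with hY'
  have e1 : star (ex t s) = 1 - (Complex.I * t) • s + Y := by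
    simp [hY, hR, hs.star_eq]; module
  have e2 : ex t s' = 1 + (Complex.I * t) • s' + Y' := by simp only [hY', hR']; module
  have n1 : ∀ {x : E}, ‖x‖ ≤ 1 → ‖((t : ℂ) ^ 2 / 2) • (x * x)‖ ≤ t ^ 2 / 2 := fun hx => by
    simpa [norm_smul] using mul_le_mul_of_nonneg_left (norm_mul_le_of_le hx hx)
      (show 0 ≤ t ^ 2 / 2 by positivity)
  have n2 : ∀ {x : E}, ‖x‖ ≤ 1 → ‖(Complex.I * t) • x‖ ≤ t := fun hx => by
    simpa [norm_smul, abs_of_nonneg h0] using mul_le_of_le_one_right h0 hx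
  have n3 := norm_sub_le_of_le ((norm_star R).trans_le a1) (n1 h)
  have n4 := norm_sub_le_of_le a2 (n1 h')
  have e3 : star (ex t s) * ex t s' - 1 = ((Complex.I * t) • s' - (Complex.I * t) • s) -
      ((t : ℂ) ^ 2 / 2) • (s * s + s' * s' - s * s' - s * s') +
      (star R + R' + Y * ((Complex.I * t) • s' + Y') - (Complex.I * t) • s * Y') := by
    have e4 : (Complex.I * t) • s * (Complex.I * t) • s' = -((t : ℂ) ^ 2 • (s * s')) := by
      rw [smul_mul_smul_comm, ← neg_smul]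
      congr 1
      linear_combination (t : ℂ) ^ 2 * Complex.I_mul_I
    rw [e1, e2]
    simp only [mul_add, add_mul, sub_mul, one_mul, mul_one, e4]
    simp only [hY, hY']
    module
  have e5 : τ (s * s + s' * s' - s * s' - s * s') = (nq τ (s' - s) ^ 2 : ℝ) := by
    rw [nq_sq ht.pos, ← pos_eq_re ht.pos (IsSelfAdjoint.star_mul_self _)]
    simp only [star_sub, hs.star_eq, hs'.star_eq, mul_sub, sub_mul, map_sub, map_add, ht.comm s' s]
    ring
  rw [← map_sub, e3, map_add, map_sub, map_sub, map_smul, map_smul, map_smul, h2, h2', e5]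
  refine norm_add_le_of_le (by simp) ((st_norm_le ht.st _).trans ?_)
  refine (norm_sub_le_of_le (norm_add_le_of_le (norm_add_le_of_le ((norm_star R).trans_le a1) a2)
    (norm_mul_le_of_le n3 (norm_add_le_of_le (n2 h') n4))) (norm_mul_le_of_le (n2 h) n4)).trans ?_
  have h3 : t ^ 3 ≤ t ^ 2 := pow_le_pow_of_le_one h0 h1 (by norm_num)
  have h4 : t ^ 2 ≤ t := by nlinarith
  calc _ ≤ t ^ 3 + t ^ 3 + (t ^ 2 + t ^ 2 / 2) * (t + (t + t / 2)) + t * (t ^ 2 + t ^ 2 / 2) := by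
        gcongr; linarith
    _ ≤ _ := by nlinarith [pow_nonneg h0 3]

end

end Vale.Agent.P095
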