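import Vale.Agent.P101.Defs

/-! Definitions for equivariant Jiang-Su stability. -/

namespace Vale.Agent.P095

open scoped TensorProduct MultiplierAlgebra
open Vale.Agent.P101

/-- A C*-algebra is simple if it is nonzero and has no closed two-sided ideals other than
zero and itself. -/
def IsSimple (A : Type*) [NonUnitalCStarAlgebra A] : Prop :=
  Nontrivial A ∧ ∀ I : TwoSidedIdeal A, IsClosed (I : Set A) → I = ⊥ ∨ I = ⊤

/-- A linear map is completely positive if all its matrix amplifications send positive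
matrices `M* M` to positive matrices `N* N`. -/
def IsCP {A B : Type*} [NonUnitalRing A] [StarRing A] [Module ℂ A] [NonUnitalRing B]
    [StarRing B] [Module ℂ B] (φ : A →ₗ[ℂ] B) : Prop :=
  ∀ (k : ℕ) (M : Matrix (Fin k) (Fin k) A), ∃ N : Matrix (Fin k) (Fin k) B,
    (M.conjTranspose * M).map φ = N.conjTranspose * N

open scoped Matrix.Norms.L2Operator in
/-- Nuclearity: the identity map approximately factors through matrix algebras by completely
positive contractions. -/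
def IsNuclear (A : Type*) [NonUnitalCStarAlgebra A] : Prop :=
  ∀ (F : Finset A) (ε : ℝ), 0 < ε → ∃ (n : ℕ) (φ : A →ₗ[ℂ] Matrix (Fin n) (Fin n) ℂ)
    (ψ : Matrix (Fin n) (Fin n) ℂ →ₗ[ℂ] A), IsCP φ ∧ IsCP ψ ∧ (∀ a, ‖φ a‖ ≤ ‖a‖) ∧
      (∀ x, ‖ψ x‖ ≤ ‖x‖) ∧ ∀ a ∈ F, ‖ψ (φ a) - a‖ ≤ ε

/-- `ι` exhibits `B` as the minimal tensor product of `A` and `Z`: it is a star-homomorphism from
the algebraic tensor product with dense range, isometric for the minimal norm (computed in the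
tensor product of the unitization of `A` with `Z`). -/
structure IsMinTensor {A Z B : Type*} [NonUnitalCStarAlgebra A] [CStarAlgebra Z]
    [NonUnitalCStarAlgebra B] (ι : A ⊗[ℂ] Z →ₗ[ℂ] B) : Prop where
  map_mul : ∀ (a a' : A) (z z' : Z), ι (a ⊗ₜ[ℂ] z) * ι (a' ⊗ₜ[ℂ] z') = ι ((a * a') ⊗ₜ[ℂ] (z * z'))
  map_star : ∀ (a : A) (z : Z), star (ι (a ⊗ₜ[ℂ] z)) = ι (star a ⊗ₜ[ℂ] star z)
  dense : DenseRange ι
  norm_eq : ∀ x, ‖ι x‖ = minNorm (TensorProduct.map (Unitization.inrHom ℂ ℂ A) LinearMap.id x)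

open scoped Pointwise symmDiff in
/-- Amenability of a discrete group: the Folner condition. -/
def IsAmenable (G : Type*) [Group G] [DecidableEq G] : Prop :=
  ∀ (S : Finset G) (ε : ℝ), 0 < ε → ∃ F : Finset G, F.Nonempty ∧
    ∀ g ∈ S, (((g • F) ∆ F).card : ℝ) ≤ ε * F.card

/-- Cocycle conjugacy: a star-isomorphism `Φ` and unitary multipliers `u g` with
`u (g h) = u g β_g (u h)` (where `β_g (m) b = β_g (m β_g⁻¹ (b))` is the extension of `β_g` to
multipliers) and `Φ (α_g a) = u g β_g (Φ a) (u g)*`. -/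
def CocycleConj {G A B : Type*} [Group G] [NonUnitalCStarAlgebra A] [NonUnitalCStarAlgebra B]
    (α : G →* (A ≃⋆ₐ[ℂ] A)) (β : G →* (B ≃⋆ₐ[ℂ] B)) : Prop :=
  ∃ (Φ : A ≃⋆ₐ[ℂ] B) (u : G → 𝓜(ℂ, B)), (∀ g, u g ∈ unitary 𝓜(ℂ, B)) ∧
    (∀ g h (b : B), (u (g * h)).fst b = (u g).fst (β g ((u h).fst ((β g).symm b)))) ∧
    ∀ g (a : A), (Φ (α g a) : 𝓜(ℂ, B)) = u g * (β g (Φ a) : 𝓜(ℂ, B)) * star (u g)

end Vale.Agent.P095
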