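import Vale.Agent.P095.Tr

/-! An excisable state, by a Baire category argument. -/

namespace Vale.Agent.P095

open scoped CStarAlgebra
open Filter Topology
open Vale.Agent.P101

attribute [local instance] CStarAlgebra.spectralOrder CStarAlgebra.spectralOrderedRing

lemma second_diff (g : ℝ → ℝ) {L : ℝ} (hg : ∀ s t, g s - g t ≤ L * |s - t|) {r ε : ℝ}
    (hr : 0 < r) (hε : 0 < ε) :
    ∃ s, 0 ≤ s ∧ s ≤ r ∧ ∃ t > 0, g (s + t) + g (s - t) - 2 * g s < ε * t := by
  by_contra! h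
  obtain ⟨K, hK⟩ := exists_nat_gt (2 * L / ε)
  obtain ⟨t, ht⟩ : ∃ t, t = r / (K + 1) := ⟨_, rfl⟩
  have ht0 : 0 < t := by rw [ht]; positivity
  have key : ∀ k : ℕ, k ≤ K + 1 → g 0 - g (-t) + k * (ε * t) ≤ g (k * t) - g (k * t - t) := by
    intro k
    induction k with
    | zero => intro _; simp
    | succ k ih =>
      intro hk
      have h1 := ih (by omega)
      have h2 : (k : ℝ) ≤ K + 1 := by exact_mod_cast (by omega : k ≤ K + 1)
      have h3 := h (k * t) (by positivity) (by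
        rw [ht, ← mul_div_assoc, div_le_iff₀ (by positivity)]; nlinarith) t ht0
      push_cast
      rw [show (k + 1) * t = k * t + t by ring, add_sub_cancel_right]
      linarith
  have h1 := key (K + 1) le_rfl
  have h2 := hg (((K + 1 : ℕ) : ℝ) * t) (((K + 1 : ℕ) : ℝ) * t - t)
  have h3 := hg (-t) 0
  rw [sub_sub_cancel, abs_of_pos ht0] at h2
  rw [sub_zero, abs_neg, abs_of_pos ht0] at h3
  rw [div_lt_iff₀ hε] at hK
  push_cast at h1 h2
  nlinarith [mul_pos hε ht0, mul_lt_mul_of_pos_right hK ht0]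

section
variable {E : Type*} [CStarAlgebra E]

lemma norm_second_diff (w a : E) {r ε : ℝ} (hr : 0 < r) (hε : 0 < ε) :
    ∃ s : ℝ, 0 ≤ s ∧ s ≤ r ∧ ∃ t > 0,
      ‖w + s • a + t • a‖ + ‖w + s • a - t • a‖ - 2 * ‖w + s • a‖ < ε * t := by
  obtain ⟨s, h0, h1, t, ht, h⟩ := second_diff (fun s : ℝ => ‖w + s • a‖) (L := ‖a‖) (fun s t => by
    refine (norm_sub_norm_le _ _).trans (le_of_eq ?_)
    rw [add_sub_add_left_eq_sub, ← sub_smul, norm_smul, mul_comm, Real.norm_eq_abs]) hr hε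
  exact ⟨s, h0, h1, t, ht, by simpa [add_smul, sub_smul, add_assoc, add_sub_assoc] using h⟩

lemma st_real_smul (ρ : E →ₗ[ℂ] ℂ) (t : ℝ) (a : E) : (ρ (t • a)).re = t * (ρ a).re := by
  rw [← Complex.coe_smul, map_smul, smul_eq_mul, Complex.re_ofReal_mul]

lemma norm_le_of_pm {x : E} {c : ℝ} (hc : 0 ≤ c) (hx : IsSelfAdjoint x)
    (h1 : x ≤ algebraMap ℝ E c) (h2 : -x ≤ algebraMap ℝ E c) : ‖x‖ ≤ c := by
  rw [← cfc_id' ℝ x]
  refine norm_cfc_le hc fun t ht => ?_
  rw [neg_le, ← map_neg, algebraMap_le_iff_le_spectrum] at h2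
  rw [le_algebraMap_iff_spectrum_le] at h1
  exact abs_le.2 ⟨h2 t ht, h1 t ht⟩

lemma exists_state_norm [Nontrivial E] {w : E} (hw : 0 ≤ w) :
    ∃ ρ : E →ₗ[ℂ] ℂ, IsState ρ ∧ (ρ w).re = ‖w‖ := by
  obtain ⟨y, rfl⟩ := CStarAlgebra.nonneg_iff_eq_star_mul_self.1 hw
  obtain ⟨ρ, h1, h2⟩ := exists_state y
  exact ⟨ρ, h1, by rw [h2, Complex.ofReal_re]⟩

lemma exc_core {ρ : E →ₗ[ℂ] ℂ} (hρ : IsState ρ) {w a z : E} (hw : IsSelfAdjoint w)
    (ha : IsSelfAdjoint a) (hρw : (ρ w).re = ‖w‖) {t ε : ℝ} (ht : 0 < t)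
    (h : ‖w + t • a‖ + ‖w - t • a‖ - 2 * ‖w‖ < ε * t)
    (hz : (‖w‖ - ε * t) • (star z * z) ≤ star z * w * z) :
    star z * a * z ≤ ((ρ a).re + 2 * ε) • (star z * z) := by
  have h1 := CStarAlgebra.star_left_conjugate_le_norm_smul (a := z)
    (hw.add ((IsSelfAdjoint.all t).smul ha))
  have h2 := st_re_le hρ (w - t • a)
  rw [map_sub, Complex.sub_re, st_real_smul, hρw] at h2
  have h3 : ‖w + t • a‖ • (star z * z) ≤ (‖w‖ + t * (ρ a).re + ε * t) • (star z * z) :=
    smul_le_smul_of_nonneg_right (by linarith) (star_mul_self_nonneg z)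
  have h4 : t • (star z * a * z) ≤ t • (((ρ a).re + 2 * ε) • (star z * z)) := by
    have h5 := sub_le_sub (h1.trans h3) hz
    rw [mul_add, add_mul, mul_smul_comm, smul_mul_assoc] at h5
    have h6 := sub_le_sub (h1.trans h3) hz
    rw [← sub_nonneg] at h1 h3 hz ⊢
    have h7 := add_nonneg (add_nonneg h1 h3) hz
    refine h7.trans_eq ?_
    rw [mul_add, add_mul, mul_smul_comm, smul_mul_assoc]
    module
  exact le_of_smul_le_smul_left h4 ht

lemma exc_norm {ρ : E →ₗ[ℂ] ℂ} (hρ : IsState ρ) {w a z : E} (hw : IsSelfAdjoint w)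
    (ha : IsSelfAdjoint a) (hρw : (ρ w).re = ‖w‖) {t ε : ℝ} (ht : 0 < t) (hε : 0 ≤ ε)
    (h : ‖w + t • a‖ + ‖w - t • a‖ - 2 * ‖w‖ < ε * t) (hz1 : ‖z‖ ≤ 1)
    (hz : (‖w‖ - ε * t) • (star z * z) ≤ star z * w * z) :
    ‖star z * a * z - ρ a • (star z * z)‖ ≤ 2 * ε := by
  have h1 := exc_core hρ hw ha hρw ht h hz
  have h2 := exc_core hρ hw ha.neg hρw ht (by
    rw [smul_neg, sub_neg_eq_add, ← sub_eq_add_neg, add_comm]; exact h) hz
  have h3 : (2 * ε) • (star z * z) ≤ algebraMap ℝ E (2 * ε) := by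
    rw [Algebra.algebraMap_eq_smul_one]
    refine smul_le_smul_of_nonneg_left ?_ (by positivity)
    rw [← CStarAlgebra.norm_le_one_iff_of_nonneg _ (star_mul_self_nonneg z),
      CStarRing.norm_star_mul_self]
    exact mul_le_one₀ hz1 (norm_nonneg _) hz1
  rw [pos_eq_re hρ.2 ha, Complex.coe_smul]
  refine norm_le_of_pm (by positivity) ((ha.conjugate' z).sub
    ((IsSelfAdjoint.all _).smul (IsSelfAdjoint.star_mul_self z))) (le_trans ?_ h3) (le_trans ?_ h3)
  · rw [add_smul] at h1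
    exact sub_le_iff_le_add'.2 h1
  · rw [map_neg, Complex.neg_re, add_smul, mul_neg, neg_mul, neg_smul] at h2
    rw [neg_sub, sub_le_iff_le_add]
    rwa [neg_le_iff_add_nonneg, add_assoc, ← neg_le_iff_add_nonneg', neg_neg] at h2

end

lemma exc_peak {A : Type*} [NonUnitalCStarAlgebra A] {h : A} (hh : IsSelfAdjoint h)
    (h0 : 0 ≤ (1 : A⁺¹) + h) (h1 : 1 < ‖(1 : A⁺¹) + h‖) {δ : ℝ} (hδ : 0 < δ) :
    ∃ z : A, ‖z‖ = 1 ∧ (‖(1 : A⁺¹) + h‖ - δ) • (star (z : A⁺¹) * z) ≤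
      star (z : A⁺¹) * (1 + h) * z := by
  set m := ‖(1 : A⁺¹) + h‖ with hm
  have hs : IsSelfAdjoint (h : A⁺¹) := hh.inr ℂ
  have hw : (1 : A⁺¹) + h = cfc (fun t : ℝ => 1 + t) (h : A⁺¹) := by
    rw [cfc_const_add _ _ _, cfc_id' ℝ _, map_one]
  have hsp := cfc_map_spectrum (fun t : ℝ => 1 + t) (h : A⁺¹)
  rw [← hw] at hsp
  obtain ⟨t₀, ht₀, ht₁⟩ : m ∈ (fun t : ℝ => 1 + t) '' spectrum ℝ (h : A⁺¹) :=
    hsp ▸ CStarAlgebra.norm_mem_spectrum_of_nonneg h0
  have hle : ∀ t ∈ spectrum ℝ (h : A⁺¹), 1 + t ≤ m := fun t ht =>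
    (le_abs_self _).trans (spectrum.norm_le_norm_of_mem (𝕜 := ℝ) (hsp ▸ ⟨t, ht, rfl⟩))
  obtain ⟨d, hd⟩ : ∃ d, d = min δ (m - 1) := ⟨_, rfl⟩
  have hd0 : 0 < d := hd ▸ lt_min hδ (by linarith)
  have hd1 : d ≤ δ := hd ▸ min_le_left _ _
  have hd2 : d ≤ m - 1 := hd ▸ min_le_right _ _
  let f : ℝ → ℝ := fun t => max 0 (1 - (m - 1 - t) / d)
  have hf : Continuous f := by fun_prop
  have hz : ∀ t, 1 + t ≤ m - d → f t = 0 := fun t ht => max_eq_left (by
    rw [sub_nonpos, le_div_iff₀ hd0]; linarith)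
  have e : ((cfcₙ f h : A) : A⁺¹) = cfc f (h : A⁺¹) :=
    Unitization.real_cfcₙ_eq_cfc_inr h f (hz 0 (by linarith))
  refine ⟨cfcₙ f h, ?_, ?_⟩
  · rw [← Unitization.norm_inr (𝕜 := ℂ), e]
    refine le_antisymm (norm_cfc_le zero_le_one fun t ht => ?_) ?_
    · rw [Real.norm_of_nonneg (le_max_left _ _)]
      have : 0 ≤ (m - 1 - t) / d := div_nonneg (by linarith [hle t ht]) hd0.le
      exact max_le zero_le_one (by linarith)
    · refine le_trans (le_of_eq ?_) (norm_apply_le_norm_cfc f (h : A⁺¹) ht₀)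
      simp only at ht₁
      simp [f, ← ht₁]
  · clear_value m f
    rw [e, IsSelfAdjoint.cfc.star_eq, hw, ← cfc_mul f f _ hf.continuousOn hf.continuousOn,
      ← cfc_mul f _ _ hf.continuousOn (by fun_prop), ← cfc_mul _ f _ (by fun_prop) hf.continuousOn,
      ← cfc_smul _ _ _ (by fun_prop)]
    refine cfc_mono (fun t _ => ?_) (by fun_prop) (by fun_prop)
    rcases le_total (1 + t) (m - d) with h2 | h2
    · simp [hz t h2]
    · rw [smul_eq_mul]
      nlinarith [mul_self_nonneg (f t)]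

theorem exc (A : Type*) [NonUnitalCStarAlgebra A] [TopologicalSpace.SeparableSpace A]
    [Nontrivial A] : ∃ ρ : A →L[ℂ] ℂ, (∀ a, ∃ r : ℝ, 0 ≤ r ∧ ρ (star a * a) = r) ∧ ρ ≠ 0 ∧
      ∀ (F : Finset A) (ε : ℝ), 0 < ε → ∃ z : A, ‖z‖ = 1 ∧
        ∀ a ∈ F, ‖star z * a * z - ρ a • (star z * z)‖ ≤ ε := by
  let R : A → A⁺¹ := fun x => ((x + star x : A) : A⁺¹)
  have hR : Continuous R := (Unitization.isometry_inr (𝕜 := ℂ)).continuous.comp (by fun_prop)
  let O : A → ℕ → Set A := fun a n => {x | ∃ t : ℝ, 0 < t ∧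
    ‖1 + R x + t • R a‖ + ‖1 + R x - t • R a‖ - 2 * ‖1 + R x‖ < 1 / ((n : ℝ) + 1) * t}
  have hO : ∀ a n, IsOpen (O a n) := fun a n => by
    have : O a n = ⋃ t : ℝ, ⋃ _ : 0 < t, {x |
      ‖1 + R x + t • R a‖ + ‖1 + R x - t • R a‖ - 2 * ‖1 + R x‖ < 1 / ((n : ℝ) + 1) * t} := by
      ext; simp [O]
    rw [this]
    exact isOpen_iUnion fun t => isOpen_iUnion fun _ => isOpen_lt (by fun_prop) continuous_const
  have hD : ∀ a n, Dense (O a n) := fun a n => Metric.dense_iff.2 fun x r hr => by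
    obtain ⟨δ, hδ, hδ'⟩ := exists_pos_mul_lt hr ‖a‖
    obtain ⟨s, h0, h1, t, ht, h⟩ := norm_second_diff (1 + R x) (R a) hδ (Nat.one_div_pos_of_nat (n := n))
    have e : R (x + s • a) = R x + s • R a := by
      simp only [R, star_add, star_smul, star_trivial, Unitization.inr_add, Unitization.inr_smul]
      module
    refine ⟨x + s • a, ?_, t, ht, by rwa [e, ← add_assoc]⟩
    rw [Metric.mem_ball, dist_eq_norm, add_sub_cancel_left, norm_smul, Real.norm_of_nonneg h0]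
    nlinarith [norm_nonneg a]
  let a : ℕ → A := TopologicalSpace.denseSeq A
  have hB := dense_iInter_of_isOpen (f := fun p : ℕ × ℕ => O (a p.1) p.2) (fun _ => hO _ _)
    fun _ => hD _ _
  obtain ⟨x, ⟨hx1, hx2⟩, hx⟩ := hB.inter_open_nonempty {x | ‖R x‖ < 1 ∧ 1 < ‖1 + R x‖}
    ((isOpen_lt hR.norm continuous_const).inter
      (isOpen_lt continuous_const (continuous_const.add hR).norm)) (by
      obtain ⟨b, hb⟩ := exists_ne (0 : A)
      obtain ⟨δ, hδ, hδ'⟩ := exists_pos_mul_lt one_pos (2 * ‖star b * b‖)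
      have e : R (δ • (star b * b)) = (((2 * δ) • (star b * b) : A) : A⁺¹) := by
        simp only [R, star_smul, star_trivial, star_mul, star_star, two_mul, add_smul]
      have h0 : 0 ≤ (2 * δ) • (star b * b) := smul_nonneg (by positivity) (star_mul_self_nonneg b)
      refine ⟨δ • (star b * b), ?_, ?_⟩
      · rw [e, Unitization.norm_inr, norm_smul, Real.norm_of_nonneg (by positivity)]
        linarith
      · rw [e]
        by_contra! h
        have h1 := Unitization.inr_nonneg_iff.2 h0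
        rw [CStarAlgebra.norm_le_one_iff_of_nonneg _ (add_nonneg zero_le_one h1),
          add_le_iff_nonpos_right] at h
        have h2 : (2 * δ) • (star b * b) = 0 := Unitization.inr_injective (R := ℂ) (by
          rw [le_antisymm h h1, Unitization.inr_zero])
        rw [smul_eq_zero_iff_right (by positivity), CStarRing.star_mul_self_eq_zero_iff] at h2
        exact hb h2)
  have hsa : ∀ y, IsSelfAdjoint (R y) := fun y => (IsSelfAdjoint.add_star_self y).inr ℂ
  have h0 : 0 ≤ 1 + R x := by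
    have h1 := (hsa x).neg.le_algebraMap_norm_self
    rw [neg_le_iff_add_nonneg] at h1
    refine h1.trans (add_le_add_left ?_ _)
    rw [norm_neg, Algebra.algebraMap_eq_smul_one]
    exact smul_le_of_le_one_left zero_le_one hx1.le
  obtain ⟨ρ, hρ, hρw⟩ := exists_state_norm h0
  let ρ' : A →L[ℂ] ℂ := (ρ ∘ₗ Unitization.inrHom ℂ ℂ A).mkContinuous 1 fun y => by
    simpa [Unitization.norm_inr] using st_norm_le hρ (y : A⁺¹)
  have hρ' : ∀ y, ρ' y = ρ (y : A⁺¹) := fun _ => rfl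
  choose z hz1 hz2 using fun n : ℕ => exc_peak (IsSelfAdjoint.add_star_self x) h0 hx2
    (Nat.one_div_pos_of_nat (n := n))
  let T : A → ℕ → A := fun b n => star (z n) * b * z n - ρ' b • (star (z n) * z n)
  have hT : ∀ b n, ‖T b n‖ ≤ 2 * ‖b‖ := fun b n => by
    refine (norm_sub_le _ _).trans ?_
    have h1 : ‖star (z n) * b * z n‖ ≤ ‖b‖ := norm_mul₃_le.trans (by simp [hz1])
    have h2 : ‖ρ' b‖ ≤ ‖b‖ := by simpa [hρ', Unitization.norm_inr] using st_norm_le hρ (b : A⁺¹)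
    rw [norm_smul, CStarRing.norm_star_mul_self, hz1]
    linarith
  have key : ∀ c, Tendsto (T (c + star c)) atTop (𝓝 0) := fun c => by
    rw [NormedAddGroup.tendsto_nhds_zero]
    intro ε hε
    obtain ⟨k, hk⟩ := Metric.denseRange_iff.1 (TopologicalSpace.denseRange_denseSeq A) c (ε / 8)
      (by positivity)
    obtain ⟨n, hn⟩ := exists_nat_one_div_lt (show 0 < ε / 4 by positivity)
    obtain ⟨t, ht, h⟩ := Set.mem_iInter.1 hx (k, n)
    filter_upwards [tendsto_one_div_add_atTop_nhds_zero_nat.eventually_lt_const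
      (mul_pos (Nat.one_div_pos_of_nat (n := n)) ht)] with N hN
    have h1 := exc_norm hρ (.of_nonneg h0) (hsa (a k)) hρw ht (by positivity) h
      (z := (z N : A⁺¹)) (by rw [Unitization.norm_inr, hz1])
      ((smul_le_smul_of_nonneg_right (by linarith) (star_mul_self_nonneg _)).trans (hz2 N))
    have h2 : ‖T (a k + star (a k)) N‖ ≤ 2 * (1 / ((n : ℝ) + 1)) := by
      rw [← Unitization.norm_inr (𝕜 := ℂ)]
      simpa [T, R, hρ'] using h1
    have h3 : T (c + star c) N = T (a k + star (a k)) N + T ((c - a k) + star (c - a k)) N := by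
      simp only [T, star_sub, map_add, map_sub, mul_add, add_mul, mul_sub, sub_mul]
      module
    have h4 := hT ((c - a k) + star (c - a k)) N
    have h5 := norm_add_le (c - a k) (star (c - a k))
    rw [norm_star] at h5
    rw [dist_eq_norm] at hk
    rw [h3]
    linarith [norm_add_le (T (a k + star (a k)) N) (T ((c - a k) + star (c - a k)) N)]
  have key2 : ∀ b, Tendsto (T b) atTop (𝓝 0) := fun b => by
    have h1 := (key ((2⁻¹ : ℂ) • b)).add ((key ((-Complex.I / 2) • b)).const_smul Complex.I)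
    rw [smul_zero, add_zero] at h1
    refine h1.congr fun n => ?_
    have e : b = ((2⁻¹ : ℂ) • b + star ((2⁻¹ : ℂ) • b)) +
        Complex.I • ((-Complex.I / 2) • b + star ((-Complex.I / 2) • b)) := by
      simp only [star_smul, smul_add, smul_smul, RCLike.star_def, map_div₀, map_neg, Complex.conj_I,
        map_inv₀, map_ofNat]
      match_scalars
      · linear_combination (1 / 2 : ℂ) * Complex.I_mul_I
      · linear_combination (-1 / 2 : ℂ) * Complex.I_mul_I
    nth_rw 5 [e]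
    generalize ((2⁻¹ : ℂ) • b + star ((2⁻¹ : ℂ) • b)) = u
    generalize ((-Complex.I / 2) • b + star ((-Complex.I / 2) • b)) = v
    simp only [T, map_add, map_smul, mul_add, add_mul, mul_smul_comm, smul_mul_assoc, smul_eq_mul]
    module
  refine ⟨ρ', fun b => by simpa [hρ'] using hρ.2 (b : A⁺¹), fun h => ?_, fun F ε hε => ?_⟩
  · have h1 : ρ (R x) = 0 := by rw [← hρ', h]; rfl
    rw [map_add, h1, hρ.1, add_zero, Complex.one_re] at hρw
    linarith
  · obtain ⟨n, hn⟩ := ((eventually_all_finset F).2 fun b _ =>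
      NormedAddGroup.tendsto_nhds_zero.1 (key2 b) ε hε).exists
    exact ⟨z n, hz1 n, fun b hb => (hn b hb).le⟩

end Vale.Agent.P095
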