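import Vale.Agent.P095.Mult
import Vale.Agent.P101.Inter

/-! Equivariant one-sided intertwining in the multiplier algebra. -/

namespace Vale.Agent.P095

open scoped CStarAlgebra MultiplierAlgebra
open Filter Topology

universe u

namespace Itw

lemma shift_geo {Y : Type*} [PseudoMetricSpace Y] {f : ℕ → Y} {N : ℕ}
    (h : ∀ n, N ≤ n → dist (f n) (f (n + 1)) ≤ (1 / 2 : ℝ) ^ n) (n : ℕ) :
    dist (f (n + N)) (f (n + 1 + N)) ≤ (1 / 2 : ℝ) ^ N * (1 / 2 : ℝ) ^ n := by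
  have := h (n + N) (by omega)
  rwa [pow_add, mul_comm, show n + N + 1 = n + 1 + N by omega] at this

lemma cauchy_of_dense {X Y : Type*} [PseudoMetricSpace X] [PseudoMetricSpace Y] (L : ℕ → X → Y)
    (hL : ∀ n x y, dist (L n x) (L n y) ≤ dist x y) {d : ℕ → X} (hd : DenseRange d)
    (h : ∀ k, ∃ N, ∀ n, N ≤ n → dist (L n (d k)) (L (n + 1) (d k)) ≤ (1 / 2 : ℝ) ^ n) (x : X) :
    CauchySeq fun n => L n x := by
  rw [Metric.cauchySeq_iff']
  intro ε hε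
  obtain ⟨k, hk⟩ := hd.exists_dist_lt x (show 0 < ε / 3 by positivity)
  obtain ⟨N, hN⟩ := h k
  have hc : CauchySeq fun n => L n (d k) := (cauchySeq_shift N).1
    (cauchySeq_of_le_geometric (1 / 2) _ (by norm_num) (shift_geo (f := fun n => L n (d k)) hN))
  obtain ⟨M, hM⟩ := Metric.cauchySeq_iff'.1 hc (ε / 3) (by positivity)
  refine ⟨M, fun n hn => ?_⟩
  have h1 := hL n x (d k)
  have h2 := hL M (d k) x
  have h3 := hM n hn
  have h4 := dist_triangle4 (L n x) (L n (d k)) (L M (d k)) (L M x)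
  rw [dist_comm (d k) x] at h2
  linarith

lemma tail_le {Y : Type*} [PseudoMetricSpace Y] {f : ℕ → Y} {N : ℕ} {a : Y}
    (h : ∀ n, N ≤ n → dist (f n) (f (n + 1)) ≤ (1 / 2 : ℝ) ^ n) (ha : Tendsto f atTop (𝓝 a)) :
    dist (f N) a ≤ 2 * (1 / 2 : ℝ) ^ N := by
  have := dist_le_of_le_geometric_of_tendsto₀ (1 / 2) _ (by norm_num) (shift_geo h)
    ((tendsto_add_atTop_iff_nat N).2 ha)
  rw [zero_add] at this
  refine this.trans (le_of_eq ?_)
  ring

variable {B : Type u} [NonUnitalCStarAlgebra B]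

/-- bounded left strict convergence -/
def SL (m : ℕ → 𝓜(ℂ, B)) (l : 𝓜(ℂ, B)) : Prop :=
  (∃ C, ∀ n, ‖m n‖ ≤ C) ∧ ∀ b, Tendsto (fun n => (m n).fst b) atTop (𝓝 (l.fst b))

lemma SL.unique {m : ℕ → 𝓜(ℂ, B)} {l l' : 𝓜(ℂ, B)} (h : SL m l) (h' : SL m l') : l = l' :=
  Mu.ext_fst fun b => tendsto_nhds_unique (h.2 b) (h'.2 b)

lemma SL.mul {m m' : ℕ → 𝓜(ℂ, B)} {l l' : 𝓜(ℂ, B)} (h : SL m l) (h' : SL m' l') :
    SL (fun n => m n * m' n) (l * l') := by
  obtain ⟨⟨C, hC⟩, h⟩ := h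
  obtain ⟨⟨C', hC'⟩, h'⟩ := h'
  refine ⟨⟨C * C', fun n => (norm_mul_le _ _).trans
    (mul_le_mul (hC n) (hC' n) (norm_nonneg _) ((norm_nonneg _).trans (hC n)))⟩, fun b => ?_⟩
  have h1 : Tendsto (fun n => (m n).fst ((m' n).fst b - l'.fst b)) atTop (𝓝 0) := by
    have h2 := (tendsto_iff_norm_sub_tendsto_zero.1 (h' b)).const_mul C
    rw [mul_zero] at h2
    refine squeeze_zero_norm (fun n => ((m n).fst.le_opNorm _).trans ?_) h2
    rw [DoubleCentralizer.norm_fst]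
    exact mul_le_mul_of_nonneg_right (hC n) (norm_nonneg _)
  have := h1.add (h (l'.fst b))
  rw [zero_add] at this
  exact this.congr fun n => by simp

lemma SL.ext {m : ℕ → 𝓜(ℂ, B)} {l : 𝓜(ℂ, B)} (h : SL m l) (e : B ≃⋆ₐ[ℂ] B) :
    SL (fun n => Mu.ext e (m n)) (Mu.ext e l) := by
  obtain ⟨⟨C, hC⟩, h⟩ := h
  exact ⟨⟨C, fun n => (NonUnitalStarAlgHom.norm_apply_le (Mu.ext e) _).trans (hC n)⟩,
    fun b => ((Mu.eL e).continuous.tendsto _).comp (h (e.symm b))⟩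

lemma SL.of_tendsto {m : ℕ → B} {l : B} (h : Tendsto m atTop (𝓝 l)) :
    SL (fun n => (m n : 𝓜(ℂ, B))) l := by
  obtain ⟨C, hC⟩ := h.norm.bddAbove_range
  exact ⟨⟨C, fun n => by rw [Mu.norm_coe]; exact hC ⟨n, rfl⟩⟩, fun b => h.mul_const b⟩

lemma SL.const (l : 𝓜(ℂ, B)) : SL (fun _ => l) l := ⟨⟨_, fun _ => le_rfl⟩, fun _ => tendsto_const_nhds⟩

lemma norm_unitary_le {u : 𝓜(ℂ, B)} (hu : u ∈ unitary 𝓜(ℂ, B)) : ‖u‖ ≤ 1 := by
  have := CStarRing.norm_coe_unitary_mul ⟨u, hu⟩ (1 : 𝓜(ℂ, B))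
  rw [mul_one] at this
  exact this.le.trans P101.norm_one_le

/-- pointwise limit of contractions -/
lemma exists_clm {L : ℕ → B →L[ℂ] B} (hL : ∀ n, ‖L n‖ ≤ 1) (h : ∀ b, CauchySeq fun n => L n b) :
    ∃ l : B →L[ℂ] B, ∀ b, Tendsto (fun n => L n b) atTop (𝓝 (l b)) := by
  choose f hf using fun b => cauchySeq_tendsto_of_complete (h b)
  refine ⟨LinearMap.mkContinuous
    { toFun := f
      map_add' := fun x y => tendsto_nhds_unique (hf _) (((hf x).add (hf y)).congr fun n => by simp)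
      map_smul' := fun c x => tendsto_nhds_unique (hf _)
        (((hf x).const_smul c).congr fun n => by simp) } 1 fun b => ?_, hf⟩
  exact le_of_tendsto' (hf b).norm fun n => ((L n).le_opNorm b).trans
    (mul_le_mul_of_nonneg_right (hL n) (norm_nonneg _))

lemma exists_lim {u : ℕ → 𝓜(ℂ, B)} (hu : ∀ n, u n ∈ unitary 𝓜(ℂ, B))
    (h1 : ∀ b, CauchySeq fun n => (u n).fst b) (h2 : ∀ b, CauchySeq fun n => (u n).snd b) :
    ∃ l ∈ unitary 𝓜(ℂ, B), SL u l ∧ SL (fun n => star (u n)) (star l) := by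
  obtain ⟨f, hf⟩ := exists_clm
    (fun n => by rw [DoubleCentralizer.norm_fst]; exact norm_unitary_le (hu n)) h1
  obtain ⟨g, hg⟩ := exists_clm
    (fun n => by rw [DoubleCentralizer.norm_snd]; exact norm_unitary_le (hu n)) h2
  let l : 𝓜(ℂ, B) :=
    { fst := f
      snd := g
      central := fun x y => tendsto_nhds_unique ((hg x).mul_const y)
        (((hf y).const_mul x).congr fun n => ((u n).central x y).symm) }
  have s1 : SL u l := ⟨⟨1, fun n => norm_unitary_le (hu n)⟩, hf⟩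
  have s2 : SL (fun n => star (u n)) (star l) :=
    ⟨⟨1, fun n => by rw [norm_star]; exact norm_unitary_le (hu n)⟩, fun b => (hg (star b)).star⟩
  refine ⟨l, ⟨?_, ?_⟩, s1, s2⟩
  · refine (s2.mul s1).unique ?_
    simp only [(hu _).1]
    exact SL.const 1
  · refine (s1.mul s2).unique ?_
    simp only [(hu _).2]
    exact SL.const 1

/-- conjugation of an element by a multiplier -/
noncomputable def cj (w : 𝓜(ℂ, B)) (b : B) : B := w.fst ((star w).snd b)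

lemma coe_cj (w : 𝓜(ℂ, B)) (b : B) : ((cj w b : B) : 𝓜(ℂ, B)) = w * b * star w := by
  rw [cj, Mu.coe_fst, Mu.coe_snd, mul_assoc]

lemma dist_coe (a b : B) : dist a b = ‖(a : 𝓜(ℂ, B)) - b‖ := by
  rw [dist_eq_norm, ← Mu.coe_sub, Mu.norm_coe]

lemma ext_mem (e : B ≃⋆ₐ[ℂ] B) {w : 𝓜(ℂ, B)} (hw : w ∈ unitary 𝓜(ℂ, B)) :
    Mu.ext e w ∈ unitary 𝓜(ℂ, B) := by
  constructor
  · rw [← map_star, ← map_mul, hw.1, map_one]
  · rw [← map_star, ← map_mul, hw.2, map_one]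

lemma norm_ul {w : 𝓜(ℂ, B)} (hw : w ∈ unitary 𝓜(ℂ, B)) (x : 𝓜(ℂ, B)) : ‖w * x‖ = ‖x‖ :=
  CStarRing.norm_coe_unitary_mul ⟨w, hw⟩ x

lemma norm_ur {w : 𝓜(ℂ, B)} (hw : w ∈ unitary 𝓜(ℂ, B)) (x : 𝓜(ℂ, B)) : ‖x * w‖ = ‖x‖ :=
  CStarRing.norm_mul_coe_unitary x ⟨w, hw⟩

/-- the approximate cocycle -/
noncomputable def co (e : B ≃⋆ₐ[ℂ] B) (w : 𝓜(ℂ, B)) : 𝓜(ℂ, B) := w * Mu.ext e (star w)

lemma co_mem (e : B ≃⋆ₐ[ℂ] B) {w : 𝓜(ℂ, B)} (hw : w ∈ unitary 𝓜(ℂ, B)) :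
    co e w ∈ unitary 𝓜(ℂ, B) := mul_mem hw (ext_mem e (Unitary.star_mem hw))

lemma co_fst (e : B ≃⋆ₐ[ℂ] B) {w v : 𝓜(ℂ, B)} (hw : w ∈ unitary 𝓜(ℂ, B))
    (hv : v ∈ unitary 𝓜(ℂ, B)) (b : B) : dist ((co e w).fst b) ((co e (w * v)).fst b) =
      ‖e ((star v).fst (e.symm ((Mu.ext e (star w)).fst b))) -
        (star v).fst ((Mu.ext e (star w)).fst b)‖ := by
  rw [← Mu.ext_fst_apply, ← Mu.norm_coe, Mu.coe_sub, dist_comm, dist_coe]
  simp only [Mu.coe_fst]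
  rw [← norm_ul (mul_mem hw hv)
    (Mu.ext e (star v) * (Mu.ext e (star w) * b) - star v * (Mu.ext e (star w) * b))]
  congr 1
  simp only [co, star_mul, map_mul, mul_sub, mul_assoc]
  rw [← mul_assoc v (star v), hv.2, one_mul]

lemma co_snd (e : B ≃⋆ₐ[ℂ] B) {w v : 𝓜(ℂ, B)} (hw : w ∈ unitary 𝓜(ℂ, B))
    (hv : v ∈ unitary 𝓜(ℂ, B)) (b : B) : dist ((co e w).snd b) ((co e (w * v)).snd b) =
      ‖e ((star v).fst (e.symm ((star w).fst (star b)))) -
        (star v).fst ((star w).fst (star b))‖ := by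
  rw [← Mu.ext_fst_apply, ← Mu.norm_coe, Mu.coe_sub, dist_coe, ← norm_star]
  simp only [Mu.coe_fst, Mu.coe_snd, Mu.coe_star]
  rw [← norm_ul (ext_mem e (mul_mem hw hv))
    (Mu.ext e (star v) * (star w * star (b : 𝓜(ℂ, B))) - star v * (star w * star (b : 𝓜(ℂ, B))))]
  congr 1
  simp only [co, star_mul, star_sub, map_mul, mul_sub, mul_assoc, ← map_star, star_star]
  rw [← mul_assoc (Mu.ext e v) (Mu.ext e (star v)), ← map_mul, hv.2, map_one, one_mul]

end Itw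

open Itw

variable {G : Type*} [Group G] {A : Type u} [NonUnitalCStarAlgebra A] {B : Type*}
  [NonUnitalCStarAlgebra B]

lemma Itw.step {β : G →* (B ≃⋆ₐ[ℂ] B)} {φ : A →⋆ₙₐ[ℂ] B} (H : Appr β φ) (a : ℕ → A) (b : ℕ → B)
    (γ : ℕ → G) (n : ℕ) (s : unitary 𝓜(ℂ, B) × Finset A) :
    ∃ s' : unitary 𝓜(ℂ, B) × Finset A, s.2 ⊆ s'.2 ∧ a n ∈ s'.2 ∧
      (∀ x ∈ s.2, dist (cj s.1.1 (φ x)) (cj s'.1.1 (φ x)) ≤ (1 / 2 : ℝ) ^ n) ∧
      (∀ j ≤ n, ∃ x ∈ s'.2, dist (cj s'.1.1 (φ x)) (b j) ≤ (1 / 2 : ℝ) ^ n) ∧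
      ∀ i ≤ n, ∀ j ≤ n,
        dist ((co (β (γ i)) s.1.1).fst (b j)) ((co (β (γ i)) s'.1.1).fst (b j)) ≤ (1 / 2 : ℝ) ^ n ∧
        dist ((co (β (γ i)) s.1.1).snd (b j)) ((co (β (γ i)) s'.1.1).snd (b j)) ≤ (1 / 2 : ℝ) ^ n := by
  classical
  obtain ⟨⟨w, hw⟩, F⟩ := s
  set R := Finset.range (n + 1) with hR
  have hm : ∀ {j}, j ≤ n → j ∈ R := fun h => Finset.mem_range.2 (Nat.lt_succ_of_le h)
  obtain ⟨v, hv, h1, h2, h3⟩ := H F ((R.image fun j => cj (star w) (b j)) ∪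
    ((R ×ˢ R).image fun p => (Mu.ext (β (γ p.1)) (star w)).fst (b p.2)) ∪
    R.image fun j => (star w).fst (star (b j))) (R.image γ) ((1 / 2 : ℝ) ^ n) (by positivity)
  have h4 : ∀ j, ∃ x, j ≤ n →
      ‖v * (φ x : 𝓜(ℂ, B)) * star v - ((cj (star w) (b j) : B) : 𝓜(ℂ, B))‖ ≤ (1 / 2 : ℝ) ^ n := fun j => by
    by_cases hj : j ≤ n
    · obtain ⟨x, hx⟩ := h2 _ (Finset.mem_union_left _ (Finset.mem_union_left _
        (Finset.mem_image_of_mem _ (hm hj))))
      exact ⟨x, fun _ => hx⟩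
    · exact ⟨0, fun h => absurd h hj⟩
  choose c hc using h4
  refine ⟨(⟨w * v, mul_mem hw hv⟩, F ∪ insert (a n) (R.image c)), Finset.subset_union_left,
    by simp, fun x hx => ?_, fun j hj => ⟨c j, ?_, ?_⟩, fun i hi j hj => ⟨?_, ?_⟩⟩
  · have := P101.norm_conj_unitary ⟨w, hw⟩ (v * (φ x : 𝓜(ℂ, B)) * star v - (φ x : 𝓜(ℂ, B)))
    refine le_trans (le_of_eq ?_) (this.le.trans (h1 x hx))
    rw [dist_comm, dist_coe, coe_cj, coe_cj]
    congr 1
    simp only [star_mul]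
    noncomm_ring
  · exact Finset.mem_union_right _ (Finset.mem_insert_of_mem (Finset.mem_image_of_mem _ (hm hj)))
  · have := P101.norm_conj_unitary ⟨w, hw⟩
      (v * (φ (c j) : 𝓜(ℂ, B)) * star v - ((cj (star w) (b j) : B) : 𝓜(ℂ, B)))
    refine le_trans (le_of_eq ?_) (this.le.trans (hc j hj))
    rw [dist_coe, coe_cj, coe_cj]
    congr 1
    have e : (b j : 𝓜(ℂ, B)) = w * (star w * (b j : 𝓜(ℂ, B)) * w) * star w := by
      calc (b j : 𝓜(ℂ, B)) = (w * star w) * b j * (w * star w) := by simp [hw.2]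
        _ = _ := by noncomm_ring
    dsimp only
    rw [star_star, mul_sub, sub_mul, ← e]
    simp only [star_mul, mul_assoc]
  · rw [co_fst _ hw hv]
    refine h3 _ (Finset.mem_image_of_mem _ (hm hi)) _ (Finset.mem_union_left _
      (Finset.mem_union_right _ ?_))
    exact Finset.mem_image.2 ⟨(i, j), Finset.mem_product.2 ⟨hm hi, hm hj⟩, rfl⟩
  · rw [co_snd _ hw hv]
    exact h3 _ (Finset.mem_image_of_mem _ (hm hi)) _ (Finset.mem_union_right _
      (Finset.mem_image_of_mem _ (hm hj)))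

theorem intertwine [TopologicalSpace.SeparableSpace A] [TopologicalSpace.SeparableSpace B]
    [Countable G] {α : G →* (A ≃⋆ₐ[ℂ] A)} {β : G →* (B ≃⋆ₐ[ℂ] B)} {φ : A →⋆ₙₐ[ℂ] B}
    (hφ : Function.Injective φ) (he : ∀ g a, β g (φ a) = φ (α g a)) (H : Appr β φ) :
    CocycleConj α β := by
  obtain ⟨a, ha⟩ := TopologicalSpace.exists_dense_seq A
  obtain ⟨b, hb⟩ := TopologicalSpace.exists_dense_seq B
  obtain ⟨γ, hγ⟩ := exists_surjective_nat G
  have hiso : ∀ x, ‖φ x‖ = ‖x‖ := NonUnitalStarAlgHom.norm_map φ hφ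
  choose st hst using Itw.step H a b γ
  let s : ℕ → unitary 𝓜(ℂ, B) × Finset A := fun n => Nat.rec (1, ∅) st n
  let w : ℕ → 𝓜(ℂ, B) := fun n => (s n).1.1
  have hw : ∀ n, w n ∈ unitary 𝓜(ℂ, B) := fun n => (s n).1.2
  let T : ℕ → A → B := fun n x => cj (w n) (φ x)
  have hTc : ∀ n x, (T n x : 𝓜(ℂ, B)) = w n * (φ x : 𝓜(ℂ, B)) * star (w n) := fun n x => coe_cj _ _
  have hmono : Monotone fun n => (s n).2 := monotone_nat_of_le_succ fun n => (hst n (s n)).1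
  have hT : ∀ N x, x ∈ (s N).2 → ∀ m, N ≤ m → dist (T m x) (T (m + 1) x) ≤ (1 / 2 : ℝ) ^ m :=
    fun N x hx m hm => (hst m (s m)).2.2.1 x (hmono hm hx)
  have hTn : ∀ n x, ‖T n x‖ = ‖x‖ := fun n x => by
    rw [← Mu.norm_coe, hTc, norm_ur (Unitary.star_mem (hw n)), norm_ul (hw n), Mu.norm_coe, hiso]
  have hTs : ∀ n x y, T n (x - y) = T n x - T n y := fun n x y => Mu.coe_injective (by
    simp only [Mu.coe_sub, hTc, map_sub]; noncomm_ring)
  have hcau : ∀ x, CauchySeq fun n => T n x := cauchy_of_dense T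
    (fun n x y => by rw [dist_eq_norm, ← hTs, hTn, dist_eq_norm]) ha
    fun k => ⟨k + 1, hT _ _ (hst k (s k)).2.1⟩
  choose ψ hψ using fun x => cauchySeq_tendsto_of_complete (hcau x)
  have hsm : ∀ (c : ℂ) x, ψ (c • x) = c • ψ x := fun c x =>
    tendsto_nhds_unique (hψ _) (((hψ x).const_smul c).congr fun n => Mu.coe_injective (by
      simp only [Mu.coe_smul, hTc, map_smul]; simp))
  let Ψ : A →⋆ₙₐ[ℂ] B :=
    { toFun := ψ
      map_smul' := hsm
      map_mul' := fun x y => tendsto_nhds_unique (hψ _) (((hψ x).mul (hψ y)).congr fun n =>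
        Mu.coe_injective (by
          simp only [Mu.coe_mul, hTc, map_mul]
          calc _ = w n * (φ x : 𝓜(ℂ, B)) * (star (w n) * w n) * (φ y : 𝓜(ℂ, B)) * star (w n) := by
                noncomm_ring
            _ = _ := by rw [(hw n).1]; noncomm_ring))
      map_zero' := by simpa using hsm 0 0
      map_add' := fun x y => tendsto_nhds_unique (hψ _) (((hψ x).add (hψ y)).congr fun n =>
        Mu.coe_injective (by simp only [Mu.coe_add, hTc, map_add]; noncomm_ring))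
      map_star' := fun x => tendsto_nhds_unique (hψ _) ((hψ x).star.congr fun n =>
        Mu.coe_injective (by
          simp only [Mu.coe_star, hTc, map_star, star_mul, star_star, mul_assoc])) }
  have hΨn : ∀ x, ‖Ψ x‖ = ‖x‖ := fun x => tendsto_nhds_unique (hψ x).norm
    (tendsto_const_nhds.congr fun n => (hTn n x).symm)
  have hΨi : Isometry Ψ := AddMonoidHomClass.isometry_of_norm Ψ hΨn
  have hsurj : Function.Surjective Ψ := by
    have hcl : IsClosed (Set.range Ψ) := hΨi.isClosedEmbedding.isClosed_range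
    intro y
    change y ∈ Set.range Ψ
    rw [← hcl.closure_eq, Metric.mem_closure_iff]
    intro ε hε
    obtain ⟨j, hj⟩ := hb.exists_dist_lt y (show 0 < ε / 4 by positivity)
    obtain ⟨N, hN, hN'⟩ := ((eventually_ge_atTop j).and ((tendsto_pow_atTop_nhds_zero_of_lt_one
      (show (0 : ℝ) ≤ 1 / 2 by norm_num) (by norm_num)).eventually
        (gt_mem_nhds (show 0 < ε / 4 by positivity)))).exists
    obtain ⟨x, hx, hx'⟩ := (hst N (s N)).2.2.2.1 j hN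
    refine ⟨Ψ x, ⟨x, rfl⟩, ?_⟩
    have h1 : dist (T (N + 1) x) (Ψ x) ≤ 2 * (1 / 2 : ℝ) ^ (N + 1) :=
      tail_le (f := fun n => T n x) (hT (N + 1) x hx) (hψ x)
    have h2 : dist (T (N + 1) x) (b j) ≤ (1 / 2 : ℝ) ^ N := hx'
    have h3 := dist_triangle4 y (b j) (T (N + 1) x) (Ψ x)
    rw [dist_comm (b j)] at h3
    rw [pow_succ] at h1
    linarith
  have hlim : ∀ g, ∃ l ∈ unitary 𝓜(ℂ, B), SL (fun n => co (β g) (w n)) l ∧
      SL (fun n => star (co (β g) (w n))) (star l) := fun g => by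
    obtain ⟨i, rfl⟩ := hγ g
    have hc := fun n => co_mem (β (γ i)) (hw n)
    refine Itw.exists_lim hc (cauchy_of_dense (fun n x => (co (β (γ i)) (w n)).fst x) (fun n x y => ?_)
      hb fun k => ⟨max i k, fun n hn => ((hst n (s n)).2.2.2.2 i (le_of_max_le_left hn) k
        (le_of_max_le_right hn)).1⟩)
      (cauchy_of_dense (fun n x => (co (β (γ i)) (w n)).snd x) (fun n x y => ?_)
      hb fun k => ⟨max i k, fun n hn => ((hst n (s n)).2.2.2.2 i (le_of_max_le_left hn) k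
        (le_of_max_le_right hn)).2⟩)
    · refine ((co (β (γ i)) (w n)).fst.dist_le_opNorm x y).trans ?_
      rw [DoubleCentralizer.norm_fst]
      exact mul_le_of_le_one_left dist_nonneg (norm_unitary_le (hc n))
    · refine ((co (β (γ i)) (w n)).snd.dist_le_opNorm x y).trans ?_
      rw [DoubleCentralizer.norm_snd]
      exact mul_le_of_le_one_left dist_nonneg (norm_unitary_le (hc n))
  choose u hu hu1 hu2 using hlim
  refine ⟨StarAlgEquiv.ofBijective Ψ ⟨hΨi.injective, hsurj⟩, u, hu, fun g h x => ?_,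
    fun g x => ?_⟩
  · have : u (g * h) = u g * Mu.ext (β g) (u h) := by
      refine (hu1 (g * h)).unique ?_
      have e : ∀ n, co (β (g * h)) (w n) = co (β g) (w n) * Mu.ext (β g) (co (β h) (w n)) := by
        intro n
        have e1 : Mu.ext (β g) (star (w n)) * Mu.ext (β g) (w n) = 1 := by
          rw [← map_mul, (hw n).1, map_one]
        rw [co, co, co, Mu.ext_mul, map_mul (Mu.ext (β g)), mul_assoc,
          ← mul_assoc (Mu.ext (β g) (star (w n))), e1, one_mul]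
      simp only [e]
      exact (hu1 g).mul ((hu1 h).ext _)
    rw [this]
    rfl
  · change (ψ (α g x) : 𝓜(ℂ, B)) = u g * (β g (ψ x) : 𝓜(ℂ, B)) * star (u g)
    refine (SL.of_tendsto (hψ (α g x))).unique ?_
    have e : ∀ n, (T n (α g x) : 𝓜(ℂ, B)) =
        co (β g) (w n) * Mu.ext (β g) (T n x : 𝓜(ℂ, B)) * star (co (β g) (w n)) := by
      intro n
      have e1 : Mu.ext (β g) (star (w n)) * Mu.ext (β g) (w n) = 1 := by
        rw [← map_mul, (hw n).1, map_one]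
      simp only [co, hTc, map_mul, star_mul, ← map_star, star_star, Mu.ext_coe, he]
      calc _ = w n * (Mu.ext (β g) (star (w n)) * Mu.ext (β g) (w n)) * (φ (α g x) : 𝓜(ℂ, B)) *
            (Mu.ext (β g) (star (w n)) * Mu.ext (β g) (w n)) * star (w n) := by
            rw [e1, mul_one, mul_one]
        _ = _ := by noncomm_ring
    simp only [e]
    rw [← Mu.ext_coe]
    exact ((hu1 g).mul ((SL.of_tendsto (hψ x)).ext _)).mul (hu2 g)

end Vale.Agent.P095
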