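import Vale.Agent.P095.Model
import Vale.Agent.P095.Defs

/-! Maps between models, commuting pairs and ultraproducts. -/

namespace Vale.Agent.P095

open scoped CStarAlgebra
open Filter Topology
open Vale.Agent.P101

attribute [local instance] CStarAlgebra.spectralOrder CStarAlgebra.spectralOrderedRing

universe u v

variable {G : Type*} [Group G] {A : Type*} [NonUnitalCStarAlgebra A] {X : GAlg.{u} G}
  {S : Sys A X} {I J : Type} {U : Ultrafilter I} {W : Ultrafilter J} {D : GAlg.{u} G}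
  {ι : (Cen S U).E →⋆ₐ[ℂ] D.E}

lemma IsModel.eq_zero (h : IsModel ι) {x : (Cen S U).E}
    (hx : ∀ a, Tendsto (fun i => x i * S.φ a) U (𝓝 0)) : ι x = 0 :=
  norm_le_zero_iff.1 (h.ge x 0 le_rfl fun a _ _ hε => ev_le (hx a).norm (by simp) hε)

lemma IsModel.tend (h : IsModel ι) {x : (Cen S U).E} (hx : ι x = 0) (a : A) :
    Tendsto (fun i => x i * S.φ a) U (𝓝 0) := by
  rw [NormedAddGroup.tendsto_nhds_zero]
  intro ε hε
  filter_upwards [h.le x a _ (half_pos hε)] with i hi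
  rw [hx, norm_zero, zero_mul, zero_add] at hi
  linarith

lemma IsModel.ext (h : IsModel ι) {x y : (Cen S U).E}
    (hx : ∀ a, Tendsto (fun i => (x i - y i) * S.φ a) U (𝓝 0)) : ι x = ι y := by
  rw [← sub_eq_zero, ← map_sub]; exact h.eq_zero hx

lemma IsModel.lift (h : IsModel ι) (y : D.E) : ∃ x, ι x = y ∧ ∀ i, ‖x i‖ ≤ ‖y‖ := by
  obtain ⟨x, h1, h2⟩ := exists_lift_le h.surj y
  exact ⟨x, h1, fun i => (Cen.norm_apply_le x i).trans h2⟩

/-- the class of models -/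
def Mod (S : Sys A X) : Set (GAlg.{u} G) :=
  {D | ∃ (I : Type) (U : Ultrafilter I) (ι : (Cen S U).E →⋆ₐ[ℂ] D.E), IsModel ι}

section pull
variable {X' : GAlg.{v} G} {S' : Sys A X'}

/-- reindexing and change of coefficients -/
noncomputable def pull (f : X.E →⋆ₐ[ℂ] X'.E) (hf : ∀ a, f (S.φ a) = S'.φ a) {g : J → I}
    (hg : Tendsto g W U) : (Cen S U).E →⋆ₐ[ℂ] (Cen S' W).E :=
  (Prd.hom fun j => f.comp (Cen.ev (g j))).codRestrict (cenS S' W) fun x a => by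
    have h1 := (((map_continuous f).tendsto 0).comp (Cen.comm x a)).comp hg
    rw [map_zero] at h1
    refine h1.congr fun j => ?_
    simp only [Function.comp, map_sub, map_mul, hf]
    rfl

lemma pull_apply (f : X.E →⋆ₐ[ℂ] X'.E) (hf : ∀ a, f (S.φ a) = S'.φ a) {g : J → I}
    (hg : Tendsto g W U) (x : (Cen S U).E) (j : J) : pull f hf hg x j = f (x (g j)) := rfl

theorem lift_model (f : X.E →⋆ₐ[ℂ] X'.E) (hf : ∀ a, f (S.φ a) = S'.φ a) (hfe : Eqv f) {g : J → I}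
    (hg : Tendsto g W U) {D' : GAlg.{v} G} {ι' : (Cen S' W).E →⋆ₐ[ℂ] D'.E} (h : IsModel ι)
    (h' : IsModel ι') : ∃ j : D.E →⋆ₐ[ℂ] D'.E, Eqv j ∧ ∀ x, j (ι x) = ι' (pull f hf hg x) := by
  obtain ⟨j, hj⟩ := exists_desc h.surj (ι'.comp (pull f hf hg)) fun x hx => h'.eq_zero fun a => by
    have h1 := (((map_continuous f).tendsto 0).comp (h.tend hx a)).comp hg
    rw [map_zero] at h1
    refine h1.congr fun j => ?_
    simp only [Function.comp, map_mul, hf]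
    rfl
  refine ⟨j, fun g x => ?_, hj⟩
  obtain ⟨x, rfl⟩ := h.surj x
  rw [← h.eqv, hj, hj, StarAlgHom.comp_apply, StarAlgHom.comp_apply, ← h'.eqv]
  congr 1
  exact Cen.ext fun j => hfe _ _

end pull

theorem exists_upow (E : Type u) [CStarAlgebra E] (U : Ultrafilter I) :
    ∃ (P : Type u) (_ : CStarAlgebra P) (π : (Prd fun _ : I => E) →⋆ₐ[ℂ] P),
      ∀ x, Tendsto (fun i => ‖x i‖) U (𝓝 ‖π x‖) := by
  have hL : ∀ x : Prd fun _ : I => E, Tendsto (fun i => ‖x i‖) U (𝓝 (limUnder U fun i => ‖x i‖)) :=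
    fun x => bdd_tendsto U fun i => (abs_of_nonneg (norm_nonneg _)).trans_le (x.norm_apply_le i)
  have h : IsCSemi fun x : Prd fun _ : I => E => limUnder U fun i => ‖x i‖ :=
    { zero := tendsto_nhds_unique (hL 0) (by simp)
      add := fun x y => le_of_tendsto_of_tendsto' (hL _) ((hL x).add (hL y)) fun i =>
        norm_add_le _ _
      smul := fun c x => le_of_tendsto_of_tendsto' (hL _) ((hL x).const_mul _) fun i =>
        norm_smul_le _ _
      mul := fun x y => le_of_tendsto_of_tendsto' (hL _) ((hL x).mul (hL y)) fun i =>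
        norm_mul_le _ _
      cstar := fun x => le_of_tendsto_of_tendsto' ((hL x).mul (hL x)) (hL _) fun i =>
        CStarRing.norm_star_mul_self.ge }
  obtain ⟨P, _, π, h1, -⟩ := exists_completion h
  exact ⟨P, inferInstance, π, fun x => h1 x ▸ hL x⟩

/-- constant sequences -/
noncomputable def Prd.cst (I : Type*) (E : Type*) [CStarAlgebra E] : E →⋆ₐ[ℂ] Prd fun _ : I => E :=
  Prd.hom fun _ => StarAlgHom.id ℂ E

@[simp] lemma Prd.cst_apply {I E : Type*} [CStarAlgebra E] (x : E) (i : I) : Prd.cst I E x i = x :=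
  rfl

/-- the underlying sequence as a homomorphism -/
noncomputable def Cen.val : (Cen S U).E →⋆ₐ[ℂ] Prd fun _ : I => X.E := (cenS S U).subtype

@[simp] lemma Cen.val_apply (x : (Cen S U).E) (i : I) : Cen.val x i = x i := rfl

/-- exact form of a model -/
structure Exact (ι : (Cen S U).E →⋆ₐ[ℂ] D.E) {P : Type u} [CStarAlgebra P]
    (π : (Prd fun _ : I => X.E) →⋆ₐ[ℂ] P) (c : X.E →⋆ₐ[ℂ] P) (γ : (Cen S U).E →⋆ₐ[ℂ] P) : Prop where
  tend : ∀ x, Tendsto (fun i => ‖x i‖) U (𝓝 ‖π x‖)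
  hc : ∀ x, c x = π (Prd.cst I X.E x)
  hγ : ∀ x, γ x = π (Cen.val x)
  norm_c : ∀ x, ‖c x‖ = ‖x‖
  comm : ∀ x a, Commute (γ x) (c (S.φ a))
  congr : ∀ x y a, ι x = ι y → γ x * c (S.φ a) = γ y * c (S.φ a)
  eq_zero : ∀ x, (∀ a, γ x * c (S.φ a) = 0) → ι x = 0
  le : ∀ x a, ‖γ x * c (S.φ a)‖ ≤ ‖ι x‖ * ‖a‖

theorem IsModel.exact (h : IsModel ι) : ∃ (P : Type u) (_ : CStarAlgebra P)
    (π : (Prd fun _ : I => X.E) →⋆ₐ[ℂ] P) (c : X.E →⋆ₐ[ℂ] P) (γ : (Cen S U).E →⋆ₐ[ℂ] P),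
    Exact ι π c γ := by
  obtain ⟨P, _, π, hπ⟩ := exists_upow X.E U
  have h0 : ∀ x, Tendsto (fun i => x i) U (𝓝 0) → π x = 0 := fun x hx =>
    norm_eq_zero.1 (tendsto_nhds_unique (hπ x) (by simpa using hx.norm))
  refine ⟨P, inferInstance, π, π.comp (Prd.cst I X.E), π.comp Cen.val, hπ, fun _ => rfl,
    fun _ => rfl, fun x => tendsto_nhds_unique (hπ _) (by simp), fun x a => ?_,
    fun x y a hxy => ?_, fun x hx => h.eq_zero fun a => ?_, fun x a => ?_⟩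
  · rw [Commute, SemiconjBy, ← sub_eq_zero]
    simp only [StarAlgHom.comp_apply, ← map_mul, ← map_sub]
    exact h0 _ (Cen.comm x a)
  · rw [← sub_eq_zero, ← sub_mul, ← map_sub]
    simp only [StarAlgHom.comp_apply, ← map_mul]
    exact h0 _ (h.tend (by rw [map_sub, hxy, sub_self]) a)
  · have h1 := hπ (Cen.val x * Prd.cst I X.E (S.φ a))
    rw [map_mul, show π (Cen.val x) * π (Prd.cst I X.E (S.φ a)) = 0 from hx a, norm_zero] at h1
    exact tendsto_zero_iff_norm_tendsto_zero.2 h1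
  · have h1 := hπ (Cen.val x * Prd.cst I X.E (S.φ a))
    rw [map_mul] at h1
    exact le_of_forall_pos_le_add fun ε hε => le_of_tendsto h1 (h.le x a ε hε)

/-- `A` sits in `X` as an ideal -/
structure Sys.Good (S : Sys A X) : Prop where
  ideal : ∀ x a, ∃ b, x * S.φ a = S.φ b
  iso : ∀ a, ‖S.φ a‖ = ‖a‖
  simple : IsSimple A

lemma Sys.Good.ideal' (hS : S.Good) (x : X.E) (a : A) : ∃ b, S.φ a * x = S.φ b := by
  obtain ⟨b, hb⟩ := hS.ideal (star x) (star a)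
  exact ⟨star b, by rw [map_star, ← hb, map_star, star_mul, star_star, star_star]⟩

lemma Sys.Good.nontrivial (hS : S.Good) : Nontrivial X.E := by
  have := hS.simple.1
  obtain ⟨a, ha⟩ := exists_ne (0 : A)
  exact ⟨S.φ a, 0, fun h => ha (by rw [← norm_eq_zero, ← hS.iso, h, norm_zero])⟩

lemma simple_of {A : Type*} [NonUnitalCStarAlgebra A] (hA : IsSimple A) (s : Set A)
    (hc : IsClosed s) (h0 : (0 : A) ∈ s) (hadd : ∀ {x y}, x ∈ s → y ∈ s → x + y ∈ s)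
    (hneg : ∀ {x}, x ∈ s → -x ∈ s) (hl : ∀ {x y}, y ∈ s → x * y ∈ s)
    (hr : ∀ {x y}, x ∈ s → x * y ∈ s) {a : A} (ha : a ∈ s) (ha' : a ≠ 0) (b : A) : b ∈ s := by
  rcases hA.2 (TwoSidedIdeal.mk' s h0 hadd hneg hl hr) (by simpa using hc) with h | h
  · exact absurd (by simpa [h] using (TwoSidedIdeal.mem_mk' s h0 hadd hneg hl hr a).2 ha) ha'
  · exact (TwoSidedIdeal.mem_mk' s h0 hadd hneg hl hr b).1 (by simp [h])

lemma Exact.ne_zero {P : Type u} [CStarAlgebra P] {π : (Prd fun _ : I => X.E) →⋆ₐ[ℂ] P}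
    {c : X.E →⋆ₐ[ℂ] P} {γ : (Cen S U).E →⋆ₐ[ℂ] P} (H : Exact ι π c γ) (hA : IsSimple A)
    {y : (Cen S U).E} (hy : ι y ≠ 0) {a : A} (ha : a ≠ 0) : γ y * c (S.φ a) ≠ 0 := fun h =>
  hy (H.eq_zero y (simple_of hA {a | γ y * c (S.φ a) = 0}
    (isClosed_eq (continuous_const.mul ((map_continuous c).comp (map_continuous S.φ)))
      continuous_const) (by simp)
    (fun hx hy => by simp_all [mul_add]) (fun hx => by simp_all)
    (fun {x z} hz => by
      simp only [Set.mem_ofPred_eq, map_mul] at hz ⊢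
      rw [← mul_assoc, (H.comm y x).eq, mul_assoc, hz, mul_zero])
    (fun {x z} hz => by
      simp only [Set.mem_ofPred_eq, map_mul] at hz ⊢
      rw [← mul_assoc, hz, zero_mul]) h ha))

theorem IsModel.plateau (h : IsModel ι) (hS : S.Good) {y₁ y₂ : (Cen S U).E}
    (h1 : ι y₁ * ι y₂ = ι y₂) (h2 : ι y₂ ≠ 0) (b : A) {ε : ℝ} (hε : 0 < ε) :
    ∀ᶠ i in U, ‖b‖ ≤ ‖y₁ i * S.φ b‖ + ε := by
  obtain ⟨P, _, π, c, γ, H⟩ := h.exact
  have := hS.nontrivial
  have key : ‖b‖ ≤ ‖γ y₁ * c (S.φ b)‖ := by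
    rcases (norm_nonneg b).eq_or_lt with hb | hb
    · rw [← hb]; exact norm_nonneg _
    have h3 : ‖b‖ * ‖b‖ ≤ ‖γ y₁ * c (S.φ (b * star b))‖ := by
      set p := S.φ (b * star b) with hp
      have hp0 : 0 ≤ p := by rw [hp, map_mul, map_star]; exact mul_star_self_nonneg _
      have hpn : ‖p‖ = ‖b‖ * ‖b‖ := by rw [hp, hS.iso, CStarRing.norm_self_mul_star]
      refine le_of_forall_pos_le_add fun δ hδ => ?_
      let f : ℝ → ℝ := fun t => max 0 (t - (‖p‖ - δ))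
      let k : ℝ → ℝ := fun t => min δ (‖p‖ - t)
      have hps := hp0.isSelfAdjoint
      obtain ⟨a, ha⟩ := hS.ideal (cfc f p) (b * star b)
      have h4 : cfc (fun t => f t * t) p = S.φ a := by
        rw [cfc_mul _ _ _ (by fun_prop) (by fun_prop), cfc_id' ℝ _, ha]
      have ha0 : a ≠ 0 := by
        rintro rfl
        have h5 := norm_apply_le_norm_cfc (fun t => f t * t) p
          (CStarAlgebra.norm_mem_spectrum_of_nonneg hp0)
        rw [h4, map_zero, norm_zero, norm_le_zero_iff] at h5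
        have : 0 < f ‖p‖ * ‖p‖ := mul_pos (by simp [f, hδ]) (by rw [hpn]; positivity)
        exact this.ne' h5
      have h5 : (‖p‖ : ℂ) • S.φ a = p * S.φ a + cfc k p * S.φ a := by
        rw [← h4, ← cfc_mul _ _ _ (by fun_prop) (by fun_prop), Complex.coe_smul, ← cfc_smul _ _ _ (by fun_prop)]
        nth_rw 3 [← cfc_id' ℝ p]
        rw [← cfc_mul _ _ _ (by fun_prop) (by fun_prop), ← cfc_add _ _ _ (by fun_prop) (by fun_prop)]
        refine cfc_congr fun t _ => ?_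
        simp only [f, k, smul_eq_mul]
        rcases le_total δ (‖p‖ - t) with h | h
        · rw [max_eq_left (by linarith)]; ring
        · rw [min_eq_right h]; ring
      have h6 : ‖cfc k p‖ ≤ δ := norm_cfc_le hδ.le fun t ht => by
        have := (le_abs_self t).trans (spectrum.norm_le_norm_of_mem ht)
        rw [Real.norm_of_nonneg (le_min hδ.le (by linarith))]
        exact min_le_left _ _
      have h7 := H.ne_zero hS.simple h2 ha0
      set Z := γ y₂ * c (S.φ a)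
      have h8 : Commute (γ y₂) (c (cfc k p)) := by
        rw [map_cfc_real c hps (by fun_prop)]
        exact ((hps.map c).commute_cfc (H.comm y₂ _).symm k).symm
      have h9 : (‖p‖ : ℂ) • Z = γ y₁ * c p * Z + c (cfc k p) * Z := by
        have e1 : γ y₁ * c p * Z = γ y₂ * c (p * S.φ a) := by
          have e2 := H.congr (y₁ * y₂) y₂ (b * star b * a) (by rw [map_mul, h1])
          rw [map_mul S.φ, ← hp] at e2
          rw [← e2, map_mul γ, map_mul c, mul_assoc, mul_assoc, ← mul_assoc (c p),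
            ← (H.comm y₂ (b * star b)).eq, mul_assoc]
        rw [e1, ← mul_assoc, ← h8.eq, mul_assoc, ← map_mul c (cfc k p), ← mul_add, ← map_add, ← h5,
          map_smul, mul_smul_comm]
      have h10 : ‖p‖ * ‖Z‖ ≤ (‖γ y₁ * c p‖ + δ) * ‖Z‖ := by
        have := congrArg norm h9
        rw [norm_smul, Complex.norm_real, norm_norm] at this
        rw [this, add_mul]
        exact norm_add_le_of_le (norm_mul_le _ _) (norm_mul_le_of_le ((H.norm_c _).trans_le h6) le_rfl)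
      exact hpn ▸ le_of_mul_le_mul_right h10 (norm_pos_iff.2 h7)
    rw [map_mul, map_mul, ← mul_assoc] at h3
    refine le_of_mul_le_mul_right (h3.trans (norm_mul_le_of_le le_rfl ?_)) hb
    rw [H.norm_c, hS.iso, norm_star]
  have h4 := H.tend (Cen.val y₁ * Prd.cst I X.E (S.φ b))
  rw [map_mul, ← H.hγ, ← H.hc] at h4
  filter_upwards [h4.eventually_const_lt (show ‖b‖ - ε < _ by linarith)] with i hi
  have : ‖b‖ - ε < ‖y₁ i * S.φ b‖ := hi
  linarith

theorem pair_mod (hS : S.Good) {D₁ D₂ : GAlg.{u} G} (h₁ : D₁ ∈ Mod S) (h₂ : D₂ ∈ Mod S) :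
    ∃ D ∈ Mod S, ∃ (j₁ : D₁.E →⋆ₐ[ℂ] D.E) (j₂ : D₂.E →⋆ₐ[ℂ] D.E), Eqv j₁ ∧ Eqv j₂ ∧
      (∀ x y, Commute (j₁ x) (j₂ y)) ∧
      ∀ x y₁ y₂, y₁ * y₂ = y₂ → y₂ ≠ 0 → ‖x‖ ≤ ‖j₁ x * j₂ y₁‖ := by
  obtain ⟨I, U, ι₁, h₁⟩ := h₁
  obtain ⟨J, V, ι₂, h₂⟩ := h₂
  let W : Ultrafilter (I × J) := U.bind fun i => V.map fun j => (i, j)
  have hW : ∀ p : I × J → Prop, (∀ᶠ x in W, p x) ↔ (∀ᶠ i in U, ∀ᶠ j in V, p (i, j)) := fun p => by
    change {x | p x} ∈ (Filter.bind (U : Filter I) fun i => (V.map fun j => (i, j) : Filter _)) ↔ _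
    rw [mem_bind']
    rfl
  have t1 : Tendsto (Prod.fst : I × J → I) W U := fun s hs => (hW _).2 (by
    filter_upwards [hs] with i hi using Eventually.of_forall fun _ => hi)
  have t2 : Tendsto (Prod.snd : I × J → J) W V := fun s hs => (hW _).2 (Eventually.of_forall fun _ => hs)
  obtain ⟨D, ι, h⟩ := exists_model S W
  obtain ⟨j₁, e₁, k₁⟩ := lift_model (S := S) (S' := S) (StarAlgHom.id ℂ _) (fun _ => rfl)
    (fun _ _ => rfl) t1 h₁ h
  obtain ⟨j₂, e₂, k₂⟩ := lift_model (S := S) (S' := S) (StarAlgHom.id ℂ _) (fun _ => rfl)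
    (fun _ _ => rfl) t2 h₂ h
  have hc : ∀ x y, Commute (j₁ x) (j₂ y) := fun x y => by
    obtain ⟨x, rfl⟩ := h₁.surj x
    obtain ⟨y, rfl⟩ := h₂.surj y
    rw [k₁, k₂, Commute, SemiconjBy, ← map_mul, ← map_mul]
    refine h.ext fun a => ?_
    rw [NormedAddGroup.tendsto_nhds_zero]
    intro ε hε
    refine (hW _).2 (Eventually.of_forall fun i => ?_)
    obtain ⟨b, hb⟩ := hS.ideal (x i) a
    have h3 := ((Cen.comm y a).const_mul (x i)).sub (Cen.comm y b)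
    rw [mul_zero, sub_zero, NormedAddGroup.tendsto_nhds_zero] at h3
    refine (h3 ε hε).mono fun j hj => lt_of_eq_of_lt ?_ hj
    congr 1
    simp only [Cen.mul_apply, pull_apply, StarAlgHom.coe_id, id, ← hb]
    noncomm_ring
  refine ⟨D, ⟨_, W, ι, h⟩, j₁, j₂, e₁, e₂, hc, fun x y₁ y₂ h3 h4 => ?_⟩
  rw [(hc _ _).eq]
  obtain ⟨x, rfl⟩ := h₁.surj x
  obtain ⟨y₁, rfl⟩ := h₂.surj y₁
  obtain ⟨y₂, rfl⟩ := h₂.surj y₂
  refine h₁.ge _ _ (norm_nonneg _) fun a ha ε hε => ?_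
  rw [k₁, k₂, ← map_mul]
  set w := pull (S := S) (S' := S) (StarAlgHom.id ℂ X.E) (fun _ => rfl) t2 y₁ *
    pull (S := S) (S' := S) (StarAlgHom.id ℂ X.E) (fun _ => rfl) t1 x
  refine ((hW _).1 (h.le w a _ (half_pos hε))).mono fun i hi => ?_
  obtain ⟨b, hb⟩ := hS.ideal (x i) a
  obtain ⟨j, h5, h6⟩ := (hi.and (h₂.plateau hS h3 h4 b (half_pos hε))).exists
  rw [show w (i, j) = y₁ j * x i from rfl, mul_assoc, hb] at h5
  rw [hb, hS.iso]
  have := mul_le_of_le_one_right (norm_nonneg (ι w)) ha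
  linarith

theorem up_mod (D : ℕ → GAlg.{u} G) (hD : ∀ n, D n ∈ Mod S) :
    ∃ D' ∈ Mod S, ∃ Θ : (GAlg.prd D).E →⋆ₐ[ℂ] D'.E, Eqv Θ ∧
      ∀ y : Prd fun n => (D n).E, Tendsto (fun n => ‖y n‖) atTop (𝓝 0) → Θ y = 0 := by
  choose I U ι h using hD
  let W : Ultrafilter (Σ n, I n) := (hyperfilter ℕ).bind fun n => (U n).map (Sigma.mk n)
  have hW : ∀ p : (Σ n, I n) → Prop, (∀ᶠ n in atTop, ∀ᶠ i in U n, p ⟨n, i⟩) → ∀ᶠ x in W, p x :=
    fun p hp => by
      change {x | p x} ∈ (Filter.bind (hyperfilter ℕ : Filter ℕ) fun n =>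
        ((U n).map (Sigma.mk n) : Filter _))
      rw [mem_bind']
      exact Nat.hyperfilter_le_atTop hp
  obtain ⟨D', ι', h'⟩ := exists_model S W
  let R : (Prd fun n => (Cen S (U n)).E) →⋆ₐ[ℂ] (Cen S W).E :=
    (Prd.hom fun x : Σ n, I n => (Cen.ev x.2).comp (Prd.ev x.1)).codRestrict (cenS S W)
      fun x a => by
        rw [NormedAddGroup.tendsto_nhds_zero]
        exact fun ε hε => hW _ (Eventually.of_forall fun n =>
          NormedAddGroup.tendsto_nhds_zero.1 (Cen.comm (x n) a) ε hε)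
  let q : (Prd fun n => (Cen S (U n)).E) →⋆ₐ[ℂ] (Prd fun n => (D n).E) :=
    Prd.hom fun n => (ι n).comp (Prd.ev n)
  have hq : Function.Surjective q := fun y => by
    choose x h1 h2 using fun n => exists_lift_le (h n).surj (y n)
    exact ⟨Prd.mk x ⟨_, fun n => (h2 n).trans (y.norm_apply_le n)⟩, Prd.ext h1⟩
  have h0 : ∀ x, Tendsto (fun n => ‖q x n‖) atTop (𝓝 0) → ι' (R x) = 0 := fun x hx =>
    h'.eq_zero fun a => by
      rw [NormedAddGroup.tendsto_nhds_zero]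
      intro ε hε
      refine hW _ ?_
      filter_upwards [(hx.mul_const ‖a‖).eventually_lt_const (show 0 * ‖a‖ < ε / 2 by simpa)]
        with n hn
      refine ((h n).le (x n) a _ (half_pos hε)).mono fun i hi => hi.trans_lt ?_
      have : ‖ι n (x n)‖ * ‖a‖ < ε / 2 := hn
      linarith
  obtain ⟨Θ, hΘ⟩ := exists_desc hq (ι'.comp R) fun x hx => h0 x (by simp [hx])
  refine ⟨D', ⟨_, W, ι', h'⟩, Θ, fun g y => ?_, fun y hy => ?_⟩
  · obtain ⟨x, rfl⟩ := hq y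
    have : (GAlg.prd D).act g (q x) = q ((GAlg.prd fun n => Cen S (U n)).act g x) :=
      Prd.ext fun n => ((h n).eqv g _).symm
    rw [this, hΘ, hΘ, StarAlgHom.comp_apply, StarAlgHom.comp_apply, ← h'.eqv]
    rfl
  · obtain ⟨x, rfl⟩ := hq y
    exact (hΘ x).trans (h0 x hy)

/-- fixed points -/
def GAlg.fix (D : GAlg.{u} G) : StarSubalgebra ℂ D.E where
  carrier := {x | ∀ g, D.act g x = x}
  mul_mem' hx hy g := by rw [map_mul, hx g, hy g]
  add_mem' hx hy g := by rw [map_add, hx g, hy g]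
  algebraMap_mem' c g := (D.act g).commutes c
  star_mem' hx g := by rw [map_star, hx g]

instance (D : GAlg.{u} G) : IsClosed (D.fix : Set D.E) := by
  have : (D.fix : Set D.E) = ⋂ g, {x | D.act g x = x} := Set.ext fun x => by
    simp only [Set.mem_iInter]; rfl
  rw [this]
  exact isClosed_iInter fun g => isClosed_eq (map_continuous _) continuous_id

/-- restriction to fixed points -/
def Eqv.fix {D : GAlg.{u} G} {D' : GAlg.{v} G} {j : D.E →⋆ₐ[ℂ] D'.E} (hj : Eqv j) :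
    D.fix →⋆ₐ[ℂ] D'.fix :=
  (j.comp D.fix.subtype).codRestrict D'.fix fun x g => by
    change D'.act g (j x) = j x
    rw [← hj, x.2 g]

theorem data_mod (hS : S.Good) {D : GAlg.{u} G} (hD : D ∈ Mod S) (h : IsEmpty (D.E →⋆ₐ[ℂ] ℂ))
    {κ : Type} [Fintype κ] [DecidableEq κ] (i₀ : κ) :
    ∃ D' ∈ Mod S, ∃ (φ : κ → κ → D'.E) (v : Fin 1 → D'.E), Data i₀ φ v := by
  obtain ⟨_, ⟨D', hD', rfl⟩, φ, v, H⟩ := exists_data (𝒞 := {E | ∃ D ∈ Mod S, E = ⟨D.E⟩}) (by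
    rintro _ ⟨D₁, h₁, rfl⟩ _ ⟨D₂, h₂, rfl⟩
    obtain ⟨D, hD, j₁, j₂, -, -, hc, -⟩ := pair_mod hS h₁ h₂
    exact ⟨_, ⟨D, hD, rfl⟩, j₁, j₂, hc⟩) (E₀ := ⟨D.E⟩) ⟨D, hD, rfl⟩ h i₀
  exact ⟨D', hD', φ, v, H⟩

theorem data_fix (hS : S.Good) {D : GAlg.{u} G} (hD : D ∈ Mod S) (h : IsEmpty (D.fix →⋆ₐ[ℂ] ℂ))
    {κ : Type} [Fintype κ] [DecidableEq κ] (i₀ : κ) :
    ∃ D' ∈ Mod S, ∃ (φ : κ → κ → D'.fix) (v : Fin 1 → D'.fix), Data i₀ φ v := by
  obtain ⟨_, ⟨D', hD', rfl⟩, φ, v, H⟩ := exists_data (𝒞 := {E | ∃ D ∈ Mod S, E = ⟨D.fix⟩}) (by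
    rintro _ ⟨D₁, h₁, rfl⟩ _ ⟨D₂, h₂, rfl⟩
    obtain ⟨D, hD, j₁, j₂, e₁, e₂, hc, -⟩ := pair_mod hS h₁ h₂
    exact ⟨_, ⟨D, hD, rfl⟩, e₁.fix, e₂.fix, fun x y => Subtype.ext (hc _ _)⟩)
    (E₀ := ⟨D.fix⟩) ⟨D, hD, rfl⟩ h i₀
  exact ⟨D', hD', φ, v, H⟩

end Vale.Agent.P095
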