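import Vale.Agent.P095.NoCh3
import Vale.Agent.P095.Infra

/-! A model without characters for a Jiang-Su stable algebra. -/

namespace Vale.Agent.P095

open scoped CStarAlgebra TensorProduct
open Filter Topology
open Vale.Agent.P101

attribute [local instance] CStarAlgebra.spectralOrder CStarAlgebra.spectralOrderedRing

universe u

namespace NC
variable {A Z B : Type*} [NonUnitalCStarAlgebra A] [CStarAlgebra Z] [NonUnitalCStarAlgebra B]
  {ι : A ⊗[ℂ] Z →ₗ[ℂ] B}

lemma cross (hι : IsMinTensor ι) (a : A) (z : Z) : ‖ι (a ⊗ₜ[ℂ] z)‖ ≤ ‖a‖ * ‖z‖ := by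
  rw [hι.norm_eq, TensorProduct.map_tmul]
  refine gns_le (by positivity) fun θ hθ y => ?_
  simpa [Unitization.norm_inr] using prod_tmul_le hθ (a : Unitization ℂ A) z y

lemma dens (hι : IsMinTensor ι) (T : ℕ → B → B) (C : ℝ) (h1 : ∀ n a b, T n (a + b) = T n a + T n b)
    (h2 : ∀ n a, ‖T n a‖ ≤ C * ‖a‖) (h3 : ∀ a z, Tendsto (fun n => T n (ι (a ⊗ₜ[ℂ] z))) atTop (𝓝 0))
    (b : B) : Tendsto (fun n => T n b) atTop (𝓝 0) := by
  have h4 : ∀ y, Tendsto (fun n => T n (ι y)) atTop (𝓝 0) := fun y => by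
    induction y using TensorProduct.induction_on with
    | zero => simpa using h3 0 0
    | tmul a z => exact h3 a z
    | add y y' hy hy' => simpa [h1] using hy.add hy'
  rw [NormedAddGroup.tendsto_nhds_zero]
  intro ε hε
  obtain ⟨δ, hδ, hδ'⟩ := exists_pos_mul_lt (half_pos hε) |C|
  obtain ⟨y, hy⟩ := hι.dense.exists_dist_lt b hδ
  filter_upwards [NormedAddGroup.tendsto_nhds_zero.1 (h4 y) _ (half_pos hε)] with n hn
  rw [dist_eq_norm] at hy
  have := h1 n (b - ι y) (ι y)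
  rw [sub_add_cancel] at this
  rw [this]
  have h5 : ‖T n (b - ι y)‖ ≤ |C| * δ := (h2 n _).trans (by gcongr; exact le_abs_self _)
  linarith [norm_add_le (T n (b - ι y)) (T n (ι y))]

lemma tend_of_dense {M : Type*} [NormedAddCommGroup M] {d : ℕ → M} (hd : DenseRange d)
    (T : ℕ → M → M) (h1 : ∀ n a b, T n (a + b) = T n a + T n b) (h2 : ∀ n a, ‖T n a‖ ≤ 2 * ‖a‖)
    (h3 : ∀ n k, k ≤ n → ‖T n (d k)‖ ≤ 4 * (1 / ((n : ℝ) + 1))) (b : M) :
    Tendsto (fun n => T n b) atTop (𝓝 0) := by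
  rw [NormedAddGroup.tendsto_nhds_zero]
  intro ε hε
  obtain ⟨k, hk⟩ := hd.exists_dist_lt b (show 0 < ε / 4 by positivity)
  have := (tendsto_one_div_add_atTop_nhds_zero_nat (𝕜 := ℝ)).eventually_lt_const
    (show 0 < ε / 8 by positivity)
  filter_upwards [this, eventually_ge_atTop k] with n a b'
  rw [dist_eq_norm] at hk
  have := h1 n (b - d k) (d k)
  rw [sub_add_cancel] at this
  rw [this]
  linarith [norm_add_le (T n (b - d k)) (T n (d k)), h2 n (b - d k), h3 n k b']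

lemma tmul_tend (hι : IsMinTensor ι) {a : ℕ → A} {z : ℕ → Z} {C : ℝ} (ha : Tendsto a atTop (𝓝 0))
    (hz : ∀ n, ‖z n‖ ≤ C) : Tendsto (fun n => ι (a n ⊗ₜ[ℂ] z n)) atTop (𝓝 0) :=
  squeeze_zero_norm (fun n => (cross hι _ _).trans (mul_le_mul_of_nonneg_left (hz n) (norm_nonneg _)))
    (by simpa using ha.norm.mul_const C)
lemma tmul_tend' (hι : IsMinTensor ι) (a : A) {z : ℕ → Z} (hz : Tendsto z atTop (𝓝 0)) :
    Tendsto (fun n => ι (a ⊗ₜ[ℂ] z n)) atTop (𝓝 0) :=
  squeeze_zero_norm (fun n => cross hι _ _) (by simpa using hz.norm.const_mul ‖a‖)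
end NC

variable {G : Type*} [Group G] {A : Type*} [NonUnitalCStarAlgebra A] {X : GAlg.{u} G} {S : Sys A X}

open NC in
theorem noChar_mod [TopologicalSpace.SeparableSpace A] (hS : S.Good) {Z : Type*} [CStarAlgebra Z]
    (hZ : IsJiangSu Z) {ι : A ⊗[ℂ] Z →ₗ[ℂ] A} (hι : IsMinTensor ι) :
    ∃ D ∈ Mod S, IsEmpty (D.E →⋆ₐ[ℂ] ℂ) := by
  classical
  have := hZ.separable
  obtain ⟨dA, hdA⟩ := TopologicalSpace.exists_dense_seq A
  obtain ⟨dZ, hdZ⟩ := TopologicalSpace.exists_dense_seq Z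
  have hp : ∀ n : ℕ, (0 : ℝ) < 1 / ((n : ℝ) + 1) := fun n => by positivity
  choose e e0 e1 e2 using fun n : ℕ => exists_unit ((Finset.range (n + 1)).image dA) (hp n)
  choose x x1 x2 x3 using fun n : ℕ => key hZ ((Finset.range (n + 1)).image dZ) (hp n)
  have x4 : ∀ n r, ‖x n r‖ ≤ 1 := fun n => norm_le_one (x2 n)
  have mr : ∀ {n k : ℕ}, k ≤ n → k ∈ Finset.range (n + 1) := fun h => Finset.mem_range.2 (by omega)
  have eL : ∀ a, Tendsto (fun n => e n * a - a) atTop (𝓝 0) :=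
    tend_of_dense hdA (fun n a => e n * a - a) (fun n a b => by noncomm_ring)
      (fun n a => (norm_sub_le_of_le (norm_mul_le_of_le (e1 n) le_rfl) le_rfl).trans_eq (by ring))
      fun n k h => (e2 n _ (Finset.mem_image_of_mem _ (mr h))).1.trans (by linarith [hp n])
  have eR : ∀ a, Tendsto (fun n => a * e n - a) atTop (𝓝 0) :=
    tend_of_dense hdA (fun n a => a * e n - a) (fun n a b => by noncomm_ring)
      (fun n a => (norm_sub_le_of_le (norm_mul_le_of_le le_rfl (e1 n)) le_rfl).trans_eq (by ring))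
      fun n k h => (e2 n _ (Finset.mem_image_of_mem _ (mr h))).2.trans (by linarith [hp n])
  have xC : ∀ r z, Tendsto (fun n => x n r * z - z * x n r) atTop (𝓝 0) := fun r =>
    tend_of_dense hdZ (fun n z => x n r * z - z * x n r) (fun n a b => by noncomm_ring)
      (fun n a => (norm_sub_le_of_le (norm_mul_le_of_le (x4 n r) le_rfl)
        (norm_mul_le_of_le le_rfl (x4 n r))).trans_eq (by ring))
      fun n k h => x3 n _ (Finset.mem_image_of_mem _ (mr h)) r
  let w : ℕ → Bool × Fin 3 → A := fun n r => ι (e n ⊗ₜ[ℂ] x n r)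
  have w1 : ∀ n r, ‖w n r‖ ≤ 1 := fun n r =>
    (cross hι _ _).trans (mul_le_one₀ (e1 n) (norm_nonneg _) (x4 n r))
  have w2 : ∀ r a, Tendsto (fun n => w n r * a - a * w n r) atTop (𝓝 0) := fun r =>
    dens hι (fun n a => w n r * a - a * w n r) 2 (fun n a b => by noncomm_ring)
      (fun n a => (norm_sub_le_of_le (norm_mul_le_of_le (w1 n r) le_rfl)
        (norm_mul_le_of_le le_rfl (w1 n r))).trans_eq (by ring)) fun a z => by
      have := ((tmul_tend hι (eL a) (z := fun n => x n r * z) (C := 1 * ‖z‖)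
        fun n => norm_mul_le_of_le (x4 n r) le_rfl).add (tmul_tend' hι a (xC r z))).sub
        (tmul_tend hι (eR a) (z := fun n => z * x n r) (C := ‖z‖ * 1)
          fun n => norm_mul_le_of_le le_rfl (x4 n r))
      simp only [add_zero, sub_zero] at this
      refine this.congr fun n => ?_
      simp only [w, hι.map_mul, TensorProduct.sub_tmul, TensorProduct.tmul_sub, map_sub]
      abel
  have w3 : ∀ n, ∑ r, star (w n r) * w n r = ι ((e n * e n) ⊗ₜ[ℂ] 1) := fun n => by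
    simp only [w, hι.map_star, hι.map_mul, (IsSelfAdjoint.of_nonneg (e0 n)).star_eq]
    rw [← map_sum, ← TensorProduct.tmul_sum, x2]
  have ee : ∀ n, ‖e n * e n‖ ≤ 1 := fun n => (norm_mul_le_of_le (e1 n) (e1 n)).trans_eq (one_mul _)
  have w4 : ∀ a, Tendsto (fun n => ι ((e n * e n) ⊗ₜ[ℂ] 1) * a - a) atTop (𝓝 0) :=
    dens hι (fun n a => ι ((e n * e n) ⊗ₜ[ℂ] 1) * a - a) 2 (fun n a b => by noncomm_ring)
      (fun n a => (norm_sub_le_of_le (norm_mul_le_of_le ((cross hι _ _).trans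
        (mul_le_one₀ (ee n) (norm_nonneg _) P101.norm_one_le)) le_rfl) le_rfl).trans_eq (by ring))
      fun a z => by
        have h1 : Tendsto (fun n => e n * (e n * a - a)) atTop (𝓝 0) :=
          isBoundedUnder_le_mul_tendsto_zero (isBoundedUnder_of ⟨_, e1⟩) (eL a)
        have h2 := h1.add (eL a)
        rw [add_zero] at h2
        refine (tmul_tend hι h2 (z := fun _ => z) fun _ => le_rfl).congr fun n => ?_
        simp only [hι.map_mul, one_mul, ← map_sub, ← TensorProduct.sub_tmul]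
        congr 2; noncomm_ring
  have hU : (hyperfilter ℕ : Filter ℕ) ≤ atTop := Nat.hyperfilter_le_atTop
  have hφ : ∀ {f : ℕ → A}, Tendsto f atTop (𝓝 0) → Tendsto (fun n => S.φ (f n)) (hyperfilter ℕ) (𝓝 0) :=
    fun h => by simpa [Function.comp_def] using (((map_continuous S.φ).tendsto 0).comp h).mono_left hU
  obtain ⟨D, j, hj⟩ := exists_model S (hyperfilter ℕ)
  refine ⟨D, ⟨ℕ, _, j, hj⟩, ⟨fun χ => ?_⟩⟩
  let y : Bool × Fin 3 → (Cen S (hyperfilter ℕ)).E := fun r => Cen.mk (fun n => S.φ (w n r))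
    ⟨1, fun n => (hS.iso _).trans_le (w1 n r)⟩ fun a => by simpa using hφ (w2 r a)
  have y1 : ∀ r, y r * y r = 0 := fun r => Cen.ext fun n => by
    simp [y, w, ← map_mul, hι.map_mul, x1]
  have y2 : j (∑ r, star (y r) * y r) = j 1 := hj.ext fun a => (hφ (w4 a)).congr fun n => by
    simp only [Cen.sum_apply, Cen.mul_apply, Cen.star_apply, Cen.one_apply, y, Cen.mk_apply,
      ← map_star, ← map_mul, ← map_sum, w3, sub_mul, one_mul, map_sub]
  have y3 : ∀ r, χ (j (y r)) = 0 := fun r => by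
    rw [← mul_self_eq_zero, ← map_mul, ← map_mul, y1, map_zero, map_zero]
  have := congrArg χ y2
  simp [map_sum, y3] at this

end Vale.Agent.P095
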