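import Vale.Agent.P095.SI2
import Vale.Agent.P095.NoCh
import Vale.Agent.P095.Apr
import Vale.Agent.P095.Itw

/-! The tensor product action and the final assembly. -/

namespace Vale.Agent.P095

open scoped CStarAlgebra TensorProduct
open Vale.Agent.P101

universe u

lemma minNorm_map_le {A Z : Type*} [CStarAlgebra A] [CStarAlgebra Z] (f : A →⋆ₐ[ℂ] A)
    (hf : Function.Surjective f) (x : A ⊗[ℂ] Z) :
    minNorm (TensorProduct.map f.toAlgHom.toLinearMap LinearMap.id x) ≤ minNorm x := by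
  let T : A ⊗[ℂ] Z →⋆ₐ[ℂ] A ⊗[ℂ] Z :=
    { Algebra.TensorProduct.map f.toAlgHom (AlgHom.id ℂ Z) with
      map_star' := fun x => by
        induction x using TensorProduct.induction_on with
        | zero => simp
        | tmul a z => simp [map_star]
        | add x y hx hy => simp_all }
  refine gns_le (gns_nonneg _) fun θ hθ y => ?_
  obtain ⟨y, rfl⟩ := TensorProduct.map_surjective (g := f.toAlgHom.toLinearMap)
    (g' := LinearMap.id) hf Function.surjective_id y
  have h1 : θ ∘ₗ T.toAlgHom.toLinearMap ∈ productStates A Z := by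
    obtain ⟨φ, ψ, hφ, hψ, h⟩ := hθ
    exact ⟨φ ∘ₗ f.toAlgHom.toLinearMap, ψ, ⟨by simpa using hφ.1, pos_comp hφ.2 f⟩, hψ,
      fun a b => h (f a) b⟩
  have h2 : ∀ x, nq (θ ∘ₗ T.toAlgHom.toLinearMap) x = nq θ (T x) := fun x => by
    simp [nq, map_star]
  have h3 := le_gns (fun _ => prod_pos) (prod_bdd x) h1 y
  rw [h2, h2, map_mul] at h3
  exact h3

variable {G : Type*} [Group G] {A : Type u} [NonUnitalCStarAlgebra A] {Z : Type*} [CStarAlgebra Z]
  {B : Type*} [NonUnitalCStarAlgebra B] {ι : A ⊗[ℂ] Z →ₗ[ℂ] B}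

theorem IsMinTensor.exists_act (hι : IsMinTensor ι) (α : G →* (A ≃⋆ₐ[ℂ] A)) :
    ∃ β : G →* (B ≃⋆ₐ[ℂ] B), ∀ g a z, β g (ι (a ⊗ₜ[ℂ] z)) = ι (α g a ⊗ₜ[ℂ] z) := by
  have h1 : ∀ g, ∃ L : B →L[ℂ] B, ∀ a z, L (ι (a ⊗ₜ[ℂ] z)) = ι (α g a ⊗ₜ[ℂ] z) := fun g => by
    refine ⟨(ι ∘ₗ TensorProduct.map (α g : A →ₗ[ℂ] A) LinearMap.id).extendOfNorm ι, fun a y => ?_⟩
    rw [LinearMap.extendOfNorm_eq hι.dense ⟨1, fun x => ?_⟩]
    · simp
    · rw [LinearMap.comp_apply, hι.norm_eq, hι.norm_eq, one_mul]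
      refine le_of_eq_of_le (congrArg _ ?_) (minNorm_map_le (A := Unitization ℂ A) ((uniG α).act g)
        (fun y => ⟨_, (uniG α).act_inv g y⟩) _)
      induction x using TensorProduct.induction_on with
      | zero => simp only [map_zero]
      | tmul a z => exact congrArg (· ⊗ₜ[ℂ] z) ((canon α).cov g a).symm
      | add x y hx hy => simp only [map_add, hx, hy]
  choose L hL using h1
  have h2 : ∀ g h b, L (g * h) b = L g (L h b) := fun g h =>
    hι.ind (isClosed_eq (by fun_prop) (by fun_prop)) (by simp)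
      (fun x y hx hy => by simp only [map_add, hx, hy]) fun a z => by simp [hL]
  have h3 : ∀ b, L 1 b = b := hι.ind (isClosed_eq (by fun_prop) (by fun_prop)) (by simp)
    (fun x y hx hy => by simp only [map_add, hx, hy]) fun a z => by simp [hL]
  let e : G → B ≃⋆ₐ[ℂ] B := fun g =>
    { toFun := L g
      invFun := L g⁻¹
      left_inv := fun b => by rw [← h2, inv_mul_cancel, h3]
      right_inv := fun b => by rw [← h2, mul_inv_cancel, h3]
      map_add' := map_add _
      map_smul' := map_smul _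
      map_mul' := fun x y => by
        refine hι.ind (P := fun x => L g (x * y) = L g x * L g y)
          (isClosed_eq (by fun_prop) (by fun_prop)) (by simp)
          (fun x x' hx hx' => by simp only [add_mul, map_add, hx, hx']) (fun a w => ?_) x
        refine hι.ind (P := fun y => L g (ι (a ⊗ₜ[ℂ] w) * y) = L g (ι (a ⊗ₜ[ℂ] w)) * L g y)
          (isClosed_eq (by fun_prop) (by fun_prop)) (by simp)
          (fun x x' hx hx' => by simp only [mul_add, map_add, hx, hx']) (fun a' w' => ?_) y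
        simp only [hι.map_mul, hL, _root_.map_mul]
      map_star' := hι.ind (P := fun x => L g (star x) = star (L g x))
        (isClosed_eq (by fun_prop) (by fun_prop)) (by simp)
        (fun x y hx hy => by simp only [star_add, map_add, hx, hy])
        fun a z => by simp only [hι.map_star, hL, StarHomClass.map_star] }
  exact ⟨MonoidHom.mk' e fun g h => StarAlgEquiv.ext (h2 g h), hL⟩

theorem main [TopologicalSpace.SeparableSpace A] (hs : IsSimple A) (hn : IsNuclear A)
    (hZ : IsJiangSu Z) (hA : ∃ κ : A ⊗[ℂ] Z →ₗ[ℂ] A, IsMinTensor κ) [Countable G] [DecidableEq G]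
    (hG : IsAmenable G) (α : G →* (A ≃⋆ₐ[ℂ] A)) (hι : IsMinTensor ι) {β : G →* (B ≃⋆ₐ[ℂ] B)}
    (hβ : ∀ g a z, β g (ι (a ⊗ₜ[ℂ] z)) = ι (α g a ⊗ₜ[ℂ] z)) : CocycleConj α β := by
  obtain ⟨κ, hκ⟩ := hA
  obtain ⟨D₀, h₀, hE⟩ := noChar_mod (canon_good α hs) hZ hκ
  obtain ⟨D, hD, h⟩ := noChar_fix (canon_good α hs) hn hG h₀ hE
  obtain ⟨φ, h1, h2, h3⟩ := appr_of_noChar hs hZ hι hβ hD h
  have := sep_tensor hZ hι
  exact intertwine h2 (fun g a => by rw [h1, h1, hβ]) h3

end Vale.Agent.P095
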