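import Vale.Agent.P095.Cl

/-! A unitary all of whose charged words have trace zero. -/

namespace Vale.Agent.P095

open scoped CStarAlgebra ComplexConjugate
open Filter Topology
open Vale.Agent.P101

attribute [local instance] CStarAlgebra.spectralOrder CStarAlgebra.spectralOrderedRing

universe u

variable {G : Type*} [Group G] {C : Set (TAlg.{u} G)}

/-- words in the translates of an element -/
noncomputable def ev (D : GAlg G) (u : D.E) : List (G × Bool) → D.E
  | [] => 1
  | p :: w => D.act p.1 (if p.2 then u else star u) * ev D u w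

/-- the charge of a word -/
def ch : List (G × Bool) → ℤ
  | [] => 0
  | p :: w => (if p.2 then 1 else -1) + ch w

lemma Eqv.ev {D D' : GAlg G} {j : D.E →⋆ₐ[ℂ] D'.E} (hj : Eqv j) (u : D.E) (w : List (G × Bool)) :
    j (ev D u w) = ev D' (j u) w := by
  induction w with
  | nil => simp [P095.ev]
  | cons p w ih => cases h : p.2 <;> simp [P095.ev, ih, hj _ _, h, map_star]

lemma MP.ev {Q Q' : TAlg.{u} G} {m : ℕ} {J : (Fin m → Q.E) → Q'.E} (H : MP J) (u : Q.E)
    (w : List (G × Bool)) :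
    J (fun _ => ev Q.toGAlg u w) = ev Q'.toGAlg (J fun _ => u) w := by
  induction w with
  | nil => exact H.one
  | cons p w ih =>
    simp only [P095.ev]
    rw [← ih]
    cases p.2
    · simp only [Bool.false_eq_true, if_false]; rw [← H.star, H.act, ← H.mul]; rfl
    · simp only [if_true]; rw [H.act, ← H.mul]; rfl

lemma proj_unitary {E : Type*} [CStarAlgebra E] {p : E} (hp : IsStarProjection p) {c : ℂ}
    (hc : c + conj c + c * conj c = 0) : 1 + c • p ∈ unitary E := by
  have h1 := hp.isSelfAdjoint.star_eq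
  have h2 := hp.isIdempotentElem.eq
  have h3 : (c + conj c + c * conj c) • p = 0 := by rw [hc, zero_smul]
  constructor <;>
    simp only [star_add, star_one, star_smul, h1, add_mul, mul_add, one_mul, mul_one,
      smul_mul_assoc, mul_smul_comm, h2, RCLike.star_def] <;>
    linear_combination (norm := module) h3

lemma exp_conj (φ : ℝ) : (Complex.exp (Complex.I * φ) - 1) + conj (Complex.exp (Complex.I * φ) - 1) +
    (Complex.exp (Complex.I * φ) - 1) * conj (Complex.exp (Complex.I * φ) - 1) = 0 := by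
  have : Complex.exp (Complex.I * φ) * conj (Complex.exp (Complex.I * φ)) = 1 := by
    rw [Complex.mul_conj', Complex.norm_exp_I_mul_ofReal]; simp
  rw [map_sub, map_one]
  linear_combination this

lemma word_bound {Q : TAlg.{u} G} (hC : Cls C) (hQ : Q ∈ C) {q : Q.E} (hq : IsStarProjection q)
    {d L : ℕ} (hd : 2 * L + 2 ≤ d) (hτq : ∀ τ ∈ Q.T, τ q = (d : ℂ)⁻¹) {φ : ℝ} (h0 : 0 < φ)
    (h1 : φ * (4 * d * (L + 1) ^ 2) ≤ 1) (w : List (G × Bool)) (hw : w.length ≤ L) (hw' : ch w ≠ 0)
    {τ} (hτ : τ ∈ Q.T) : ‖τ (ev Q.toGAlg (1 + (Complex.exp (Complex.I * φ) - 1) • q) w)‖ ^ 2 ≤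
      1 - (φ / (8 * d)) ^ 2 := by
  classical
  have ht := hC.tr hQ hτ
  have hd0 : (2 * L + 2 : ℝ) ≤ d := by exact_mod_cast hd
  have hL : (0 : ℝ) ≤ L := Nat.cast_nonneg L
  have hφ1 : φ ≤ 1 := by
    have := mul_le_mul hd0 (show (1 : ℝ) ≤ (L + 1) ^ 2 by nlinarith) zero_le_one (by linarith)
    nlinarith
  set μ := Complex.exp (Complex.I * φ) - 1 with hμ
  have hμ1 : ‖μ‖ ≤ φ := by simpa [abs_of_pos h0] using Real.norm_exp_I_mul_ofReal_sub_one_le (x := φ)
  have hμ2 : μ + conj μ + μ * conj μ = 0 := exp_conj φ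
  have hμ3 : μ.im = Real.sin φ := by simp [hμ, mul_comm Complex.I, Complex.exp_ofReal_mul_I_im]
  let ν : Bool → ℂ := fun b => if b then μ else conj μ
  have hν : ∀ b, ‖ν b‖ ≤ φ := fun b => by cases b <;> simpa [ν]
  have hp : ∀ g, IsStarProjection (Q.act g q) := fun g => hq.map _
  have hs : ∀ p : G × Bool, Q.act p.1 (if p.2 then 1 + μ • q else star (1 + μ • q)) =
      1 + ν p.2 • Q.act p.1 q := fun p => by
    cases h : p.2 <;> simp [ν, hq.isSelfAdjoint.star_eq]
  have hu : ∀ p : G × Bool, 1 + ν p.2 • Q.act p.1 q ∈ unitary Q.E := fun p =>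
    proj_unitary (hp _) (by cases p.2 <;> simp [ν] <;> linear_combination hμ2)
  set v := ev Q.toGAlg (1 + μ • q)
  have key : ∀ w : List (G × Bool), v w ∈ unitary Q.E ∧ ‖v w - 1‖ ≤ w.length * φ ∧
      |(τ (v w)).im - ch w * (Real.sin φ / d)| ≤ w.length ^ 2 * φ ^ 2 ∧
      ∀ (N : Q.E) (η : ℝ), (∀ p ∈ w, ‖N * Q.act p.1 q‖ ≤ η) → ‖N * v w - N‖ ≤ w.length * η := by
    intro w
    induction w with
    | nil => simp [v, ev, ch, ht.one]
    | cons p w ih =>
      obtain ⟨a1, a2, a3, a4⟩ := ih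
      have e : v (p :: w) = (1 + ν p.2 • Q.act p.1 q) * v w := by rw [← hs]; rfl
      have hv : ‖v w‖ ≤ 1 := by
        simpa using (CStarRing.norm_mem_unitary_mul 1 a1).trans_le norm_one_le
      have hq1 := (hp p.1).norm_le
      simp only [e, List.length_cons, Nat.cast_succ]
      refine ⟨mul_mem (hu p) a1, ?_, ?_, fun N η hN => ?_⟩
      · rw [add_mul, one_mul, add_sub_right_comm, add_mul, one_mul, smul_mul_assoc]
        refine norm_add_le_of_le a2 ((norm_smul_le _ _).trans ?_)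
        simpa using mul_le_mul (hν p.2) (norm_mul_le_of_le hq1 hv) (norm_nonneg _) h0.le
      · have e1 : τ ((1 + ν p.2 • Q.act p.1 q) * v w) = τ (v w) + ν p.2 * (d : ℂ)⁻¹ +
            ν p.2 * τ (Q.act p.1 q * (v w - 1)) := by
          have := hτq _ (hC.inv hQ hτ p.1)
          simp only [LinearMap.comp_apply, AlgHom.toLinearMap_apply, StarAlgHom.coe_toAlgHom] at this
          simp only [add_mul, one_mul, smul_mul_assoc, map_add, map_smul, mul_sub, mul_one, map_sub,
            this, smul_eq_mul]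
          ring
        have e2 : |(ν p.2 * τ (Q.act p.1 q * (v w - 1))).im| ≤ φ * (w.length * φ) :=
          (Complex.abs_im_le_norm _).trans (norm_mul_le_of_le (hν _) ((st_norm_le ht.st _).trans
            ((norm_mul_le_of_le hq1 a2).trans_eq (one_mul _))))
        have e3 : (ν p.2 * (d : ℂ)⁻¹).im = ((if p.2 then 1 else -1 : ℤ) : ℝ) * (Real.sin φ / d) := by
          rw [← Complex.ofReal_natCast, ← Complex.ofReal_inv, Complex.im_mul_ofReal]
          cases p.2 <;> simp [ν, hμ3, div_eq_mul_inv]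
        rw [e1, Complex.add_im, Complex.add_im, e3, ch, Int.cast_add, abs_le] at *
        constructor <;> nlinarith [sq_nonneg φ, Nat.cast_nonneg (α := ℝ) w.length]
      · have e1 : N * ((1 + ν p.2 • Q.act p.1 q) * v w) - N =
            (N * v w - N) + ν p.2 • (N * Q.act p.1 q * v w) := by
          simp only [add_mul, mul_add, one_mul, smul_mul_assoc, mul_smul_comm, mul_assoc]; abel
        rw [e1, add_mul, one_mul]
        refine norm_add_le_of_le (a4 N η fun p hp => hN p (List.mem_cons_of_mem _ hp))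
          ((norm_smul_le _ _).trans ?_)
        simpa using mul_le_mul ((hν p.2).trans hφ1)
          (norm_mul_le_of_le (hN p List.mem_cons_self) hv) (norm_nonneg _) zero_le_one
  obtain ⟨a1, -, a3, a4⟩ := key w
  set z := τ (v w)
  have hwL : (w.length : ℝ) ≤ L := by exact_mod_cast hw
  have b1 : nq τ (v w - z • 1) ^ 2 = 1 - ‖z‖ ^ 2 := by
    rw [nq_sq ht.pos]
    simp only [star_sub, star_smul, star_one, sub_mul, mul_sub, smul_mul_assoc, mul_smul_comm,
      one_mul, mul_one, a1.1, map_sub, map_smul, ht.one, pos_star ht.pos, smul_eq_mul,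
      RCLike.star_def, Complex.mul_conj', Complex.conj_mul']
    simp [← Complex.ofReal_pow, z, Complex.sq_norm, Complex.normSq_apply]
  have b2 : ‖1 - z‖ / 2 ≤ nq τ (v w - z • 1) := by
    refine le_of_forall_pos_le_add fun ε hε => ?_
    obtain ⟨η, hη, hη'⟩ := exists_pos_mul_lt hε L
    set s := (w.map Prod.fst).toFinset
    set Q₀ := ∑ g ∈ s, star (Q.act g q) * Q.act g q
    have hQ₀ : 0 ≤ Q₀ := Finset.sum_nonneg fun _ _ => star_mul_self_nonneg _
    have hη2 : 0 < η ^ 2 := by positivity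
    set N := ((η ^ 2 : ℝ) : ℂ) • res Q₀ (η ^ 2) with hN
    have hN0 : 0 ≤ N := by rw [hN, Complex.coe_smul]; exact smul_nonneg hη2.le (res_nonneg _ hη2)
    have hN1 : ‖N‖ ≤ 1 := by
      rw [hN, norm_smul, Complex.norm_real, Real.norm_of_nonneg hη2.le]
      exact (mul_le_mul_of_nonneg_left (norm_res _ hη2) hη2.le).trans_eq (mul_inv_cancel₀ hη2.ne')
    have c1 : ∀ p ∈ w, ‖N * Q.act p.1 q‖ ≤ η := fun p hp' => by
      have c2 := star_right_conjugate_le_conjugate (Finset.single_le_sum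
        (f := fun g => star (Q.act g q) * Q.act g q) (fun _ _ => star_mul_self_nonneg _)
        (show p.1 ∈ s from List.mem_toFinset.2 (List.mem_map_of_mem hp'))) N
      have c3 := CStarAlgebra.norm_le_norm_of_nonneg_of_le
        (star_right_conjugate_nonneg (star_mul_self_nonneg _) N) c2
      have c4 : ‖N * Q₀‖ ≤ η ^ 2 := by
        rw [hN, smul_mul_assoc, res_mul_eq hQ₀ hη2, norm_smul, Complex.norm_real,
          Real.norm_of_nonneg hη2.le]
        have c5 := sub_nonneg.2 ((CStarAlgebra.norm_le_one_iff_of_nonneg N hN0).1 hN1)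
        exact mul_le_of_le_one_right hη2.le
          ((CStarAlgebra.norm_le_one_iff_of_nonneg _ c5).2 (sub_le_self _ hN0))
      rw [← mul_assoc, mul_assoc _ _ (star N), (hp _).isSelfAdjoint.star_eq] at c3
      nth_rw 2 [← (hp p.1).isSelfAdjoint.star_eq] at c3
      rw [← star_mul, CStarRing.norm_self_mul_star] at c3
      have c6 := c3.trans (norm_mul_le_of_le c4 ((norm_star N).trans_le hN1))
      exact abs_le_of_sq_le_sq' (by nlinarith) hη.le |>.2
    have c2 : 1 / 2 ≤ (τ N).re := by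
      have c3 := ht.rank s (x := fun g => Q.act g q) (b := fun g => Q.act g q)
        (fun g _ => (hp g).isIdempotentElem.eq) hη2
      have c4 : ∀ g, (τ (Q.act g q * star (Q.act g q))).re = (d : ℝ)⁻¹ := fun g => by
        have := hτq _ (hC.inv hQ hτ g)
        simp only [LinearMap.comp_apply, AlgHom.toLinearMap_apply, StarAlgHom.coe_toAlgHom] at this
        rw [(hp g).isSelfAdjoint.star_eq, (hp g).isIdempotentElem.eq, this]
        simp
      have c5 : (s.card : ℝ) ≤ L := by
        exact_mod_cast (List.toFinset_card_le _).trans (by simpa using hw)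
      rw [mul_res_eq hQ₀ hη2, ← hN, map_sub, ht.one] at c3
      simp only [c4, Finset.sum_const, nsmul_eq_mul, Complex.sub_re, Complex.one_re] at c3
      have c6 : (s.card : ℝ) * (d : ℝ)⁻¹ ≤ 1 / 2 := by
        rw [← div_eq_mul_inv, div_le_iff₀ (by linarith)]; linarith
      linarith
    have c3 : τ N * (1 - z) = τ (N * (v w - z • 1)) - τ (N * v w - N) := by
      simp only [mul_sub, map_sub, mul_smul_comm, mul_one, map_smul, smul_eq_mul]; ring
    have c4 : ‖τ N * (1 - z)‖ ≤ nq τ (v w - z • 1) + L * η := by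
      rw [c3]
      refine norm_sub_le_of_le ((ht.cs _ _).trans (mul_le_of_le_one_left (nq_nonneg _)
        ((st_nq_le ht.st _).trans hN1))) ((st_norm_le ht.st _).trans ((a4 N η c1).trans ?_))
      gcongr
    rw [norm_mul] at c4
    nlinarith [Complex.re_le_norm (τ N), norm_nonneg (1 - z)]
  have b3 : φ / (4 * d) ≤ ‖1 - z‖ := by
    have c1 : φ / 2 ≤ Real.sin φ := by nlinarith [Real.sin_gt_sub_cube h0, sq_nonneg φ]
    have c2 : (1 : ℝ) ≤ |(ch w : ℝ)| := by exact_mod_cast Int.one_le_abs hw'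
    have c3 := Complex.abs_im_le_norm (1 - z)
    have c4 : φ / 2 / d ≤ |ch w * (Real.sin φ / d)| := by
      rw [abs_mul, abs_of_nonneg (show 0 ≤ Real.sin φ / d from div_nonneg (by linarith) (by linarith))]
      exact le_trans (by gcongr) (le_mul_of_one_le_left (div_nonneg (by linarith) (by linarith)) c2)
    have c5 : (w.length : ℝ) ^ 2 * φ ^ 2 ≤ φ / (4 * d) := by
      rw [le_div_iff₀ (by linarith)]
      calc _ ≤ (L + 1) ^ 2 * φ ^ 2 * (4 * d) := by gcongr; linarith
        _ = φ * (φ * (4 * d * (L + 1) ^ 2)) := by ring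
        _ ≤ φ := mul_le_of_le_one_right h0.le h1
    have c6 := abs_sub_abs_le_abs_sub (ch w * (Real.sin φ / d)) z.im
    rw [abs_sub_comm] at c6
    simp only [Complex.sub_im, Complex.one_im, zero_sub, abs_neg] at c3
    have : φ / 2 / d = 2 * (φ / (4 * d)) := by field_simp; norm_num
    linarith
  have b4 : φ / (8 * d) ≤ nq τ (v w - z • 1) := by
    have : φ / (4 * d) = 2 * (φ / (8 * d)) := by field_simp; norm_num
    linarith
  have := pow_le_pow_left₀ (by positivity) b4 2
  linarith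

theorem Cls.haar (hC : Cls C) : ∃ Q ∈ C, ∃ W ∈ unitary Q.E,
    ∀ w, ch w ≠ 0 → ∀ τ ∈ Q.T, τ (ev Q.toGAlg W w) = 0 := by
  have : ∀ n : ℕ, ∃ Q ∈ C, ∃ W ∈ unitary Q.E, ∀ w, w.length ≤ n → ch w ≠ 0 → ∀ τ ∈ Q.T,
      ‖τ (ev Q.toGAlg W w)‖ ≤ 1 / (n + 1) := fun n => by
    obtain ⟨Q, hQ, e, he, he'⟩ := hC.units (Fin (2 * n + 2))
    have hq : IsStarProjection (e 0 0) := ⟨show _ * _ = _ by simpa [he'] using he.mul 0 0 0 0, he.star 0 0⟩
    have hτq : ∀ τ ∈ Q.T, τ (e 0 0) = ((2 * n + 2 : ℕ) : ℂ)⁻¹ := fun τ hτ => by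
      have ht := hC.tr hQ hτ
      have h1 : ∀ i, τ (e i i) = τ (e 0 0) := fun i => by
        simpa [he.mul, he'] using ht.comm (e i 0) (e 0 i)
      have h2 := ht.one
      rw [← he', P101.tr, map_sum] at h2
      simp only [h1, Finset.sum_const, Finset.card_univ, Fintype.card_fin, nsmul_eq_mul] at h2
      exact eq_inv_of_mul_eq_one_right h2
    generalize e 0 0 = q at hq hτq
    obtain ⟨d, hd'⟩ : ∃ d, d = 2 * n + 2 := ⟨_, rfl⟩
    rw [← hd'] at hτq
    have hd : (0 : ℝ) < d := by rw [hd']; positivity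
    set φ : ℝ := (4 * d * (n + 1) ^ 2)⁻¹
    have hφ : 0 < φ := by positivity
    obtain ⟨m, hm⟩ := exists_pow_lt_of_lt_one (show (0 : ℝ) < 1 / (n + 1) by positivity)
      (show √(1 - (φ / (8 * d)) ^ 2) < 1 by
        rw [Real.sqrt_lt' one_pos, one_pow, sub_lt_self_iff]; positivity)
    obtain ⟨Q', hQ', J, H⟩ := hC.mp hQ m
    refine ⟨Q', hQ', J fun _ => 1 + (Complex.exp (Complex.I * φ) - 1) • q,
      H.unitary fun _ => proj_unitary hq (exp_conj φ), fun w h1 h2 τ hτ => ?_⟩
    rw [← H.ev]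
    exact (H.norm_le (fun σ hσ => Real.le_sqrt_of_sq_le (word_bound hC hQ hq hd'.ge hτq hφ
      (inv_mul_cancel₀ (by positivity)).le w h1 h2 hσ)) hτ).trans hm.le
  choose Q hQ W hW h using this
  obtain ⟨Q', hQ', Θ, H⟩ := hC.up' Q hQ
  let W' : Prd fun n => (Q n).E := Prd.mk W ⟨1, fun n => by
    simpa using (CStarRing.norm_mem_unitary_mul 1 (hW n)).trans_le norm_one_le⟩
  refine ⟨Q', hQ', Θ W', Unitary.map_mem Θ ⟨Prd.ext fun n => (hW n).1, Prd.ext fun n => (hW n).2⟩,
    fun w hw τ hτ => ?_⟩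
  rw [← H.eqv.ev, ← norm_le_zero_iff]
  refine H.norm τ hτ _ 0 fun ε hε => ?_
  filter_upwards [eventually_ge_atTop w.length,
    tendsto_one_div_add_atTop_nhds_zero_nat.eventually_lt_const hε] with n h1 h2 σ hσ
  have := Eqv.ev (D := GAlg.prd fun n => (Q n).toGAlg) (D' := (Q n).toGAlg) (j := Prd.ev n)
    (fun _ _ => rfl) W' w
  rw [Prd.ev_apply] at this
  rw [this, zero_add]
  exact (h n w h1 hw σ hσ).trans h2.le

end Vale.Agent.P095
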