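import Vale.Agent.P095.Blk2

/-! Invariant non-commuting pairs of macroscopic size. -/

namespace Vale.Agent.P095

open scoped CStarAlgebra ComplexConjugate Pointwise symmDiff
open Filter Topology Finset Function
open Vale.Agent.P101

attribute [local instance] CStarAlgebra.spectralOrder CStarAlgebra.spectralOrderedRing

universe u

variable {G : Type*} [Group G] {C : Set (TAlg.{u} G)}

section
variable {E : Type*} [CStarAlgebra E] {τ : E →ₗ[ℂ] ℂ}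

lemma comm_sq (ht : IsTr τ) {u v : E} (hu : IsSelfAdjoint u) (hv : IsSelfAdjoint v) :
    nq τ (u * v - v * u) ^ 2 = 2 * (τ (u * v * (v * u))).re - 2 * (τ (u * v * (u * v))).re := by
  have h1 : τ (v * u * (v * u)) = τ (u * v * (u * v)) := by
    rw [mul_assoc, ht.comm]; simp only [mul_assoc]
  rw [nq_sq ht.pos, star_sub, star_mul, star_mul, hu.star_eq, hv.star_eq, mul_sub, sub_mul, sub_mul,
    map_sub, map_sub, map_sub, h1, ht.comm (v * u) (u * v)]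
  simp only [Complex.sub_re]
  ring

lemma one_sub_sq {a : E} (h0 : 0 ≤ a) (h1 : ‖a‖ ≤ 1) : 0 ≤ 1 - a * a ∧ ‖1 - a * a‖ ≤ 1 := by
  have h2 := norm_one_sub_star_mul h1
  rw [h0.isSelfAdjoint.star_eq] at h2
  exact ⟨sub_nonneg.2 ((CStarAlgebra.norm_le_one_iff_of_nonneg _ h0.isSelfAdjoint.mul_self_nonneg).1
    ((norm_mul_le_of_le h1 h1).trans_eq (one_mul _))), h2⟩

lemma mac_one (ht : IsTr τ) {a b : E} (ha : 0 ≤ a) (ha' : ‖a‖ ≤ 1) (hb : 0 ≤ b) (hb' : ‖b‖ ≤ 1)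
    {κ e : ℝ} (h1 : (τ (a * a)).re ≤ κ) (h2 : (τ (b * b)).re ≤ κ) (h3 : 2 * e ≤ nq τ (cm a b) ^ 2)
    (he : 0 ≤ e) : ∃ x y : ℝ, τ ((1 - a * a) * (1 - b * b) * ((1 - b * b) * (1 - a * a))) = x ∧
      τ ((1 - a * a) * (1 - b * b) * ((1 - a * a) * (1 - b * b))) = y ∧ 0 ≤ y ∧ y ≤ x * (1 - e) ∧
      1 - 4 * κ ≤ x := by
  obtain ⟨u0, u1⟩ := one_sub_sq ha ha'
  obtain ⟨v0, v1⟩ := one_sub_sq hb hb'
  have h4 := comm_sq ht u0.isSelfAdjoint v0.isSelfAdjoint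
  rw [show (1 - a * a) * (1 - b * b) - (1 - b * b) * (1 - a * a) = cm a b by
    simp only [cm, sq]; noncomm_ring] at h4
  have h5 : ∀ {a : E}, 0 ≤ a → 1 - (2 : ℝ) • (a * a) ≤ (1 - a * a) * (1 - a * a) := fun {a} ha => by
    rw [← sub_nonneg, two_smul, show (1 - a * a) * (1 - a * a) - (1 - (a * a + a * a)) =
      a * a * (a * a) by noncomm_ring]
    exact (ha.isSelfAdjoint.mul_self_nonneg).isSelfAdjoint.mul_self_nonneg
  have h6 := ht.mul_mono v0.isSelfAdjoint.mul_self_nonneg (h5 ha)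
  have h7 := pos_mono ht.pos (h5 hb)
  have h8 := (Complex.re_le_norm _).trans (ht.norm_mul_le ((1 - b * b) * (1 - b * b))
    ha.isSelfAdjoint.mul_self_nonneg)
  have h9 := mul_le_of_le_one_left (pos_re ht.pos ha.isSelfAdjoint.mul_self_nonneg)
    ((norm_mul_le_of_le v1 v1).trans_eq (one_mul _))
  generalize 1 - a * a = u at *
  generalize 1 - b * b = v at *
  have k1 : τ (v * v * (u * u)) = τ (u * v * (v * u)) := by
    rw [← mul_assoc, ht.comm]; simp only [mul_assoc]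
  have k2 := (st_re_le ht.st _).trans (norm_mul_le_of_le (norm_mul_le_of_le u1 v1)
    (norm_mul_le_of_le v1 u1))
  have k3 := ht.mul_nonneg u0 (v0.isSelfAdjoint.conjugate_nonneg u0)
  simp only [mul_sub, mul_one, mul_smul_comm, map_sub, LinearMap.map_smul_of_tower, Complex.sub_re,
    Complex.smul_re, smul_eq_mul, k1, ht.one, Complex.one_re] at h6 h7
  refine ⟨_, (τ (u * v * (u * v))).re, pos_eq_re ht.pos (by
    simp [IsSelfAdjoint, u0.isSelfAdjoint.star_eq, v0.isSelfAdjoint.star_eq, mul_assoc]), ?_,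
    by simpa only [mul_assoc] using k3, by nlinarith, by linarith⟩
  rw [eq_comm, Complex.conj_eq_iff_re.1]
  rw [← pos_star ht.pos]
  simp only [star_mul, u0.isSelfAdjoint.star_eq, v0.isSelfAdjoint.star_eq]
  rw [mul_assoc, ht.comm]; simp only [mul_assoc]

lemma mac_two (ht : IsTr τ) {a b w : E} (hw : ‖w‖ ≤ 1) {κ d : ℝ} (hκ : 0 ≤ κ) (hd : 0 ≤ d)
    (h1 : nq τ a ^ 2 ≤ κ) (h2 : nq τ b ^ 2 ≤ κ) (h3 : nq τ (b - a) ^ 2 ≤ d ^ 2 * κ) :
    ‖τ (w * (1 - a * a)) - τ (w * (1 - b * b))‖ ≤ 2 * (d * κ) := by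
  have h4 : ∀ {p : ℝ}, 0 ≤ p → p ^ 2 ≤ κ → p * nq τ (b - a) ≤ d * κ := fun {p} h0 hp =>
    (abs_le_of_sq_le_sq' (by
      rw [mul_pow]
      exact (mul_le_mul hp h3 (sq_nonneg _) hκ).trans_eq (by ring)) (by positivity)).2
  rw [← map_sub, show w * (1 - a * a) - w * (1 - b * b) = w * b * (b - a) + w * (b - a) * a by
    noncomm_ring, map_add, ht.comm _ a, ← mul_assoc, two_mul]
  refine norm_add_le_of_le ((ht.cs _ _).trans (le_trans ?_ (h4 (nq_nonneg _) h2)))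
    ((ht.cs _ _).trans (le_trans ?_ (h4 (nq_nonneg _) h1))) <;>
    refine mul_le_mul_of_nonneg_right ?_ (nq_nonneg _)
  · exact (nq_mul_le ht.pos _ _).trans (mul_le_of_le_one_left (nq_nonneg _) hw)
  · exact (ht.nq_mul_le _ _).trans (mul_le_of_le_one_right (nq_nonneg _) hw)

end

lemma prod_gap {n : ℕ} {x y : Fin n → ℝ} {κ : ℝ} (hκ : 0 < κ) (hκ' : κ ≤ 1 / 16)
    (h1 : 1 / 8 ≤ n * κ) (h2 : n * κ ≤ 3 / 16) (h3 : ∀ l, 0 ≤ y l)
    (h4 : ∀ l, y l ≤ x l * (1 - 2⁻¹ ^ 27 * κ)) (h5 : ∀ l, 1 - 4 * κ ≤ x l) :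
    ∏ l, y l - ∏ l, x l ≤ -2⁻¹ ^ 33 := by
  have h6 := prod_le_prod (s := univ) (fun l _ => h3 l) fun l _ => h4 l
  have h7 := prod_le_prod (s := univ) (f := fun _ : Fin n => 1 - 4 * κ) (fun l _ => by linarith)
    fun l _ => h5 l
  rw [prod_mul_distrib, Fin.prod_const] at h6
  rw [Fin.prod_const] at h7
  have h8 := one_add_mul_le_pow (a := -(4 * κ)) (by linarith) n
  have h9 := one_sub_pow_le (x := 2⁻¹ ^ 27 * κ) (by positivity) (by linarith) n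
  have h10 : 0 ≤ (1 - 2⁻¹ ^ 27 * κ) ^ n := pow_nonneg (by linarith) n
  rw [← sub_eq_add_neg] at h8
  have h11 : (1 - 2⁻¹ ^ 27 * κ) ^ n ≤ 1 - 2⁻¹ ^ 31 := by nlinarith
  have h12 : 1 / 4 ≤ ∏ l, x l := by linarith
  nlinarith

theorem Cls.mac_ap [DecidableEq G] [Countable G] (hC : Cls C) (hG : IsAmenable G) (K : Finset G)
    {d : ℝ} (hd : 0 < d) : ∃ Q ∈ C, ∃ U : Bool → Q.E, (∀ s, 0 ≤ U s ∧ ‖U s‖ ≤ 1) ∧ ∀ τ ∈ Q.T,
      2⁻¹ ^ 32 ≤ nq τ (U true * U false - U false * U true) ^ 2 ∧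
      ∀ g ∈ K, ∀ s, nq τ (Q.act g (U s) - U s) ≤ d := by
  obtain ⟨Q, hQ, κ, hκ, hκ', A, H⟩ := hC.blk hG K (δ := (d ^ 2) ^ 2) (by positivity)
  obtain ⟨n, h1, h2⟩ : ∃ n : ℕ, 1 / 8 ≤ n * κ ∧ n * κ ≤ 3 / 16 := by
    refine ⟨⌈1 / (8 * κ)⌉₊, ?_, ?_⟩
    · have := Nat.le_ceil (1 / (8 * κ))
      rw [div_le_iff₀ (by positivity)] at this
      linarith
    · have := (Nat.ceil_lt_add_one (show 0 ≤ 1 / (8 * κ) by positivity)).le
      rw [← sub_le_iff_le_add, le_div_iff₀ (by positivity)] at this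
      linarith
  obtain ⟨Q', hQ', J, HJ⟩ := hC.mp hQ n
  have hu := fun s => one_sub_sq (H.pos s) (H.nrm s)
  have hU : ∀ s, 0 ≤ J fun _ => 1 - A s * A s := fun s => HJ.nonneg fun _ => (hu s).1
  have hm : ∀ x y : Q.E, J (fun _ => x) * J (fun _ => y) = J fun _ => x * y := fun x y =>
    (HJ.mul _ _).symm
  refine ⟨Q', hQ', fun s => J fun _ => 1 - A s * A s, fun s => ⟨hU s, HJ.norm _ fun _ => (hu s).2⟩,
    fun τ hτ => ⟨?_, fun g hg s => ?_⟩⟩
  · have := HJ.prod (Fin 2) ![-1, 1] ![fun _ => (1 - A true * A true) * (1 - A false * A false) *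
      ((1 - A false * A false) * (1 - A true * A true)), fun _ => (1 - A true * A true) *
      (1 - A false * A false) * ((1 - A true * A true) * (1 - A false * A false))] (-2⁻¹ ^ 33)
      (fun σ hσ => by
        choose x y h3 h4 h5 h6 h7 using fun l => mac_one (hC.tr hQ (hσ l)) (H.pos true) (H.nrm true)
          (H.pos false) (H.nrm false) (H.up _ (hσ l) true) (H.up _ (hσ l) false)
          (e := 2⁻¹ ^ 27 * κ) (by linarith [H.lo _ (hσ l)]) (by positivity)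
        have := prod_gap hκ hκ' h1 h2 h5 h6 h7
        simp only [Fin.sum_univ_two, Matrix.cons_val_zero, Matrix.cons_val_one, h3, h4,
          ← Complex.ofReal_prod, neg_mul, one_mul, Complex.add_re, Complex.neg_re, Complex.ofReal_re]
        linarith) τ hτ
    rw [comm_sq (hC.tr hQ' hτ) (hU _).isSelfAdjoint (hU _).isSelfAdjoint]
    simp only [Fin.sum_univ_two, Matrix.cons_val_zero, Matrix.cons_val_one, neg_mul, one_mul,
      Complex.add_re, Complex.neg_re] at this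
    simp only [hm]
    linarith
  · have h3 : ∀ σ ∈ Q.T, nq σ (A s) ^ 2 ≤ κ := fun σ hσ => by
      rw [nq_sq (hC.tr hQ hσ).pos, (H.pos s).isSelfAdjoint.star_eq]; exact H.up σ hσ s
    have h4 : ∀ w : Q.E, ‖w‖ ≤ 1 → ‖τ (J fun _ => w * (1 - A s * A s)) -
        τ (J fun _ => w * Q.act g (1 - A s * A s))‖ ≤ n * (2 * (d ^ 2 * κ)) := fun w hw =>
      HJ.sub_le (fun σ hσ => ⟨(st_norm_le (hC.tr hQ hσ).st _).trans
        ((norm_mul_le_of_le hw (hu s).2).trans_eq (one_mul _)), (st_norm_le (hC.tr hQ hσ).st _).trans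
        ((norm_mul_le_of_le hw ((Q.norm_act g _).trans_le (hu s).2)).trans_eq (one_mul _)), by
          rw [map_sub, map_one, map_mul (Q.act g)]
          exact mac_two (hC.tr hQ hσ) hw hκ.le (sq_nonneg d) (h3 σ hσ)
            (by simpa only [nq_comp] using h3 _ (hC.inv hQ hσ g)) (H.inv σ hσ g hg s)⟩) hτ
    have h5 := h4 _ (hu s).2
    have h6 := h4 _ ((Q.norm_act g _).trans_le (hu s).2)
    refine nq_le_of_sq hd.le ?_
    rw [star_sub, ← map_star, (hU s).isSelfAdjoint.star_eq, HJ.act, mul_sub, sub_mul, sub_mul]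
    simp only [hm, map_sub τ, Complex.sub_re]
    have h7 := (Complex.re_le_norm _).trans h5
    have h8 := (Complex.re_le_norm _).trans ((norm_sub_rev _ _).trans_le h6)
    simp only [Complex.sub_re] at h7 h8
    nlinarith [mul_le_mul_of_nonneg_left h2 (sq_nonneg d), sq_nonneg d]

lemma Up.lo {Q : ℕ → TAlg.{u} G} {Q' : TAlg.{u} G}
    {Θ : (GAlg.prd fun n => (Q n).toGAlg).E →⋆ₐ[ℂ] Q'.E} (H : Up Θ) (hC : Cls C) (hQ : ∀ n, Q n ∈ C)
    (hQ' : Q' ∈ C) {y : Prd fun n => (Q n).E} {c : ℝ} (h : ∀ n, ∀ σ ∈ (Q n).T, c ≤ nq σ (y n) ^ 2)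
    {τ} (hτ : τ ∈ Q'.T) : c ≤ nq τ (Θ y) ^ 2 := by
  have := H.re τ hτ (-(star y * y)) (-c) fun ε hε => Eventually.of_forall fun n σ hσ => by
    have := h n σ hσ
    rw [nq_sq (hC.tr (hQ n) hσ).pos] at this
    simp only [Prd.neg_apply, Prd.mul_apply, Prd.star_apply, map_neg, Complex.neg_re]
    linarith
  rw [nq_sq (hC.tr hQ' hτ).pos]
  simpa [map_star] using this

lemma Prd.nonneg {I : Type*} {E : I → Type*} [∀ i, CStarAlgebra (E i)] {y : Prd E}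
    (h : ∀ i, 0 ≤ y i) : 0 ≤ y := by
  choose z hz using fun i => CStarAlgebra.nonneg_iff_eq_star_mul_self.1 (h i)
  have h1 : ∀ i, ‖z i‖ ≤ √‖y‖ := fun i => Real.le_sqrt_of_sq_le (by
    rw [sq, ← CStarRing.norm_star_mul_self, ← hz]; exact y.norm_apply_le i)
  rw [show y = star (Prd.mk z ⟨_, h1⟩) * Prd.mk z ⟨_, h1⟩ from Prd.ext hz]
  exact star_mul_self_nonneg _

theorem Cls.mac [DecidableEq G] [Countable G] (hC : Cls C) (hG : IsAmenable G) :
    ∃ Q ∈ C, ∃ U : Bool → Q.E, (∀ s, 0 ≤ U s ∧ ‖U s‖ ≤ 1 ∧ ∀ g, Q.act g (U s) = U s) ∧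
      ∀ τ ∈ Q.T, 2⁻¹ ^ 32 ≤ nq τ (U true * U false - U false * U true) ^ 2 := by
  obtain ⟨K, hK⟩ := exists_exh G
  choose Q hQ U h1 h2 using fun n : ℕ => hC.mac_ap hG (K n) (d := 1 / (n + 1)) (by positivity)
  obtain ⟨Q', hQ', Θ, H⟩ := hC.up' Q hQ
  let y : Bool → Prd fun n => (Q n).E := fun s => Prd.mk (fun n => U n s) ⟨1, fun n => (h1 n s).2⟩
  refine ⟨Q', hQ', fun s => Θ (y s), fun s => ⟨map_nonneg Θ (Prd.nonneg fun n => (h1 n s).1),
    (NonUnitalStarAlgHom.norm_apply_le Θ _).trans (Prd.norm_le _ zero_le_one fun n => (h1 n s).2),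
    H.fix _ fun g ε hε => ?_⟩, fun τ hτ => ?_⟩
  · filter_upwards [hK g, ev_small hε] with n h3 h4 σ hσ
    exact ((h2 n σ hσ).2 g h3 s).trans h4
  · rw [← map_mul, ← map_mul, ← map_sub]
    exact H.lo hC hQ hQ' (fun n σ hσ => (h2 n σ hσ).1) hτ

end Vale.Agent.P095
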