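import Vale.Agent.P095.Prd

/-! Equivariant central sequence algebras modulo the annihilator. -/

namespace Vale.Agent.P095

open scoped CStarAlgebra
open Filter Topology
open Vale.Agent.P101

attribute [local instance] CStarAlgebra.spectralOrder CStarAlgebra.spectralOrderedRing

universe u

lemma exists_unit {A : Type*} [NonUnitalCStarAlgebra A] (F : Finset A) {ε : ℝ} (hε : 0 < ε) :
    ∃ e : A, 0 ≤ e ∧ ‖e‖ ≤ 1 ∧ ∀ a ∈ F, ‖e * a - a‖ ≤ ε ∧ ‖a * e - a‖ ≤ ε := by
  have h := CStarAlgebra.increasingApproximateUnit A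
  have h1 : ∀ᶠ e in CStarAlgebra.approximateUnit A, ∀ a ∈ F, ‖e * a - a‖ ≤ ε ∧ ‖a * e - a‖ ≤ ε :=
    (eventually_all_finset F).2 fun a _ => by
      have h2 := Metric.tendsto_nhds.1 (h.tendsto_mul_right a) ε hε
      have h3 := Metric.tendsto_nhds.1 (h.tendsto_mul_left a) ε hε
      filter_upwards [h2, h3] with e h2 h3
      rw [dist_eq_norm] at h2 h3
      exact ⟨h2.le, h3.le⟩
  exact (h.eventually_nonneg.and (h.eventually_norm.and h1)).exists

/-- unital C*-algebras with an action of `G` -/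
structure GAlg (G : Type*) [Group G] where
  E : Type u
  [inst : CStarAlgebra E]
  act : G → E →⋆ₐ[ℂ] E
  act_one : ∀ x, act 1 x = x
  act_mul : ∀ g h x, act (g * h) x = act g (act h x)

attribute [instance] GAlg.inst

variable {G : Type*} [Group G]

lemma GAlg.act_inv (D : GAlg G) (g : G) (x : D.E) : D.act g (D.act g⁻¹ x) = x := by
  rw [← D.act_mul, mul_inv_cancel, D.act_one]

lemma GAlg.inv_act (D : GAlg G) (g : G) (x : D.E) : D.act g⁻¹ (D.act g x) = x := by
  rw [← D.act_mul, inv_mul_cancel, D.act_one]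

lemma GAlg.norm_act (D : GAlg G) (g : G) (x : D.E) : ‖D.act g x‖ = ‖x‖ :=
  le_antisymm (NonUnitalStarAlgHom.norm_apply_le _ _)
    ((congrArg norm (D.inv_act g x)).symm.trans_le (NonUnitalStarAlgHom.norm_apply_le _ _))

/-- equivariance -/
def Eqv {D : GAlg G} {D' : GAlg G} (j : D.E →⋆ₐ[ℂ] D'.E) : Prop :=
  ∀ g x, j (D.act g x) = D'.act g (j x)

lemma Eqv.comp {D D' D'' : GAlg G} {j : D.E →⋆ₐ[ℂ] D'.E} {k : D'.E →⋆ₐ[ℂ] D''.E} (hk : Eqv k)
    (hj : Eqv j) : Eqv (k.comp j) := fun g x => by simp [hj g x, hk g]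

/-- product action -/
@[reducible] noncomputable def GAlg.prd {I : Type} (D : I → GAlg.{u} G) : GAlg.{u} G where
  E := Prd fun i => (D i).E
  act g := Prd.hom fun i => ((D i).act g).comp (Prd.ev i)
  act_one x := Prd.ext fun i => by simp [GAlg.act_one]
  act_mul g h x := Prd.ext fun i => by simp [GAlg.act_mul]

lemma GAlg.prd_act {I : Type} (D : I → GAlg.{u} G) (g : G) (x : Prd fun i => (D i).E) (i : I) :
    (GAlg.prd D).act g x i = (D i).act g (x i) := rfl

/-- restriction to an invariant closed subalgebra -/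
noncomputable def GAlg.sub (D : GAlg.{u} G) (S : StarSubalgebra ℂ D.E) (hS : IsClosed (S : Set D.E))
    (h : ∀ g, ∀ x ∈ S, D.act g x ∈ S) : GAlg.{u} G where
  E := S
  inst := StarSubalgebra.cstarAlgebra S (h_closed := hS)
  act g := ((D.act g).comp S.subtype).codRestrict S fun x => h g _ x.2
  act_one _ := Subtype.ext (D.act_one _)
  act_mul _ _ _ := Subtype.ext (D.act_mul _ _ _)

/-- induced action on a quotient -/
lemma GAlg.exists_quot (D : GAlg G) {E : Type u} [CStarAlgebra E] {q : D.E →⋆ₐ[ℂ] E}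
    (hq : Function.Surjective q) (h : ∀ g x, q x = 0 → q (D.act g x) = 0) :
    ∃ (act : G → E →⋆ₐ[ℂ] E), (∀ x, act 1 x = x) ∧ (∀ g h x, act (g * h) x = act g (act h x)) ∧
      ∀ g x, q (D.act g x) = act g (q x) := by
  choose act hact using fun g => exists_desc hq (q.comp (D.act g)) (h g)
  refine ⟨act, fun x => ?_, fun g h x => ?_, fun g x => (hact g x).symm⟩
  · obtain ⟨x, rfl⟩ := hq x
    simp [hact, D.act_one]
  · obtain ⟨x, rfl⟩ := hq x
    simp [hact, D.act_mul]

/-- a covariant homomorphism from `A` -/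
structure Sys (A : Type*) [NonUnitalCStarAlgebra A] (X : GAlg.{u} G) where
  φ : A →⋆ₙₐ[ℂ] X.E
  α : G → A → A
  cov : ∀ g a, X.act g (φ a) = φ (α g a)
  nrm : ∀ g a, ‖α g a‖ ≤ ‖a‖

variable {A : Type*} [NonUnitalCStarAlgebra A] {X : GAlg.{u} G} (S : Sys A X) {I : Type}

/-- central sequences -/
def cenS (U : Ultrafilter I) : StarSubalgebra ℂ (Prd fun _ : I => X.E) where
  carrier := {x | ∀ a : A, Tendsto (fun n => x n * S.φ a - S.φ a * x n) U (𝓝 0)}
  mul_mem' := by
    intro x y hx hy a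
    have h1 : Tendsto (fun n => x n * (y n * S.φ a - S.φ a * y n)) U (𝓝 0) :=
      isBoundedUnder_le_mul_tendsto_zero (isBoundedUnder_of ⟨_, x.norm_apply_le⟩) (hy a)
    have h2 : Tendsto (fun n => (x n * S.φ a - S.φ a * x n) * y n) U (𝓝 0) :=
      (hx a).zero_mul_isBoundedUnder_le (isBoundedUnder_of ⟨_, y.norm_apply_le⟩)
    have h3 := h1.add h2
    rw [add_zero] at h3
    refine h3.congr fun n => ?_
    simp only [Prd.mul_apply]
    noncomm_ring
  add_mem' := by
    intro x y hx hy a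
    have h3 := (hx a).add (hy a)
    rw [add_zero] at h3
    refine h3.congr fun n => ?_
    simp only [Prd.add_apply]
    noncomm_ring
  algebraMap_mem' := fun c a => by simp [Algebra.algebraMap_eq_smul_one]
  star_mem' := by
    intro x hx a
    have h3 := (hx (star a)).star.neg
    rw [star_zero, neg_zero] at h3
    refine h3.congr fun n => ?_
    simp [map_star]

lemma cenS_closed (U : Ultrafilter I) : IsClosed (cenS S U : Set (Prd fun _ : I => X.E)) := by
  refine isClosed_of_closure_subset fun x hx a => ?_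
  rw [Metric.tendsto_nhds]
  intro ε hε
  obtain ⟨δ, hδ, hδ'⟩ := exists_pos_mul_lt (half_pos hε) (2 * ‖S.φ a‖)
  obtain ⟨y, hy, hxy⟩ := Metric.mem_closure_iff.1 hx δ hδ
  filter_upwards [Metric.tendsto_nhds.1 (hy a) _ (half_pos hε)] with i hi
  rw [dist_zero_right] at hi ⊢
  rw [dist_eq_norm] at hxy
  have h1 : ‖x i - y i‖ ≤ δ := ((x - y).norm_apply_le i).trans hxy.le
  have h2 : x i * S.φ a - S.φ a * x i = (y i * S.φ a - S.φ a * y i) +
      ((x i - y i) * S.φ a - S.φ a * (x i - y i)) := by noncomm_ring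
  rw [h2]
  have h3 := norm_sub_le_of_le (norm_mul_le_of_le h1 (le_refl ‖S.φ a‖))
    (norm_mul_le_of_le (le_refl ‖S.φ a‖) h1)
  refine (norm_add_le_of_le le_rfl h3).trans_lt ?_
  linarith

lemma Sys.cov' (g : G) (a : A) : S.φ a = X.act g (S.φ (S.α g⁻¹ a)) := by
  rw [← S.cov, X.act_inv]

/-- central sequences with the pointwise action -/
noncomputable def Cen (U : Ultrafilter I) : GAlg.{u} G :=
  (GAlg.prd fun _ : I => X).sub (cenS S U) (cenS_closed S U) fun g x hx a => by
    have h1 := ((map_continuous (X.act g)).tendsto 0).comp (hx (S.α g⁻¹ a))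
    rw [map_zero] at h1
    refine h1.congr fun n => ?_
    rw [S.cov' g a]
    simp only [Function.comp, map_sub, map_mul]
    rfl

variable {S} {U : Ultrafilter I}

/-- the underlying sequence -/
def Cen.seq (x : (Cen S U).E) : Prd fun _ : I => X.E := Subtype.val x

instance : CoeFun (Cen S U).E fun _ => I → X.E := ⟨fun x => Cen.seq x⟩

noncomputable def Cen.ev (i : I) : (Cen S U).E →⋆ₐ[ℂ] X.E := (Prd.ev i).comp (cenS S U).subtype

lemma Cen.ev_apply (i : I) (x : (Cen S U).E) : Cen.ev i x = x i := rfl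

lemma Cen.act_apply (g : G) (x : (Cen S U).E) (i : I) : (Cen S U).act g x i = X.act g (x i) := rfl

lemma Cen.norm_apply_le (x : (Cen S U).E) (i : I) : ‖x i‖ ≤ ‖x‖ := (Cen.seq x).norm_apply_le i

lemma Cen.comm (x : (Cen S U).E) (a : A) :
    Tendsto (fun n => x n * S.φ a - S.φ a * x n) U (𝓝 0) := x.2 a

noncomputable def Cen.mk (x : I → X.E) (h : ∃ C, ∀ i, ‖x i‖ ≤ C)
    (h' : ∀ a : A, Tendsto (fun n => x n * S.φ a - S.φ a * x n) U (𝓝 0)) : (Cen S U).E :=
  ⟨Prd.mk x h, h'⟩

@[simp] lemma Cen.mk_apply (x : I → X.E) (h) (h') (i : I) : (Cen.mk (S := S) (U := U) x h h') i = x i :=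
  rfl

@[simp] lemma Cen.add_apply (x y : (Cen S U).E) (i : I) : (x + y) i = x i + y i := rfl
@[simp] lemma Cen.sub_apply (x y : (Cen S U).E) (i : I) : (x - y) i = x i - y i := rfl
@[simp] lemma Cen.zero_apply (i : I) : (0 : (Cen S U).E) i = 0 := rfl
@[simp] lemma Cen.one_apply (i : I) : (1 : (Cen S U).E) i = 1 := rfl
@[simp] lemma Cen.mul_apply (x y : (Cen S U).E) (i : I) : (x * y) i = x i * y i := rfl
@[simp] lemma Cen.smul_apply (c : ℂ) (x : (Cen S U).E) (i : I) : (c • x) i = c • x i := rfl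
@[simp] lemma Cen.star_apply (x : (Cen S U).E) (i : I) : (star x) i = star (x i) := rfl

lemma Cen.sum_apply {κ : Type*} (s : Finset κ) (x : κ → (Cen S U).E) (i : I) :
    (∑ k ∈ s, x k) i = ∑ k ∈ s, x k i := map_sum (Cen.ev i) x s

@[ext] lemma Cen.ext {x y : (Cen S U).E} (h : ∀ i, x i = y i) : x = y := Subtype.ext (Prd.ext h)

structure IsModel {D : GAlg.{u} G} (ι : (Cen S U).E →⋆ₐ[ℂ] D.E) : Prop where
  surj : Function.Surjective ι
  le : ∀ x (a : A) ε, 0 < ε → ∀ᶠ i in U, ‖x i * S.φ a‖ ≤ ‖ι x‖ * ‖a‖ + ε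
  ge : ∀ x C, 0 ≤ C → (∀ a : A, ‖a‖ ≤ 1 → ∀ ε, 0 < ε → ∀ᶠ i in U, ‖x i * S.φ a‖ ≤ C + ε) → ‖ι x‖ ≤ C
  eqv : Eqv ι

lemma bdd_tendsto (U : Ultrafilter I) {f : I → ℝ} {C : ℝ} (h : ∀ i, |f i| ≤ C) :
    Tendsto f U (𝓝 (limUnder U f)) := by
  obtain ⟨r, -, hr⟩ := (isCompact_Icc (a := -C) (b := C)).ultrafilter_le_nhds (U.map f) (by
      rw [Ultrafilter.coe_map, le_principal_iff, mem_map]
      exact Eventually.of_forall fun i => abs_le.1 (h i))
  exact tendsto_nhds_limUnder ⟨r, hr⟩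

lemma ev_le {f : I → ℝ} {l : Filter I} {r C : ℝ} (h : Tendsto f l (𝓝 r)) (hr : r ≤ C) {ε : ℝ}
    (hε : 0 < ε) : ∀ᶠ i in l, f i ≤ C + ε :=
  (h.eventually_lt_const (by linarith)).mono fun _ h => h.le

theorem exists_model (S : Sys A X) (U : Ultrafilter I) :
    ∃ (D : GAlg.{u} G) (ι : (Cen S U).E →⋆ₐ[ℂ] D.E), IsModel ι := by
  let L : (Cen S U).E → A → ℝ := fun x a => limUnder U fun i => ‖x i * S.φ a‖
  have hb : ∀ (x : (Cen S U).E) a i, ‖x i * S.φ a‖ ≤ ‖x‖ * ‖a‖ := fun x a i =>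
    norm_mul_le_of_le (Cen.norm_apply_le x i) (NonUnitalStarAlgHom.norm_apply_le _ _)
  have hL : ∀ x a, Tendsto (fun i => ‖x i * S.φ a‖) U (𝓝 (L x a)) := fun x a =>
    bdd_tendsto U fun i => (abs_of_nonneg (norm_nonneg _)).trans_le (hb x a i)
  let ν : (Cen S U).E → ℝ := fun x => ⨆ a : Metric.closedBall (0 : A) 1, L x a
  have hbd : ∀ x, BddAbove (Set.range fun a : Metric.closedBall (0 : A) 1 => L x a) := fun x =>
    ⟨‖x‖, by
      rintro _ ⟨a, rfl⟩
      exact le_of_tendsto' (hL x a) fun i => (hb x a i).trans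
        (mul_le_of_le_one_right (norm_nonneg _) (mem_closedBall_zero_iff.1 a.2))⟩
  have h1 : ∀ x a, ‖a‖ ≤ 1 → L x a ≤ ν x := fun x a ha =>
    le_ciSup (hbd x) (⟨a, by simpa using ha⟩ : Metric.closedBall (0 : A) 1)
  have h0 : ∀ x, 0 ≤ ν x := fun x =>
    (ge_of_tendsto' (hL x 0) fun i => norm_nonneg _).trans (h1 x 0 (by simp))
  have h2 : ∀ x a, L x a ≤ ν x * ‖a‖ := fun x a => by
    rcases (norm_nonneg a).eq_or_lt with h | h
    · exact le_of_tendsto' (hL x a) fun i => by simp [norm_eq_zero.1 h.symm]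
    have h3 := h1 x ((‖a‖⁻¹ : ℂ) • a) (by simp [norm_smul, h.ne'])
    have h4 : L x ((‖a‖⁻¹ : ℂ) • a) = ‖a‖⁻¹ * L x a :=
      tendsto_nhds_unique (hL _ _) (((hL x a).const_mul _).congr fun i => by simp [norm_smul])
    rwa [h4, inv_mul_le_iff₀ h, mul_comm] at h3
  have h3 : ∀ x C, (∀ a : A, ‖a‖ ≤ 1 → L x a ≤ C) → ν x ≤ C := fun x C h =>
    ciSup_le fun a => h a (mem_closedBall_zero_iff.1 a.2)
  have h : IsCSemi ν :=
    { zero := le_antisymm (h3 _ _ fun a _ => le_of_tendsto' (hL _ a) fun i => by simp) (h0 _)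
      add := fun x y => h3 _ _ fun a ha => (le_of_tendsto_of_tendsto' (hL _ a)
        ((hL x a).add (hL y a)) fun i => by simpa [add_mul] using norm_add_le _ _).trans
          (add_le_add (h1 x a ha) (h1 y a ha))
      smul := fun c x => h3 _ _ fun a ha => (le_of_tendsto_of_tendsto' (hL _ a)
        ((hL x a).const_mul ‖c‖) fun i => by simp [norm_smul]).trans
          (mul_le_mul_of_nonneg_left (h1 x a ha) (norm_nonneg _))
      mul := fun x y => h3 _ _ fun a ha => le_of_forall_pos_le_add fun ε hε => by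
        obtain ⟨δ, hδ, hδ'⟩ := exists_pos_mul_lt hε (‖x‖ * ‖y‖)
        obtain ⟨e, -, he, he'⟩ := exists_unit {a} hδ
        have h5 := (he' a (Finset.mem_singleton_self a)).1
        have h6 := ((hL x e).mul (hL y a)).add
          (((Cen.comm y e).norm.const_mul (‖x‖ * ‖S.φ a‖)).add_const (‖x‖ * ‖y‖ * δ))
        refine (le_of_tendsto_of_tendsto' (hL _ a) h6 fun i => ?_).trans ?_
        · have h7 : (x * y) i * S.φ a = x i * S.φ e * (y i * S.φ a) +
              (x i * (y i * S.φ e - S.φ e * y i) * S.φ a - x i * y i * S.φ (e * a - a)) := by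
            simp only [Cen.mul_apply, map_sub, map_mul]; noncomm_ring
          rw [h7]
          refine norm_add_le_of_le (norm_mul_le _ _) (norm_sub_le_of_le ?_ ?_)
          · refine norm_mul₃_le.trans ?_
            rw [mul_right_comm]
            gcongr
            exact Cen.norm_apply_le x i
          · exact norm_mul_le_of_le (norm_mul_le_of_le (Cen.norm_apply_le x i) (Cen.norm_apply_le y i))
              ((NonUnitalStarAlgHom.norm_apply_le _ _).trans h5)
        · have h8 := mul_le_mul (h1 x e he) (h1 y a ha)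
            (ge_of_tendsto' (hL y a) fun i => norm_nonneg _) (h0 x)
          simp only [norm_zero, mul_zero, zero_add]
          linarith
      cstar := fun x => by
        have h4 : ν x ≤ √(ν (star x * x)) := h3 _ _ fun a ha => by
          refine Real.le_sqrt_of_sq_le ?_
          rw [sq]
          refine (le_of_tendsto_of_tendsto' ((hL x a).mul (hL x a)) (hL (star x * x) a)
            fun i => ?_).trans (h1 _ a ha)
          rw [← CStarRing.norm_star_mul_self, star_mul, mul_assoc]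
          refine (norm_mul_le _ _).trans ?_
          simp only [Cen.mul_apply, Cen.star_apply, mul_assoc]
          refine mul_le_of_le_one_left (norm_nonneg _) ?_
          rw [norm_star]
          exact (NonUnitalStarAlgHom.norm_apply_le _ _).trans ha
        calc ν x * ν x ≤ √(ν (star x * x)) * √(ν (star x * x)) :=
              mul_le_mul h4 h4 (h0 _) (Real.sqrt_nonneg _)
          _ = _ := Real.mul_self_sqrt (h0 _) }
  obtain ⟨E, _, ι, h4, h5⟩ := exists_completion h
  have h6 := surj_of_dense ι h5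
  obtain ⟨act, ha1, ha2, ha3⟩ := (Cen S U).exists_quot h6 fun g x hx => by
    rw [← norm_le_zero_iff, h4] at hx ⊢
    refine h3 _ _ fun a ha => le_trans (le_of_tendsto_of_tendsto' (hL _ a) (hL x (S.α g⁻¹ a))
      fun i => ?_) ((h1 x _ ((S.nrm _ _).trans ha)).trans hx)
    rw [Cen.act_apply, S.cov' g a, ← map_mul, X.norm_act]
  refine ⟨⟨E, act, ha1, ha2⟩, ι, h6, fun x a ε hε => ev_le (hL x a) (h4 x ▸ h2 x a) hε,
    fun x C _ hC => h4 x ▸ h3 x C fun a ha => le_of_forall_pos_le_add fun ε hε =>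
      le_of_tendsto (hL x a) (hC a ha ε hε), ha3⟩

end Vale.Agent.P095
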