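import Vale.Agent.P095.Canon

/-! Multiplier algebras: basic identities and the extension of an action. -/

namespace Vale.Agent.P095

open scoped CStarAlgebra MultiplierAlgebra
open Filter Topology

universe u

namespace Mu

variable {B : Type u} [NonUnitalCStarAlgebra B]

lemma ext_fst {m n : 𝓜(ℂ, B)} (h : ∀ b, m.fst b = n.fst b) : m = n := by
  rw [← sub_eq_zero, ← norm_eq_zero, ← DoubleCentralizer.norm_fst, norm_eq_zero]
  ext b
  simp [h b]

lemma eq_of_mul_left {x y : B} (h : ∀ c, c * x = c * y) : x = y := by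
  rw [← sub_eq_zero, ← CStarRing.star_mul_self_eq_zero_iff, mul_sub, h, sub_self]

lemma fst_mul (m : 𝓜(ℂ, B)) (a b : B) : m.fst (a * b) = m.fst a * b :=
  eq_of_mul_left fun c => by rw [← m.central, ← mul_assoc, ← mul_assoc, m.central]

lemma coe_fst_apply (a b : B) : (a : 𝓜(ℂ, B)).fst b = a * b := rfl

lemma mul_fst_apply (m n : 𝓜(ℂ, B)) (b : B) : (m * n).fst b = m.fst (n.fst b) := rfl

lemma one_fst_apply (b : B) : (1 : 𝓜(ℂ, B)).fst b = b := rfl

lemma sub_fst_apply (m n : 𝓜(ℂ, B)) (b : B) : (m - n).fst b = m.fst b - n.fst b := rfl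

lemma coe_mul (a b : B) : ((a * b : B) : 𝓜(ℂ, B)) = (a : 𝓜(ℂ, B)) * b :=
  map_mul (DoubleCentralizer.coeHom (𝕜 := ℂ) (A := B)) a b

lemma coe_sub (a b : B) : ((a - b : B) : 𝓜(ℂ, B)) = (a : 𝓜(ℂ, B)) - b :=
  map_sub (DoubleCentralizer.coeHom (𝕜 := ℂ) (A := B)) a b

lemma coe_add (a b : B) : ((a + b : B) : 𝓜(ℂ, B)) = (a : 𝓜(ℂ, B)) + b :=
  map_add (DoubleCentralizer.coeHom (𝕜 := ℂ) (A := B)) a b

lemma coe_smul (c : ℂ) (a : B) : ((c • a : B) : 𝓜(ℂ, B)) = c • (a : 𝓜(ℂ, B)) :=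
  map_smul (DoubleCentralizer.coeHom (𝕜 := ℂ) (A := B)) c a

lemma coe_star (a : B) : ((star a : B) : 𝓜(ℂ, B)) = star (a : 𝓜(ℂ, B)) :=
  map_star (DoubleCentralizer.coeHom (𝕜 := ℂ) (A := B)) a

lemma coe_zero : ((0 : B) : 𝓜(ℂ, B)) = 0 := map_zero (DoubleCentralizer.coeHom (𝕜 := ℂ) (A := B))

lemma coe_fst (m : 𝓜(ℂ, B)) (b : B) : ((m.fst b : B) : 𝓜(ℂ, B)) = m * b :=
  ext_fst fun c => (fst_mul m b c).symm

lemma coe_snd (m : 𝓜(ℂ, B)) (b : B) : ((m.snd b : B) : 𝓜(ℂ, B)) = b * m :=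
  ext_fst fun c => m.central b c

lemma norm_coe (b : B) : ‖(b : 𝓜(ℂ, B))‖ = ‖b‖ := by
  rw [← DoubleCentralizer.norm_fst, DoubleCentralizer.coe_fst]
  exact ContinuousLinearMap.opNorm_mul_apply ℂ B b

lemma coe_injective : Function.Injective fun b : B => (b : 𝓜(ℂ, B)) := fun a b h => by
  rw [← sub_eq_zero, ← norm_eq_zero, ← norm_coe, coe_sub]
  simp only at h
  rw [h, sub_self, norm_zero]

lemma norm_fst_apply (m : 𝓜(ℂ, B)) (b : B) : ‖m.fst b‖ = ‖m * (b : 𝓜(ℂ, B))‖ := by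
  rw [← coe_fst, norm_coe]

lemma isometry_coe : Isometry fun b : B => (b : 𝓜(ℂ, B)) :=
  AddMonoidHomClass.isometry_of_norm (DoubleCentralizer.coeHom (𝕜 := ℂ) (A := B)) norm_coe

/-- an automorphism as a continuous linear map -/
noncomputable def eL (e : B ≃⋆ₐ[ℂ] B) : B →L[ℂ] B :=
  LinearMap.mkContinuous
    { toFun := e
      map_add' := map_add e
      map_smul' := map_smul e } 1 fun b => by simpa using (StarAlgEquiv.norm_map e b).le

lemma eL_apply (e : B ≃⋆ₐ[ℂ] B) (b : B) : eL e b = e b := rfl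

/-- extension of an automorphism to multipliers, as a function -/
noncomputable def extF (e : B ≃⋆ₐ[ℂ] B) (m : 𝓜(ℂ, B)) : 𝓜(ℂ, B) where
  fst := eL e ∘L m.fst ∘L eL e.symm
  snd := eL e ∘L m.snd ∘L eL e.symm
  central x y := by
    change e (m.snd (e.symm x)) * y = x * e (m.fst (e.symm y))
    have := congrArg e (m.central (e.symm x) (e.symm y))
    simpa using this

lemma extF_fst (e : B ≃⋆ₐ[ℂ] B) (m : 𝓜(ℂ, B)) (b : B) :
    (extF e m).fst b = e (m.fst (e.symm b)) := rfl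

/-- extension of an automorphism to multipliers -/
noncomputable def ext (e : B ≃⋆ₐ[ℂ] B) : 𝓜(ℂ, B) →⋆ₐ[ℂ] 𝓜(ℂ, B) where
  toFun := extF e
  map_one' := ext_fst fun b => by simp [extF_fst]
  map_mul' m n := ext_fst fun b => by simp [extF_fst]
  map_zero' := ext_fst fun b => by simp [extF_fst]
  map_add' m n := ext_fst fun b => by simp [extF_fst]
  commutes' c := ext_fst fun b => by simp [extF_fst, Algebra.algebraMap_eq_smul_one]
  map_star' m := ext_fst fun b => by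
    change e (star (m.snd (star (e.symm b)))) = star (e (m.snd (e.symm (star b))))
    simp [map_star]

lemma ext_fst_apply (e : B ≃⋆ₐ[ℂ] B) (m : 𝓜(ℂ, B)) (b : B) :
    (ext e m).fst b = e (m.fst (e.symm b)) := rfl

lemma ext_coe (e : B ≃⋆ₐ[ℂ] B) (b : B) : ext e (b : 𝓜(ℂ, B)) = (e b : 𝓜(ℂ, B)) :=
  ext_fst fun c => by simp [ext_fst_apply]

end Mu

variable {G : Type*} [Group G] {B : Type u} [NonUnitalCStarAlgebra B]

/-- the multiplier algebra with the extended action -/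
noncomputable def mulG (β : G →* (B ≃⋆ₐ[ℂ] B)) : GAlg.{u} G where
  E := 𝓜(ℂ, B)
  act g := Mu.ext (β g)
  act_one x := Mu.ext_fst fun b => by
    rw [Mu.ext_fst_apply, map_one]
    rfl
  act_mul g h x := Mu.ext_fst fun b => by
    rw [Mu.ext_fst_apply, Mu.ext_fst_apply, Mu.ext_fst_apply, map_mul]
    rfl

lemma mulG_act (β : G →* (B ≃⋆ₐ[ℂ] B)) (g : G) (m : 𝓜(ℂ, B)) :
    (mulG β).act g m = Mu.ext (β g) m := rfl

lemma Mu.ext_mul (β : G →* (B ≃⋆ₐ[ℂ] B)) (g h : G) (m : 𝓜(ℂ, B)) :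
    Mu.ext (β (g * h)) m = Mu.ext (β g) (Mu.ext (β h) m) := (mulG β).act_mul g h m

end Vale.Agent.P095
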