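import Vale.Agent.P095.Canon

/-! Approximating the identity of a simple nuclear algebra through one positive functional. -/

namespace Vale.Agent.P095

open scoped CStarAlgebra ComplexConjugate
open Filter Topology
open Vale.Agent.P101

attribute [local instance] CStarAlgebra.spectralOrder CStarAlgebra.spectralOrderedRing

section
variable {B : Type*} [NonUnitalCStarAlgebra B] {R Φ : B →ₗ[ℂ] ℂ}

lemma npos_nonneg (hR : ∀ y, ∃ r : ℝ, 0 ≤ r ∧ R (star y * y) = r) {x : B} (hx : 0 ≤ x) :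
    0 ≤ (R x).re ∧ (R x).im = 0 := by
  obtain ⟨y, rfl⟩ := CStarAlgebra.nonneg_iff_eq_star_mul_self.1 hx
  obtain ⟨r, h0, hr⟩ := hR y
  rw [hr]
  exact ⟨by simpa, by simp⟩

lemma npos_im (hR : ∀ y, ∃ r : ℝ, 0 ≤ r ∧ R (star y * y) = r) {x : B} (hx : IsSelfAdjoint x) :
    (R x).im = 0 := by
  rw [← CFC.posPart_sub_negPart x, map_sub, Complex.sub_im,
    (npos_nonneg hR (CFC.posPart_nonneg x)).2, (npos_nonneg hR (CFC.negPart_nonneg x)).2, sub_zero]

lemma npos_re (hR : ∀ y, ∃ r : ℝ, 0 ≤ r ∧ R (star y * y) = r) (x : B) :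
    (R (x + star x)).re = 2 * (R x).re := by
  have h := npos_im hR (x := Complex.I • (x - star x)) (by
    simp [IsSelfAdjoint, sub_eq_add_neg, add_comm])
  rw [map_smul, map_sub, smul_eq_mul, Complex.I_mul_im, Complex.sub_re] at h
  rw [map_add, Complex.add_re]
  linarith

lemma sep_core (hR : ∀ y, ∃ r : ℝ, 0 ≤ r ∧ R (star y * y) = r)
    (hΦ : ∀ y, ∃ r : ℝ, 0 ≤ r ∧ Φ (star y * y) = r)
    (hf : ∀ W, (∀ C C', R (star C' * W * C) = 0) → W = 0) {Y : B} {u : ℝ}
    (hu : ∀ C, (R (star C * Y * C)).re < u) : (Φ Y).re ≤ 0 := by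
  have hY : ∀ C, (R (star C * Y * C)).re ≤ 0 := fun C => by
    by_contra! h6
    have h4 : 0 < u := by simpa using hu 0
    have h7 := hu (√(u / (R (star C * Y * C)).re) • C)
    simp only [star_smul, star_trivial, smul_mul_assoc, mul_smul_comm, smul_smul,
      LinearMap.map_smul_of_tower, Complex.smul_re, smul_eq_mul] at h7
    rw [Real.mul_self_sqrt (by positivity), div_mul_cancel₀ _ h6.ne'] at h7
    exact lt_irrefl _ h7
  have hZ := IsSelfAdjoint.add_star_self Y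
  have h1 : ∀ C, (R (star C * (Y + star Y) * C)).re ≤ 0 := fun C => by
    have := npos_re hR (star C * Y * C)
    rw [star_mul, star_mul, star_star, ← mul_assoc, ← add_mul, ← mul_add] at this
    linarith [hY C]
  have h2 := npos_re hΦ Y
  generalize Y + star Y = Z at hZ h1 h2
  have hp := CFC.posPart_nonneg Z
  have h3 : Z⁺ * Z * Z⁺ = Z⁺ * Z⁺ * Z⁺ := by
    nth_rw 2 [← CFC.posPart_sub_negPart Z]
    rw [mul_sub, CFC.posPart_mul_negPart, sub_zero]
  have h4 : ∀ C, R (star C * (Z⁺ * Z⁺ * Z⁺) * C) = 0 := fun C => by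
    have h5 := h1 (Z⁺ * C)
    have h6 := npos_nonneg hR (star_left_conjugate_nonneg (hp.isSelfAdjoint.conjugate_nonneg hp) C)
    rw [star_mul, hp.star_eq, mul_assoc (star C), ← mul_assoc, mul_assoc (star C), h3] at h5
    exact Complex.ext (le_antisymm h5 h6.1) h6.2
  have h5 : Z⁺ * Z⁺ * Z⁺ = 0 := hf _ fun C C' => by
    have e1 := h4 (C + C')
    have e2 := h4 (C + Complex.I • C')
    simp only [star_add, star_smul, add_mul, mul_add, map_add, h4, smul_mul_assoc, mul_smul_comm,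
      map_smul, smul_eq_mul, RCLike.star_def, Complex.conj_I] at e1 e2
    linear_combination (1 / 2 : ℂ) * e1 + (Complex.I / 2) * e2 +
      (R (star C' * (Z⁺ * Z⁺ * Z⁺) * C) - R (star C * (Z⁺ * Z⁺ * Z⁺) * C')) / 2 * Complex.I_mul_I
  have h6 : Z⁺ = 0 := by
    rw [← CStarRing.star_mul_self_eq_zero_iff, ← CStarRing.star_mul_self_eq_zero_iff, star_mul,
      star_star, hp.star_eq, ← mul_assoc, h5, zero_mul]
  have h7 := (npos_nonneg hΦ (neg_nonneg.2 ((CFC.posPart_eq_zero_iff Z).1 h6))).1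
  rw [map_neg, Complex.neg_re] at h7
  linarith

end

section
variable {A : Type*} [NonUnitalCStarAlgebra A] {n : ℕ}

/-- the trace of `ρ` on matrices -/
noncomputable def trF (n : ℕ) (ρ : A →L[ℂ] ℂ) : CStarMatrix (Fin n) (Fin n) A →ₗ[ℂ] ℂ where
  toFun Z := ∑ k, ρ (Z k k)
  map_add' x y := by simp [Finset.sum_add_distrib]
  map_smul' c x := by simp [Finset.mul_sum]

/-- the functional on matrices dual to a map into a matrix algebra -/
noncomputable def duF (φ : A →ₗ[ℂ] Matrix (Fin n) (Fin n) ℂ) :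
    CStarMatrix (Fin n) (Fin n) A →ₗ[ℂ] ℂ where
  toFun Z := ∑ i, ∑ j, φ (Z i j) i j
  map_add' x y := by simp [Finset.sum_add_distrib]
  map_smul' c x := by simp [Finset.mul_sum]

lemma trF_pos {ρ : A →L[ℂ] ℂ} (hρ : ∀ a, ∃ r : ℝ, 0 ≤ r ∧ ρ (star a * a) = r)
    (y : CStarMatrix (Fin n) (Fin n) A) : ∃ r : ℝ, 0 ≤ r ∧ trF n ρ (star y * y) = r := by
  choose r h0 hr using hρ
  refine ⟨∑ k, ∑ l, r (y l k), Finset.sum_nonneg fun _ _ => Finset.sum_nonneg fun _ _ => h0 _, ?_⟩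
  simp [trF, CStarMatrix.mul_apply, CStarMatrix.star_apply, hr]

lemma duF_pos {φ : A →ₗ[ℂ] Matrix (Fin n) (Fin n) ℂ} (hφ : IsCP φ)
    (y : CStarMatrix (Fin n) (Fin n) A) : ∃ r : ℝ, 0 ≤ r ∧ duF φ (star y * y) = r := by
  obtain ⟨N, hN⟩ := hφ n y
  refine ⟨∑ k, ∑ l, Complex.normSq (∑ i, N k i l i),
    Finset.sum_nonneg fun _ _ => Finset.sum_nonneg fun _ _ => Complex.normSq_nonneg _, ?_⟩
  have h1 : ∀ i j, φ ((star y * y) i j) i j = ∑ k, ∑ l, conj (N k i l i) * N k j l j := fun i j => by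
    have h2 : φ ((star y * y) i j) = (N.conjTranspose * N) i j := congrFun (congrFun hN i) j
    rw [h2, Matrix.mul_apply, Matrix.sum_apply]
    simp [Matrix.mul_apply]
  change ∑ i, ∑ j, φ ((star y * y) i j) i j = _
  simp only [h1, Complex.ofReal_sum, Complex.normSq_eq_conj_mul_self, map_sum, Finset.sum_mul_sum]
  refine (Finset.sum_comm_cycle.trans (Finset.sum_congr rfl fun k _ => ?_))
  exact Finset.sum_comm_cycle

lemma trF_conj (ρ : A →L[ℂ] ℂ) (C' Y C : CStarMatrix (Fin n) (Fin n) A) :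
    trF n ρ (star C' * Y * C) = ∑ k, ∑ j, ∑ i, ρ (star (C' i k) * Y i j * C j k) := by
  simp [trF, CStarMatrix.mul_apply, CStarMatrix.star_apply, Finset.sum_mul]

lemma trF_faithful (hA : IsSimple A) {ρ : A →L[ℂ] ℂ} (h0 : ρ ≠ 0)
    (W : CStarMatrix (Fin n) (Fin n) A) (h : ∀ C C', trF n ρ (star C' * W * C) = 0) : W = 0 := by
  ext i j
  by_contra hne
  have h1 : ∀ x b b', ρ (star b' * x * b) = 0 := simple_of hA {x | ∀ b b', ρ (star b' * x * b) = 0}
    (by
      simp only [Set.ofPred_forall]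
      exact isClosed_iInter fun b => isClosed_iInter fun b' =>
        isClosed_eq (by fun_prop) continuous_const)
    (by simp) (fun hx hy b b' => by simp [mul_add, add_mul, hx b b', hy b b'])
    (fun hx b b' => by simp [hx b b'])
    (fun {x y} hy b b' => by simpa [mul_assoc] using hy b (star x * b'))
    (fun {x y} hx b b' => by simpa [mul_assoc] using hx (y * b) b') (a := W i j) (fun b b' => by
      have := h (CStarMatrix.ofMatrix (Matrix.single j i b)) (CStarMatrix.ofMatrix (Matrix.single i i b'))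
      rw [trF_conj] at this
      simpa [Matrix.single, ite_and, apply_ite star, apply_ite ρ] using this) hne
  refine h0 (ContinuousLinearMap.ext fun x => norm_le_zero_iff.1 (le_of_forall_pos_le_add
    fun ε hε => ?_))
  obtain ⟨δ, hδ, hδ'⟩ := exists_pos_mul_lt hε (2 * ‖ρ‖)
  obtain ⟨v, hv0, hv, hv'⟩ := exists_unit {x} hδ
  obtain ⟨h3, h4⟩ := hv' x (Finset.mem_singleton_self x)
  have h5 := ρ.le_opNorm (star v * x * v - x)
  rw [map_sub, h1, zero_sub, norm_neg, hv0.star_eq,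
    show v * x * v - x = v * (x * v - x) + (v * x - x) by noncomm_ring] at h5
  have h6 := mul_le_mul_of_nonneg_left (norm_add_le_of_le (norm_mul_le_of_le hv h4) h3)
    (norm_nonneg ρ)
  linarith

lemma mem_cone (hA : IsSimple A) {ρ : A →L[ℂ] ℂ}
    (hρ : ∀ a, ∃ r : ℝ, 0 ≤ r ∧ ρ (star a * a) = r) (h0 : ρ ≠ 0) (F : Finset A)
    {φ : A →ₗ[ℂ] Matrix (Fin n) (Fin n) ℂ} (hφ : IsCP φ) :
    (fun x => φ x.1 x.2.1 x.2.2) ∈ closure {v : F × Fin n × Fin n → ℂ |
      ∃ (p : ℕ) (c : Fin p → Fin n → A),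
        ∀ x, v x = ∑ k, ρ (star (c k x.2.1) * x.1 * c k x.2.2)} := by
  classical
  by_contra h
  obtain ⟨f, u, h1, h2⟩ := RCLike.geometric_hahn_banach_closed_point (𝕜 := ℂ) (Convex.closure (by
    rintro v ⟨p, c, hc⟩ v' ⟨p', c', hc'⟩ s t hs ht -
    refine ⟨p + p', Fin.append (fun k i => √s • c k i) (fun k i => √t • c' k i), fun x => ?_⟩
    rw [Fin.sum_univ_add]
    simp only [Fin.append_left, Fin.append_right, star_smul, star_trivial, smul_mul_assoc,
      mul_smul_comm, smul_smul, Real.mul_self_sqrt hs, Real.mul_self_sqrt ht, Pi.add_apply,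
      Pi.smul_apply, hc, hc', Finset.smul_sum, ContinuousLinearMap.map_smul_of_tower]))
    isClosed_closure h
  obtain ⟨w, hw⟩ : ∃ w : F × Fin n × Fin n → ℂ,
      ∀ v, f v = ∑ i, ∑ j, ∑ a : F, v (a, i, j) * w (a, i, j) :=
    ⟨fun x => f fun y => if x = y then 1 else 0, fun v => by
      refine (LinearMap.pi_apply_eq_sum_univ f.toLinearMap v).trans ?_
      rw [Fintype.sum_prod_type_right, Fintype.sum_prod_type]
      rfl⟩
  obtain ⟨Y, hY⟩ : ∃ Y : CStarMatrix (Fin n) (Fin n) A, ∀ i j,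
    Y i j = ∑ a : F, w (a, i, j) • (a : A) := ⟨fun i j => _, fun _ _ => rfl⟩
  have h3 : ∀ C, (trF n ρ (star C * Y * C)).re < u := fun C => by
    have h4 := h1 (fun x => ∑ k, ρ (star (C x.2.1 k) * x.1 * C x.2.2 k))
      (subset_closure ⟨n, fun k i => C i k, fun _ => rfl⟩)
    refine lt_of_eq_of_lt (congrArg Complex.re ?_) h4
    rw [hw, trF_conj, Finset.sum_comm_cycle]
    refine Finset.sum_congr rfl fun i _ => Finset.sum_comm.trans (Finset.sum_congr rfl fun j _ => ?_)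
    simp only [hY, Finset.sum_mul, Finset.mul_sum, map_sum, mul_smul_comm, smul_mul_assoc,
      map_smul, smul_eq_mul, mul_comm (w _)]
    exact Finset.sum_comm
  have h4 : 0 < u := by simpa using h1 0 (subset_closure ⟨0, Fin.elim0, by simp⟩)
  have h5 := sep_core (trF_pos hρ) (duF_pos hφ) (trF_faithful hA h0) h3
  have h6 : duF φ Y = f fun x => φ x.1 x.2.1 x.2.2 := by
    rw [hw]
    change ∑ i, ∑ j, φ (Y i j) i j = _
    simp only [hY, map_sum, map_smul, Matrix.sum_apply, Matrix.smul_apply, smul_eq_mul,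
      mul_comm (w _)]
  rw [h6] at h5
  exact lt_irrefl _ ((h4.trans h2).trans_le h5)

theorem n1 (hA : IsSimple A) (hN : IsNuclear A) {ρ : A →L[ℂ] ℂ}
    (hρ : ∀ a, ∃ r : ℝ, 0 ≤ r ∧ ρ (star a * a) = r) (h0 : ρ ≠ 0) (F : Finset A) {ε : ℝ}
    (hε : 0 < ε) : ∃ (n p : ℕ) (c : Fin p → Fin n → A) (d : Fin n → Fin n → A), ∀ a ∈ F,
      ‖∑ k, ∑ l, ∑ i, ∑ j, ρ (star (c k i) * a * c k j) • (star (d l i) * d l j) - a‖ ≤ ε := by
  obtain ⟨n, φ, ψ, hφ, hψ, -, -, h⟩ := hN F _ (half_pos hε)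
  obtain ⟨d, hd⟩ := hψ.choi
  obtain ⟨v, hv, p, c, hc⟩ := mem_closure_iff.1 (mem_cone hA hρ h0 F hφ)
    {v | ∀ a : F, ‖∑ l, ∑ i, ∑ j, v (a, i, j) • (star (d l i) * d l j) - a‖ < ε} (by
      simp only [Set.ofPred_forall]
      exact isOpen_iInter_of_finite fun a => isOpen_lt (by fun_prop) continuous_const)
    fun a => by
      have := h a a.2
      rw [hd] at this
      exact this.trans_lt (half_lt_self hε)
  refine ⟨n, p, c, d, fun a ha => le_trans (le_of_eq ?_) (hv ⟨a, ha⟩).le⟩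
  simp only [hc, Finset.sum_smul]
  congr 2
  rw [Finset.sum_comm]
  exact Finset.sum_congr rfl fun l _ => Finset.sum_comm_cycle.symm

end

end Vale.Agent.P095
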