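import Vale.Agent.P101.Sq

/-! Nilpotent decompositions of the unit: algebraic part. -/

namespace Vale.Agent.P095.NC

open Finset
open Vale.Agent.P101

lemma star_cover {α : Type*} [PseudoMetricSpace α] {β : ℝ} (hβ : 0 ≤ β) (T : Finset α)
    (h : ∀ a ∈ T, ∃ b ∈ T, b ≠ a ∧ dist a b ≤ β) :
    ∃ c : α → α, ∀ a ∈ T, dist (c a) a ≤ 2 * β ∧ ∃ b ∈ T, b ≠ a ∧ c b = c a := by
  classical
  induction T using Finset.strongInduction with
  | _ T ih =>
  rcases T.eq_empty_or_nonempty with rfl | ⟨v, hv⟩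
  · exact ⟨id, by simp⟩
  obtain ⟨w, hw, hwv, hd⟩ := h v hv
  let T' := T.filter fun a => a ≠ v ∧ a ≠ w ∧ ∃ b ∈ T, b ≠ v ∧ b ≠ w ∧ b ≠ a ∧ dist a b ≤ β
  obtain ⟨c, hc⟩ := ih T' (filter_ssubset.2 ⟨v, hv, by simp⟩) fun a ha => by
    obtain ⟨h1, h2, h3, b, h4, h5, h6, h7, h8⟩ := mem_filter.1 ha
    exact ⟨b, mem_filter.2 ⟨h4, h5, h6, a, h1, h2, h3, h7.symm, by rwa [dist_comm]⟩, h7, h8⟩
  have v1 : v ∉ T' := by simp [T']
  have w1 : w ∉ T' := by simp [T']
  refine ⟨fun a => if a ∈ T' then c a else v, fun a ha => ?_⟩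
  by_cases e : a ∈ T'
  · obtain ⟨h1, b, h2, h3, h4⟩ := hc a e
    exact ⟨by simpa [e] using h1, b, (mem_filter.1 h2).1, h3, by simp [e, h2, h4]⟩
  · simp only [e, if_false]
    refine ⟨?_, ?_⟩
    · by_cases e1 : a = v
      · simp [e1, hβ]
      by_cases e2 : a = w
      · rw [e2]; linarith
      obtain ⟨b, h1, h2, h3⟩ := h a ha
      by_cases e3 : b = v
      · rw [dist_comm, ← e3]; linarith
      by_cases e4 : b = w
      · have := dist_triangle v w a
        rw [e4, dist_comm] at h3; linarith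
      · exact absurd (mem_filter.2 ⟨ha, e1, e2, b, h1, e3, e4, h2, h3⟩) e
    · by_cases e1 : a = v
      · exact ⟨w, hw, e1 ▸ hwv, by simp [w1]⟩
      · exact ⟨v, hv, Ne.symm e1, by simp [v1]⟩

lemma three_col (β : Type*) [Fintype β] (h : Fintype.card β ≠ 1) : ∃ (φ : β → β) (c : β → Fin 3),
    (∀ i, c (φ i) ≠ c i) ∧ ∀ i j, c i = c j → φ i = φ j → i = j := by
  obtain ⟨μ, hμ⟩ : ∃ μ, Fintype.card β = μ := ⟨_, rfl⟩
  have e := Fintype.equivFinOfCardEq hμ
  rw [hμ] at h
  let φ : Fin μ → Fin μ := fun k => ⟨if k.1 = 0 then 1 else k.1 - 1, by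
    have := k.2; split_ifs <;> omega⟩
  let c : Fin μ → Fin 3 := fun k => ⟨if k.1 = 0 then 2 else k.1 % 2, by split_ifs <;> omega⟩
  refine ⟨fun i => e.symm (φ (e i)), fun i => c (e i), fun i => ?_, fun i j h1 h2 => e.injective ?_⟩
  · simp only [Equiv.apply_symm_apply, φ, c, ne_eq, Fin.mk.injEq]
    by_cases a : (e i).1 = 0
    · simp [a]
    · simp only [a, if_false]; split_ifs <;> omega
  · simp only [EmbeddingLike.apply_eq_iff_eq, φ, c, Fin.mk.injEq] at h1 h2
    ext; split_ifs at h1 h2 <;> omega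

variable {K : Type*} [Ring K] [StarRing K]

structure Un {β : Type*} [DecidableEq β] (E : β → β → K) : Prop where
  mul : ∀ i j k l, E i j * E k l = if j = k then E i l else 0
  star : ∀ i j, star (E i j) = E j i

structure Nil (R : K → Prop) (Q : K) (x : Fin 3 → K) : Prop where
  mem : ∀ r, R (x r)
  l : ∀ r, Q * x r = x r
  r : ∀ r, x r * Q = x r
  sq : ∀ r, x r * x r = 0
  sum : ∑ r, star (x r) * x r = Q

variable {β : Type*} [Fintype β] [DecidableEq β] {E : β → β → K}

lemma Un.l (h : Un E) (k l : β) : (∑ i, E i i) * E k l = E k l := by simp [sum_mul, h.mul]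
lemma Un.r (h : Un E) (k l : β) : E k l * (∑ i, E i i) = E k l := by simp [mul_sum, h.mul]

lemma Un.nil (h : Un E) (hc : Fintype.card β ≠ 1) (R : AddSubmonoid K) (hR : ∀ i j, E i j ∈ R) :
    ∃ x, Nil (· ∈ R) (∑ i, E i i) x := by
  obtain ⟨φ, c, h1, h2⟩ := three_col β hc
  refine ⟨fun r => ∑ j with c j = r, E (φ j) j, fun r => sum_mem fun _ _ => hR _ _,
    fun r => by simp only [mul_sum, h.l], fun r => by simp only [sum_mul, h.r], fun r => ?_, ?_⟩
  · rw [sum_mul_sum]
    refine sum_eq_zero fun i hi => sum_eq_zero fun j hj => ?_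
    rw [h.mul, if_neg]
    rintro rfl
    exact h1 j ((mem_filter.1 hi).2.trans (mem_filter.1 hj).2.symm)
  · rw [← sum_fiberwise (s := univ) c]
    refine sum_congr rfl fun r _ => ?_
    rw [star_sum, sum_mul_sum]
    refine sum_congr rfl fun i hi => ?_
    rw [sum_eq_single i]
    · simp [h.star, h.mul]
    · intro j hj e
      rw [h.star, h.mul, if_neg fun q => e
        (h2 i j ((mem_filter.1 hi).2.trans (mem_filter.1 hj).2.symm) q).symm]
    · exact fun q => absurd hi q

lemma Un.amp (h : Un E) (i₀ : β) (R : Subring K) (hR : ∀ i j, E i j ∈ R) {a}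
    (ha : Nil (· ∈ R) (E i₀ i₀) a) :
    ∃ x, Nil (· ∈ R) (∑ i, E i i) x ∧ ∀ r k l, Commute (x r) (E k l) := by
  have m1 : ∀ i j k l (y : K), E i j * (E k l * y) = if j = k then E i l * y else 0 := by
    intro i j k l y; rw [← mul_assoc, h.mul]; split_ifs <;> simp
  have m2 : ∀ a b : K, (∑ i, E i i₀ * a * E i₀ i) * (∑ i, E i i₀ * b * E i₀ i) =
      ∑ i, E i i₀ * (a * E i₀ i₀ * b) * E i₀ i := fun a b => by
    simp [sum_mul_sum, mul_assoc, m1]
  refine ⟨fun r => ∑ i, E i i₀ * a r * E i₀ i, ⟨fun r => sum_mem fun i _ =>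
    mul_mem (mul_mem (hR _ _) (ha.mem r)) (hR _ _), fun r => ?_, fun r => ?_, fun r => ?_, ?_⟩,
    fun r k l => ?_⟩
  · simp only [mul_sum, ← mul_assoc, h.l]
  · simp only [sum_mul, mul_assoc, h.r]
  · simp [m2, ha.r, ha.sq]
  · have m3 : ∀ r, Star.star (∑ i, E i i₀ * a r * E i₀ i) = ∑ i, E i i₀ * Star.star (a r) * E i₀ i :=
      fun r => by simp only [star_sum, star_mul, h.star, mul_assoc]
    simp only [m3, m2]
    simp only [mul_assoc (Star.star (a _)), ha.l]
    rw [sum_comm]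
    refine sum_congr rfl fun i _ => ?_
    rw [← sum_mul, ← mul_sum, ha.sum, h.mul, if_pos rfl, h.mul, if_pos rfl]
  · simp [Commute, SemiconjBy, sum_mul, mul_sum, mul_assoc, m1, h.mul]

lemma nil_sum {ι : Type*} [DecidableEq ι] (s : Finset ι) (R : AddSubmonoid K) (Q : ι → K)
    (hs : ∀ i, star (Q i) = Q i) (hQ : ∀ i j, Q i * Q j = if i = j then Q i else 0)
    (x : ι → Fin 3 → K) (hx : ∀ i ∈ s, Nil (· ∈ R) (Q i) (x i)) :
    (∀ r, ∑ i ∈ s, x i r ∈ R) ∧ (∀ r, (∑ i ∈ s, x i r) * (∑ i ∈ s, x i r) = 0) ∧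
      ∑ r, star (∑ i ∈ s, x i r) * (∑ i ∈ s, x i r) = ∑ i ∈ s, Q i := by
  refine ⟨fun r => sum_mem fun i hi => (hx i hi).mem r, fun r => ?_, ?_⟩
  · rw [sum_mul_sum]
    refine sum_eq_zero fun i hi => sum_eq_zero fun j hj => ?_
    by_cases e : i = j
    · subst e; exact (hx i hi).sq r
    · rw [← (hx i hi).r, ← (hx j hj).l, mul_assoc, ← mul_assoc (Q i), hQ, if_neg e]; simp
  · simp only [star_sum, sum_mul_sum]
    rw [sum_comm]
    refine sum_congr rfl fun i hi => ?_
    rw [← (hx i hi).sum]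
    refine sum_congr rfl fun r _ => sum_eq_single i (fun j hj e => ?_) fun q => absurd hi q
    rw [← (hx i hi).l, ← (hx j hj).l, star_mul, hs, mul_assoc, ← mul_assoc (Q i), hQ, if_neg e.symm]
    simp

lemma proj_units {n : Type} [Fintype n] [DecidableEq n] {P : Matrix n n ℂ} (h1 : star P = P)
    (h2 : P * P = P) : ∃ (S : Finset n) (E : S → S → Matrix n n ℂ), Un E ∧ ∑ i, E i i = P ∧
      P.trace = S.card := by
  have hH : P.IsHermitian := h1
  have h3 := hH.spectral_theorem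
  set U : Matrix n n ℂ := hH.eigenvectorUnitary.1 with hU
  have u1 : star U * U = 1 := hH.eigenvectorUnitary.2.1
  set d : n → ℂ := RCLike.ofReal ∘ hH.eigenvalues
  have h4 : P = U * Matrix.diagonal d * star U := h3
  have u2 : ∀ X : Matrix n n ℂ, star U * (U * X) = X := fun X => by rw [← mul_assoc, u1, one_mul]
  have h5 : Matrix.diagonal d * Matrix.diagonal d = Matrix.diagonal d := by
    have : star U * (P * P) * U = star U * P * U := by rw [h2]
    rw [h4] at this
    simpa only [mul_assoc, u2, u1, mul_one] using this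
  have h6 : ∀ i, d i = 1 ∨ d i = 0 := fun i => by
    have := congrFun (congrFun h5 i) i
    simp only [Matrix.diagonal_mul_diagonal, Matrix.diagonal_apply_eq] at this
    by_cases e : d i = 0
    · exact Or.inr e
    · exact Or.inl (mul_left_cancel₀ e (this.trans (mul_one _).symm))
  let S := univ.filter fun i => d i = 1
  have h7 : ∑ i : S, Matrix.single (i : n) (i : n) (1 : ℂ) = Matrix.diagonal d := by
    ext i j
    rw [Matrix.sum_apply, sum_coe_sort S fun k => Matrix.single k k (1 : ℂ) i j, sum_filter]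
    by_cases e : i = j
    · subst e
      rw [sum_eq_single i (fun k _ hk => by simp [Matrix.single_apply, hk]) (by simp)]
      rcases h6 i with e | e <;> simp [e]
    · simp only [Matrix.diagonal_apply_ne _ e]
      refine sum_eq_zero fun k _ => ?_
      rw [Matrix.single_apply, if_neg (c := k = i ∧ k = j) fun q => e (q.1.symm.trans q.2)]; simp
  refine ⟨S, fun i j => U * Matrix.single (i : n) (j : n) 1 * star U, ⟨fun i j k l => ?_, fun i j => ?_⟩,
    by rw [← sum_mul, ← mul_sum, h7, ← h4], ?_⟩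
  · simp only [mul_assoc, u2]
    split_ifs with e
    · subst e; rw [← mul_assoc (Matrix.single _ _ _), Matrix.single_mul_single_same, mul_one]
    · rw [← mul_assoc (Matrix.single _ _ _), Matrix.single_mul_single_of_ne _ _ _ _
        fun q => e (Subtype.ext q)]; simp
  · simp [Matrix.star_eq_conjTranspose, mul_assoc]
  · rw [h4, Matrix.trace_mul_cycle, u1, one_mul, ← h7, Matrix.trace_sum]; simp

lemma trace_amp {N α γ : Type*} [Fintype N] [Fintype α] [Fintype γ] [DecidableEq γ] (e : N ≃ α × γ)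
    (x : Matrix α α ℂ) : (amp e x).trace = Fintype.card γ * x.trace := by
  simp only [Matrix.trace, Matrix.diag_apply, amp_apply, if_true]
  rw [← e.symm.sum_comp, Fintype.sum_prod_type_right]; simp

lemma amp_inj {N α γ : Type*} [DecidableEq γ] [Nonempty γ] (e : N ≃ α × γ)
    {x y : Matrix α α ℂ} (h : amp e x = amp e y) : x = y := by
  ext i j
  rw [← amp_symm e x (Classical.arbitrary γ), h, amp_symm]

/-- a projection in an amplified matrix algebra -/
lemma proj_AS {N α γ : Type} [Fintype N] [Fintype α] [Fintype γ] [DecidableEq N] [DecidableEq α]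
    [DecidableEq γ] [Nonempty γ] (e : N ≃ α × γ) {P : Matrix N N ℂ} (h : P ∈ AS e) (h1 : star P = P)
    (h2 : P * P = P) : ∃ μ : ℕ, P.trace = Fintype.card γ * μ ∧
      (μ ≠ 1 → ∃ a, Nil (· ∈ AS e) P a) := by
  obtain ⟨P, rfl⟩ := mem_AS.1 h
  obtain ⟨S, E, u, h3, h4⟩ := proj_units (P := P) (amp_inj e (by rw [amp_star, h1]))
    (amp_inj e (by rw [amp_mul, h2]))
  refine ⟨S.card, by rw [trace_amp, h4], fun hμ => ?_⟩
  have u' : Un fun i j => ampHom e (E i j) := ⟨fun i j k l => by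
    rw [← map_mul, u.mul]; split_ifs <;> simp, fun i j => by rw [← map_star, u.star]⟩
  obtain ⟨x, hx⟩ := u'.nil (by simpa using hμ) (AS e).toSubalgebra.toSubsemiring.toAddSubmonoid
    fun i j => ⟨_, rfl⟩
  rw [← map_sum, h3] at hx
  exact ⟨x, hx⟩

end Vale.Agent.P095.NC
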