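import Vale.Agent.P095.NoCh1

/-! Nilpotent decompositions of the unit at an endpoint of a connecting map. -/

namespace Vale.Agent.P095.NC

open Finset
open Vale.Agent.P101
open scoped unitInterval

lemma units_of {M α γ : Type} [Fintype M] [Fintype α] [Fintype γ] [DecidableEq M] [DecidableEq α]
    [DecidableEq γ] (e : M ≃ α × γ) : Un (fun i j => amp e (Matrix.single i j (1 : ℂ))) ∧
      ∑ i, amp e (Matrix.single i i (1 : ℂ)) = 1 ∧
      (∀ i, (amp e (Matrix.single i i (1 : ℂ))).trace = Fintype.card γ) ∧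
      ∀ b ∈ AS e, ∃ c : α → α → ℂ, b = ∑ i, ∑ j, c i j • amp e (Matrix.single i j (1 : ℂ)) := by
  refine ⟨⟨fun i j k l => ?_, fun i j => ?_⟩, ?_, fun i => by simp [trace_amp], ?_⟩
  · rw [← amp_mul]
    split_ifs with h
    · subst h; simp
    · rw [Matrix.single_mul_single_of_ne _ _ _ _ h]; exact map_zero (ampHom e)
  · rw [← amp_star]; simp [Matrix.star_eq_conjTranspose]
  · rw [← map_one (ampHom e), ← Matrix.sum_single_one]
    exact (map_sum (ampHom e) _ _).symm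
  · rintro _ ⟨x, rfl⟩
    refine ⟨x, ?_⟩
    conv_lhs => rw [Matrix.matrix_eq_sum_single x]
    simp only [map_sum]
    refine sum_congr rfl fun i _ => sum_congr rfl fun j _ => ?_
    rw [← amp_smul]; simp; rfl

variable {p q k : ℕ}

lemma loc (hp : 0 < p) (hq : 0 < q) (z : I) : ∃ (β : Type) (_ : Fintype β) (_ : DecidableEq β) (i₀ : β)
    (E : β → β → Mat p q) (r : ℕ), Un E ∧ ∑ i, E i i = 1 ∧ 0 < r ∧ (E i₀ i₀).trace = r ∧
      (z = 0 → ∀ i j, E i j ∈ AS (Equiv.refl _)) ∧ (z = 1 → ∀ i j, E i j ∈ AS (Equiv.prodComm _ _)) ∧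
      ∀ f ∈ dimDrop p q, ∃ c : β → β → ℂ, f z = ∑ i, ∑ j, c i j • E i j := by
  by_cases h0 : z = 0
  · obtain ⟨a, b, c, d⟩ := units_of (Equiv.refl (Fin p × Fin q))
    exact ⟨Fin p, inferInstance, inferInstance, ⟨0, hp⟩, _, q, a, b, hq, by simpa using c _,
      fun _ _ _ => ⟨_, rfl⟩, fun h => absurd (h0.symm.trans h) zero_ne_one,
      fun f hf => d _ (h0 ▸ (mem_Dd.2 hf).1)⟩
  by_cases h1 : z = 1
  · obtain ⟨a, b, c, d⟩ := units_of (Equiv.prodComm (Fin p) (Fin q))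
    exact ⟨Fin q, inferInstance, inferInstance, ⟨0, hq⟩, _, p, a, b, hp, by simpa using c _,
      fun h => absurd h h0, fun _ _ _ => ⟨_, rfl⟩, fun f hf => d _ (h1 ▸ (mem_Dd.2 hf).2)⟩
  · obtain ⟨a, b, c, d⟩ := units_of (Equiv.prodUnique (Fin p × Fin q) Unit).symm
    exact ⟨Fin p × Fin q, inferInstance, inferInstance, (⟨0, hp⟩, ⟨0, hq⟩), _, 1, a, b, one_pos,
      by simpa using c _, fun h => absurd h h0, fun h => absurd h h1,
      fun f _ => d _ (mem_AS.2 ⟨f z, by ext i j; simp [amp_apply]⟩)⟩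

lemma bump {s t : Set I} (hs : IsClosed s) (ht : IsClosed t) (hd : Disjoint s t) (b : Mat p q)
    (h0 : 0 ∈ s ∨ b ∈ AS (Equiv.refl _)) (h1 : 1 ∈ s ∨ b ∈ AS (Equiv.prodComm _ _)) :
    ∃ f ∈ dimDrop p q, (∀ x ∈ s, f x = 0) ∧ ∀ x ∈ t, f x = b := by
  obtain ⟨h, a1, a2, -⟩ := exists_continuous_zero_one_of_isClosed hs ht hd
  refine ⟨⟨fun x => (h x : ℂ) • b, by fun_prop⟩, mem_Dd.1 ⟨?_, ?_⟩, fun x hx => by simp [a1 hx],
    fun x hx => by simp [a2 hx]⟩
  · show (h 0 : ℂ) • b ∈ AS _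
    rcases h0 with e | e
    · simp [a1 e]
    · exact SMulMemClass.smul_mem _ e
  · show (h 1 : ℂ) • b ∈ AS _
    rcases h1 with e | e
    · simp [a1 e]
    · exact SMulMemClass.smul_mem _ e

variable {N α γ : Type} [Fintype N] [Fintype α] [Fintype γ] [DecidableEq N] [DecidableEq α]
  [DecidableEq γ] [Nonempty γ]

structure En (e : N ≃ α × γ) (Θ : (Fin k → Mat p q) →⋆ₐ[ℂ] Matrix N N ℂ) (t : Fin k → I) : Prop where
  tr : ∀ y, (Θ y).trace = ∑ l, (y l).trace
  mem : ∀ f ∈ dimDrop p q, Θ (fun l => f (t l)) ∈ AS e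

variable {e : N ≃ α × γ} {Θ : (Fin k → Mat p q) →⋆ₐ[ℂ] Matrix N N ℂ} {t : Fin k → I}

omit [Nonempty γ] in
lemma En.interp (H : En e Θ t) (J : I → Prop) [DecidablePred J] {b : Mat p q}
    (h0 : J 0 → b ∈ AS (Equiv.refl _)) (h1 : J 1 → b ∈ AS (Equiv.prodComm _ _)) :
    Θ (fun l => if J (t l) then b else 0) ∈ AS e := by
  have hT : (insert 0 (insert 1 (Set.range t)) : Set I).Finite :=
    ((Set.finite_range t).insert _).insert _
  obtain ⟨f, hf, a1, a2⟩ := bump (hT.inter_of_left {x | ¬ J x}).isClosed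
    (hT.inter_of_left {x | J x}).isClosed (Set.disjoint_left.2 fun x a b => a.2 b.2) b
    (by by_cases h : J 0 <;> simp [h, h0]) (by by_cases h : J 1 <;> simp [h, h1])
  have : (fun l => if J (t l) then b else 0) = fun l => f (t l) := funext fun l => by
    split_ifs with h
    · exact (a2 _ ⟨by simp, h⟩).symm
    · exact (a1 _ ⟨by simp, h⟩).symm
  rw [this]; exact H.mem f hf

lemma En.div (H : En e Θ t) (J : I → Prop) [DecidablePred J] {b : Mat p q}
    (h0 : J 0 → b ∈ AS (Equiv.refl _)) (h1 : J 1 → b ∈ AS (Equiv.prodComm _ _))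
    (hs : star b = b) (hb : b * b = b) {r : ℕ} (hr : b.trace = r) :
    ∃ μ : ℕ, (univ.filter fun l => J (t l)).card * r = Fintype.card γ * μ ∧
      (μ ≠ 1 → ∃ a, Nil (· ∈ AS e) (Θ fun l => if J (t l) then b else 0) a) := by
  obtain ⟨μ, a1, a2⟩ := proj_AS e (H.interp J h0 h1)
    (by rw [← map_star]; congr 1; funext l; simp only [Pi.star_apply]; split_ifs <;> simp [hs])
    (by rw [← map_mul]; congr 1; funext l; simp only [Pi.mul_apply]; split_ifs <;> simp [hb])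
  refine ⟨μ, ?_, a2⟩
  rw [H.tr] at a1
  simp only [apply_ite Matrix.trace, hr, Matrix.trace_zero, ← sum_filter, sum_const, nsmul_eq_mul] at a1
  exact_mod_cast a1

theorem En.nil (H : En e Θ t) (hp : 0 < p) (hq : 0 < q) {β : ℝ} (h0 : 0 ≤ β) (h4 : 4 * β < 1)
    (hn : ∀ l, ∃ l', t l' ≠ t l ∧ dist (t l) (t l') ≤ β) :
    ∃ c : I → I, (∀ l, dist (c (t l)) (t l) ≤ 4 * β) ∧ ∃ x : Fin 3 → Matrix N N ℂ,
      (∀ r, x r ∈ AS e) ∧ (∀ r, x r * x r = 0) ∧ ∑ r, star (x r) * x r = 1 ∧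
      ∀ f ∈ dimDrop p q, ∀ r, Commute (x r) (Θ fun l => f (c (t l))) := by
  classical
  obtain ⟨c₀, hc₀⟩ := star_cover h0 (univ.image t) fun a ha => by
    obtain ⟨l, -, rfl⟩ := mem_image.1 ha
    obtain ⟨l', h1, h2⟩ := hn l
    exact ⟨_, mem_image_of_mem _ (mem_univ l'), h1, h2⟩
  have d1 : ∀ l, dist (c₀ (t l)) (t l) ≤ 2 * β := fun l => (hc₀ _ (mem_image_of_mem _ (mem_univ l))).1
  let c : I → I := fun a => if dist (c₀ a) 0 ≤ 2 * β then 0 else if dist (c₀ a) 1 ≤ 2 * β then 1 else c₀ a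
  have c0 : ∀ l, t l = 0 → c (t l) = 0 := fun l h => if_pos (h ▸ d1 l)
  have c1 : ∀ l, t l = 1 → c (t l) = 1 := fun l h => by
    have a := d1 l
    have b := dist_triangle_left (0 : I) 1 (c₀ (t l))
    rw [show dist (0 : I) 1 = 1 by simp [Subtype.dist_eq]] at b
    simp only [c]
    rw [if_neg (by rw [h] at a b ⊢; linarith), if_pos (h ▸ a)]
  have c2 : ∀ l, ∃ l', t l' ≠ t l ∧ c (t l') = c (t l) := fun l => by
    obtain ⟨b, hb, h1, h2⟩ := (hc₀ _ (mem_image_of_mem _ (mem_univ l))).2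
    obtain ⟨l', -, rfl⟩ := mem_image.1 hb
    exact ⟨l', h1, by simp only [c, h2]⟩
  refine ⟨c, fun l => ?_, ?_⟩
  · have a := d1 l
    simp only [c]
    split_ifs with e1 e2
    · linarith [dist_triangle_left 0 (t l) (c₀ (t l))]
    · linarith [dist_triangle_left 1 (t l) (c₀ (t l))]
    · linarith
  let θ : I → Mat p q →ₗ[ℂ] Matrix N N ℂ := fun z =>
    Θ.toAlgHom.toLinearMap ∘ₗ LinearMap.pi fun l => if c (t l) = z then LinearMap.id else 0
  have θ1 : ∀ z b, θ z b = Θ fun l => if c (t l) = z then b else 0 := fun z b => by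
    simp only [θ, LinearMap.comp_apply]
    refine congrArg Θ (funext fun l => ?_)
    simp only [LinearMap.pi_apply]; split_ifs <;> rfl
  have θ2 : ∀ z z' b b', θ z b * θ z' b' = if z = z' then θ z (b * b') else 0 := fun z z' b b' => by
    rw [θ1, θ1, θ1, ← map_mul, ← map_zero Θ, ← apply_ite Θ]
    refine congrArg Θ (funext fun l => ?_)
    by_cases e : z = z'
    · subst e; simp only [Pi.mul_apply, if_true]; split_ifs <;> simp
    · simp only [Pi.mul_apply, e, if_false, Pi.zero_apply]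
      split_ifs with a b
      · exact absurd (a.symm.trans b) e
      all_goals simp
  have θ3 : ∀ z b, star (θ z b) = θ z (star b) := fun z b => by
    rw [θ1, θ1, ← map_star]
    refine congrArg Θ (funext fun l => ?_)
    simp only [Pi.star_apply]; split_ifs <;> simp
  have key : ∀ z ∈ univ.image fun l => c (t l), ∃ x, Nil (· ∈ AS e) (θ z 1) x ∧
      ∀ f ∈ dimDrop p q, ∀ r, Commute (x r) (Θ fun l => f (c (t l))) := by
    intro z hz
    obtain ⟨l₀, -, hl₀⟩ := mem_image.1 hz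
    obtain ⟨l₁, hl₁, hl₂⟩ := c2 l₀
    obtain ⟨κ, _, _, i₀, E, r, u, u1, r0, u2, u3, u4, u5⟩ := loc hp hq z
    let J : I → Prop := fun a => a ∈ Set.range t ∧ c a = z
    have J0 : J 0 → z = 0 := fun ⟨⟨l, h⟩, h'⟩ => by rw [← h', ← h, c0 l h, h]
    have J1 : J 1 → z = 1 := fun ⟨⟨l, h⟩, h'⟩ => by rw [← h', ← h, c1 l h, h]
    have Jt : ∀ l, J (t l) ↔ c (t l) = z := fun l => by simp [J]
    have b2 : E i₀ i₀ * E i₀ i₀ = E i₀ i₀ := by rw [u.mul, if_pos rfl]
    obtain ⟨μ, a1, a2⟩ := H.div J (fun h => u3 (J0 h) _ _) (fun h => u4 (J1 h) _ _) (u.star _ _) b2 u2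
    obtain ⟨μ₁, a3, -⟩ := H.div (fun a => J a ∧ a = t l₀) (fun h => u3 (J0 h.1) _ _)
      (fun h => u4 (J1 h.1) _ _) (u.star _ _) b2 u2
    obtain ⟨μ₂, a4, -⟩ := H.div (fun a => J a ∧ ¬ a = t l₀) (fun h => u3 (J0 h.1) _ _)
      (fun h => u4 (J1 h.1) _ _) (u.star _ _) b2 u2
    have n1 : 0 < (univ.filter fun l => J (t l) ∧ t l = t l₀).card :=
      card_pos.2 ⟨l₀, by simp [Jt, hl₀]⟩
    have n2 : 0 < (univ.filter fun l => J (t l) ∧ ¬ t l = t l₀).card :=
      card_pos.2 ⟨l₁, by simp [Jt, hl₀, hl₁, hl₂]⟩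
    have n3 := card_filter_add_card_filter_not (s := univ.filter fun l => J (t l)) fun l => t l = t l₀
    rw [filter_filter, filter_filter] at n3
    have m1 : μ₁ ≠ 0 := by rintro rfl; exact (Nat.mul_pos n1 r0).ne' a3
    have m2 : μ₂ ≠ 0 := by rintro rfl; exact (Nat.mul_pos n2 r0).ne' a4
    have m3 : μ = μ₁ + μ₂ := Nat.eq_of_mul_eq_mul_left (Fintype.card_pos (α := γ))
      (by rw [mul_add, ← a1, ← a3, ← a4, ← n3, add_mul])
    obtain ⟨a, ha⟩ := a2 (by omega)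
    have u' : Un fun i j => θ z (E i j) := ⟨fun i j k l => by
      rw [θ2, if_pos rfl, u.mul]; split_ifs <;> simp, fun i j => by rw [θ3, u.star]⟩
    obtain ⟨x, hx, hx'⟩ := u'.amp i₀ (AS e).toSubalgebra.toSubring (fun i j => by
      have := H.interp J (fun h => u3 (J0 h) i j) (fun h => u4 (J1 h) i j)
      simp only [Jt] at this
      rw [θ1]; exact this) (a := a) (by simp only [Jt] at ha; rw [θ1]; exact ha)
    rw [← map_sum, u1] at hx
    refine ⟨x, hx, fun f hf r => ?_⟩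
    obtain ⟨co, hco⟩ := u5 f hf
    have e1 : θ z 1 * (Θ fun l => f (c (t l))) = θ z (f z) := by
      rw [θ1, θ1, ← map_mul]
      refine congrArg Θ (funext fun l => ?_)
      simp only [Pi.mul_apply]; split_ifs with a <;> simp [a]
    have e2 : (Θ fun l => f (c (t l))) * θ z 1 = θ z (f z) := by
      rw [θ1, θ1, ← map_mul]
      refine congrArg Θ (funext fun l => ?_)
      simp only [Pi.mul_apply]; split_ifs with a <;> simp [a]
    have e3 : Commute (x r) (θ z (f z)) := by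
      rw [hco]
      simp only [map_sum, map_smul]
      exact Commute.sum_right _ _ _ fun i _ => Commute.sum_right _ _ _ fun j _ =>
        (hx' r i j).smul_right _
    show _ * _ = _ * _
    rw [← hx.r r, mul_assoc, e1, hx.r, e3.eq, ← e2, mul_assoc, hx.l]
  choose! x hx hx' using key
  obtain ⟨a1, a2, a3⟩ := nil_sum _ (AS e).toSubalgebra.toSubsemiring.toAddSubmonoid (fun z => θ z 1)
    (fun z => by rw [θ3, star_one]) (fun z z' => by rw [θ2, one_mul]) x hx
  refine ⟨fun r => ∑ z ∈ univ.image fun l => c (t l), x z r, a1, a2, a3.trans ?_, fun f hf r =>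
    Commute.sum_left _ _ _ fun z hz => hx' z hz f hf r⟩
  simp only [θ1]
  rw [← map_sum, ← map_one Θ]
  refine congrArg Θ (funext fun l => ?_)
  simp [Finset.sum_apply]

lemma full {p' q' : ℕ} (hp : 0 < p) (hq : 0 < q) (hc : p'.Coprime q') (hk : p * q * k = p' * q')
    {Θ₀ Θ₁ : (Fin k → Mat p q) →⋆ₐ[ℂ] Mat p' q'} {t₀ t₁ : Fin k → I} (hp' : 0 < p') (hq' : 0 < q')
    (H₀ : En (Equiv.refl _) Θ₀ t₀) (H₁ : En (Equiv.prodComm _ _) Θ₁ t₁) (J : I → Prop)
    (h : ∀ l, J (t₀ l) ↔ J (t₁ l)) {l₀} (h0 : J (t₀ l₀)) (l) : J (t₀ l) := by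
  classical
  have : Nonempty (Fin p') := ⟨⟨0, hp'⟩⟩
  have : Nonempty (Fin q') := ⟨⟨0, hq'⟩⟩
  obtain ⟨μ, a, -⟩ := H₀.div J (b := 1) (fun _ => one_mem _) (fun _ => one_mem _) (star_one _)
    (one_mul _) (r := p * q) (by simp)
  obtain ⟨μ', a', -⟩ := H₁.div J (b := 1) (fun _ => one_mem _) (fun _ => one_mem _) (star_one _)
    (one_mul _) (r := p * q) (by simp)
  simp only [← h, Fintype.card_fin] at a a'
  have n1 : 0 < (univ.filter fun l => J (t₀ l)).card := card_pos.2 ⟨l₀, by simp [h0]⟩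
  have n2 := Nat.le_of_dvd (by positivity) (hc.mul_dvd_of_dvd_of_dvd ⟨_, a'⟩ ⟨_, a⟩)
  rw [← hk, mul_comm _ (p * q)] at n2
  have n3 := Nat.le_of_mul_le_mul_left n2 (by positivity)
  have := eq_univ_of_card (univ.filter fun l => J (t₀ l)) (le_antisymm (card_le_univ _) (by simpa using n3))
  have h5 := mem_univ l
  rw [← this] at h5
  exact (mem_filter.1 h5).2

end Vale.Agent.P095.NC
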