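import Vale.Agent.P095.NoCh2
import Vale.Agent.P101.Final

/-! Almost central nilpotent decompositions of the unit in the Jiang-Su algebra. -/

namespace Vale.Agent.P095.NC

open Finset Filter Topology
open Vale.Agent.P101
open scoped CStarAlgebra unitInterval Matrix.Norms.L2Operator

lemma norm_le_one {M ι : Type*} [CStarAlgebra M] [Fintype ι] {x : ι → M}
    (h : ∑ r, star (x r) * x r = 1) (r : ι) : ‖x r‖ ≤ 1 := by
  let := CStarAlgebra.spectralOrder M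
  let := CStarAlgebra.spectralOrderedRing M
  have h1 : star (x r) * x r ≤ 1 := h ▸ single_le_sum (f := fun r => star (x r) * x r)
    (fun _ _ => star_mul_self_nonneg _) (mem_univ r)
  have h2 := (CStarAlgebra.norm_le_norm_of_nonneg_of_le (star_mul_self_nonneg _) h1).trans
    P101.norm_one_le
  rw [CStarRing.norm_star_mul_self] at h2
  nlinarith [norm_nonneg (x r)]

lemma comm_le {M : Type*} [NormedRing M] {x a b : M} {ε η : ℝ} (hx : ‖x‖ ≤ 1) (h : dist a b ≤ ε)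
    (h' : ‖x * a - a * x‖ ≤ η) : ‖x * b - b * x‖ ≤ η + 2 * ε := by
  rw [dist_eq_norm] at h
  have : x * b - b * x = (x * a - a * x) + ((a - b) * x - x * (a - b)) := by noncomm_ring
  rw [this]
  refine norm_add_le_of_le h' ((norm_sub_le_of_le (norm_mul_le_of_le h hx) (norm_mul_le_of_le hx h)).trans ?_)
  linarith

variable {p q p' q' k : ℕ}

noncomputable def th (e : (Fin p × Fin q) × Fin k ≃ Fin p' × Fin q') {w : Mat p' q'}
    (hw : w ∈ unitary (Mat p' q')) : (Fin k → Mat p q) →⋆ₐ[ℂ] Mat p' q' :=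
  StarAlgHom.comp (Unitary.conjStarAlgAut ℂ _ (star ⟨w, hw⟩) : Mat p' q' →⋆ₐ[ℂ] Mat p' q')
    { toFun := fun x => Matrix.reindex e e (Matrix.blockDiagonal x)
      map_one' := by simp
      map_mul' := fun x y => by
        rw [show x * y = fun i => x i * y i from rfl, Matrix.blockDiagonal_mul]; simp
      map_zero' := by simp
      map_add' := fun x y => by rw [Matrix.blockDiagonal_add]; rfl
      commutes' := fun r => by simp [Algebra.algebraMap_eq_smul_one, Matrix.submatrix_smul]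
      map_star' := fun x => by
        simp [Matrix.star_eq_conjTranspose, Matrix.blockDiagonal_conjTranspose]; rfl }

lemma th_apply (e : (Fin p × Fin q) × Fin k ≃ Fin p' × Fin q') {w : Mat p' q'}
    (hw : w ∈ unitary (Mat p' q')) (y) :
    th e hw y = star w * Matrix.reindex e e (Matrix.blockDiagonal y) * w := by
  simp [th]

lemma th_trace (e : (Fin p × Fin q) × Fin k ≃ Fin p' × Fin q') {w : Mat p' q'}
    (hw : w ∈ unitary (Mat p' q')) (y) : (th e hw y).trace = ∑ l, (y l).trace := by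
  rw [th_apply, Matrix.trace_mul_cycle, hw.2, one_mul, ← Matrix.trace_blockDiagonal]
  simp only [Matrix.trace, Matrix.diag_apply, Matrix.reindex_apply, Matrix.submatrix_apply]
  exact e.symm.sum_comp fun i => Matrix.blockDiagonal y i i

lemma transport (e : (Fin p × Fin q) × Fin k ≃ Fin p' × Fin q') (ξ : Fin k → C(I, I))
    (u : C(I, Mat p' q')) (hu : ∀ s, u s ∈ unitary (Mat p' q')) {δ : ℝ}
    (hξ : ∀ i s t, dist (ξ i s) (ξ i t) ≤ δ) (s₀ : I) (ρ : C(I, ℝ)) (hρ : ∀ s, |ρ s| ≤ 1) {c : I → I}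
    (hc : ∀ l, dist (c (ξ l s₀)) (ξ l s₀) ≤ 4 * (2 * δ)) {x : Fin 3 → Mat p' q'}
    (h1 : ∀ r, x r * x r = 0) (h2 : ∑ r, star (x r) * x r = 1)
    (h3 : ∀ f ∈ dimDrop p q, ∀ r, Commute (x r) (th e (hu s₀) fun l => f (c (ξ l s₀)))) :
    ∃ Y : Fin 3 → C(I, Mat p' q'), (∀ r, Y r s₀ = (ρ s₀ : ℂ) • x r) ∧ (∀ r s, ρ s = 0 → Y r s = 0) ∧
      (∀ r, Y r * Y r = 0) ∧ (∀ s, ∑ r, star (Y r s) * Y r s = ((ρ s : ℂ) * ρ s) • 1) ∧
      ∀ f ∈ dimDrop p q, ∀ ε, 0 ≤ ε → (∀ a b, dist a b ≤ 9 * δ → dist (f a) (f b) ≤ ε) →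
        ∀ r s, ‖Y r s * (th e (hu s) fun l => f (ξ l s)) - (th e (hu s) fun l => f (ξ l s)) * Y r s‖
          ≤ 2 * ε := by
  have hV : ∀ s, star (u s) * u s₀ ∈ unitary (Mat p' q') := fun s =>
    mul_mem (Unitary.star_mem (hu s)) (hu s₀)
  let A : I → Mat p' q' →⋆ₐ[ℂ] Mat p' q' := fun s => Unitary.conjStarAlgAut ℂ _ ⟨_, hV s⟩
  have A1 : ∀ s y, A s y = star (u s) * u s₀ * y * star (star (u s) * u s₀) := fun s y => rfl
  have A2 : ∀ s y, A s (th e (hu s₀) y) = th e (hu s) y := fun s y => by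
    have a : ∀ X : Mat p' q', u s₀ * (star (u s₀) * X) = X := fun X => by
      rw [← mul_assoc, (hu s₀).2, one_mul]
    simp only [A1, th_apply, star_mul, star_star, mul_assoc, a]
  refine ⟨fun r => ⟨fun s => (ρ s : ℂ) • A s (x r), by simp only [A1]; fun_prop⟩, fun r => ?_,
    fun r s h => by simp [h], fun r => ?_, fun s => ?_, fun f hf ε hε h r s => ?_⟩
  · simp [A1, (hu s₀).1]
  · ext1 s
    simp [← map_mul, h1]
  · simp only [ContinuousMap.coe_mk, star_smul, smul_mul_smul_comm, ← map_star, ← map_mul, ← smul_sum,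
      ← map_sum, h2, map_one]
    simp
  · have a : ‖(ρ s : ℂ) • A s (x r)‖ ≤ 1 := by
      rw [norm_smul, Complex.norm_real]
      exact mul_le_one₀ (hρ s) (norm_nonneg _)
        ((NonUnitalStarAlgHom.norm_apply_le _ _).trans (norm_le_one h2 r))
    have b : dist (th e (hu s) fun l => f (c (ξ l s₀))) (th e (hu s) fun l => f (ξ l s)) ≤ ε :=
      (dist_map_le _ _ _).trans ((dist_pi_le_iff hε).2 fun l => h _ _ (by
        linarith [dist_triangle (c (ξ l s₀)) (ξ l s₀) (ξ l s), hc l, hξ l s₀ s]))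
    have := comm_le (η := 0) a b (by
      rw [← A2, (((h3 f hf r).map (A s)).smul_left _).eq]; simp)
    simpa using this

theorem stage (hp : 0 < p) (hq : 0 < q) (hp' : 0 < p') (hq' : 0 < q') (hc : p'.Coprime q')
    (e : (Fin p × Fin q) × Fin k ≃ Fin p' × Fin q') (ξ : Fin k → C(I, I))
    (u : C(I, Mat p' q')) (hu : ∀ s, u s ∈ unitary (Mat p' q')) {δ : ℝ} (h0 : 0 ≤ δ) (h8 : 8 * δ < 1)
    (hξ : ∀ i s t, dist (ξ i s) (ξ i t) ≤ δ)
    (hg : ∀ f ∈ dimDrop p q, ∃ g ∈ dimDrop p' q', ∀ s, g s = th e (hu s) fun l => f (ξ l s))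
    (hi : ∀ f ∈ dimDrop p q, (∀ l s, f (ξ l s) = 0) → f = 0) :
    ∃ X : Bool × Fin 3 → Dd (Fin p') (Fin q'), (∀ r, X r * X r = 0) ∧ ∑ r, star (X r) * X r = 1 ∧
      ∀ f ∈ dimDrop p q, ∀ ε, 0 ≤ ε → (∀ a b, dist a b ≤ 9 * δ → dist (f a) (f b) ≤ ε) →
        ∀ g : Dd (Fin p') (Fin q'), (∀ s, g.1 s = th e (hu s) fun l => f (ξ l s)) →
          ∀ r, ‖X r * g - g * X r‖ ≤ 2 * ε := by
  have : Nonempty (Fin p') := ⟨⟨0, hp'⟩⟩
  have : Nonempty (Fin q') := ⟨⟨0, hq'⟩⟩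
  have : Nonempty (Fin p × Fin q) := ⟨⟨0, hp⟩, ⟨0, hq⟩⟩
  have hk : p * q * k = p' * q' := by simpa using Fintype.card_congr e
  have H₀ : En (Equiv.refl _) (th e (hu 0)) fun l => ξ l 0 := ⟨th_trace _ _, fun f hf => by
    obtain ⟨g, a, b⟩ := hg f hf; rw [← b]; exact (mem_Dd.2 a).1⟩
  have H₁ : En (Equiv.prodComm _ _) (th e (hu 1)) fun l => ξ l 1 := ⟨th_trace _ _, fun f hf => by
    obtain ⟨g, a, b⟩ := hg f hf; rw [← b]; exact (mem_Dd.2 a).2⟩
  have hn : ∀ s₀ : I, ∀ l, ∃ l', ξ l' s₀ ≠ ξ l s₀ ∧ dist (ξ l s₀) (ξ l' s₀) ≤ 2 * δ := by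
    intro s₀ l
    by_contra hc'
    push Not at hc'
    have a : ∀ l' s, dist (ξ l s₀) (ξ l' s) ≤ δ → ∀ s, dist (ξ l s₀) (ξ l' s) ≤ δ := fun l' s h s' => by
      have : ξ l' s₀ = ξ l s₀ := by
        by_contra q
        linarith [hc' l' q, dist_triangle (ξ l s₀) (ξ l' s) (ξ l' s₀), hξ l' s s₀]
      rw [← this]; exact hξ _ _ _
    have b := full hp hq hc hk hp' hq' H₀ H₁ (fun τ => dist (ξ l s₀) τ ≤ δ)
      (fun l' => ⟨fun h => a l' _ h _, fun h => a l' _ h _⟩) (l₀ := l) (hξ _ _ _)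
    obtain ⟨τ, hτ⟩ : ∃ τ : I, ¬ dist (ξ l s₀) τ ≤ δ := by
      by_contra q
      push Not at q
      have := dist_triangle_left (0 : I) 1 (ξ l s₀)
      rw [show dist (0 : I) 1 = 1 by simp [Subtype.dist_eq]] at this
      linarith [q 0, q 1]
    obtain ⟨f, hf, c1, c2⟩ := bump (p := p) (q := q) (s := {τ | dist (ξ l s₀) τ ≤ δ}) (t := {τ})
      (isClosed_le (by fun_prop) continuous_const) isClosed_singleton
      (Set.disjoint_singleton_right.2 hτ) 1 (Or.inr (one_mem _)) (Or.inr (one_mem _))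
    have := c2 τ rfl
    rw [hi f hf fun l' s => c1 _ (a l' 0 (b l') s)] at this
    exact zero_ne_one this
  obtain ⟨c₀, a1, x₀, a2, a3, a4, a5⟩ := H₀.nil hp hq (β := 2 * δ) (by linarith) (by linarith) (hn 0)
  obtain ⟨c₁, b1, x₁, b2, b3, b4, b5⟩ := H₁.nil hp hq (β := 2 * δ) (by linarith) (by linarith) (hn 1)
  have sq1 : ∀ r : ℝ, r ≤ 1 → |√r| ≤ 1 := fun r hr => by
    rw [abs_of_nonneg (Real.sqrt_nonneg _)]; exact Real.sqrt_le_one.2 hr
  obtain ⟨Y₀, d1, d2, d3, d4, d5⟩ := transport e ξ u hu hξ 0 ⟨fun s => √(1 - s), by fun_prop⟩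
    (fun s => sq1 _ (by linarith [s.2.1])) a1 a3 a4 a5
  obtain ⟨Y₁, e1, e2, e3, e4, e5⟩ := transport e ξ u hu hξ 1 ⟨fun s => √s, by fun_prop⟩
    (fun s => sq1 _ s.2.2) b1 b3 b4 b5
  let X : Bool × Fin 3 → Dd (Fin p') (Fin q') := fun r => match r with
    | (false, r) => ⟨Y₀ r, mem_lnA.2 ⟨d1 r ▸ SMulMemClass.smul_mem _ (a2 r),
        by rw [d2 r 1 (by simp)]; exact zero_mem _⟩⟩
    | (true, r) => ⟨Y₁ r, mem_lnA.2 ⟨by rw [e2 r 0 (by simp)]; exact zero_mem _,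
        e1 r ▸ SMulMemClass.smul_mem _ (b2 r)⟩⟩
  refine ⟨X, ?_, ?_, fun f hf ε hε h g hg' r => ?_⟩
  · rintro ⟨_ | _, r⟩
    exacts [Subtype.ext (d3 r), Subtype.ext (e3 r)]
  · refine Subtype.ext (ContinuousMap.ext fun s => ?_)
    have f1 := d4 s
    have f2 := e4 s
    simp only [ContinuousMap.coe_mk, ← Complex.ofReal_mul, Real.mul_self_sqrt s.2.1,
      Real.mul_self_sqrt (sub_nonneg.2 s.2.2)] at f1 f2
    have : (∑ r, star (X r) * X r).1 s = ∑ r, star (Y₁ r s) * Y₁ r s + ∑ r, star (Y₀ r s) * Y₀ r s := by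
      simp [Fintype.sum_prod_type, X, ContinuousMap.sum_apply]
    rw [this, f1, f2, ← add_smul]; simp
  · refine (ContinuousMap.norm_le (X r * g - g * X r).1 (by positivity)).2 fun s => ?_
    show ‖(X r).1 s * g.1 s - g.1 s * (X r).1 s‖ ≤ _
    rw [hg']
    rcases r with ⟨_ | _, r⟩
    exacts [d5 f hf ε hε h r s, e5 f hf ε hε h r s]

theorem key {Z : Type*} [CStarAlgebra Z] (hZ : IsJiangSu Z) (FZ : Finset Z) {ε : ℝ} (hε : 0 < ε) :
    ∃ x : Bool × Fin 3 → Z, (∀ r, x r * x r = 0) ∧ ∑ r, star (x r) * x r = 1 ∧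
      ∀ z ∈ FZ, ∀ r, ‖x r * z - z * x r‖ ≤ 4 * ε := by
  obtain ⟨p, q, ι, hpq, hι, hd, hL⟩ := hZ
  obtain ⟨m, hm⟩ : ∃ m, ∀ z ∈ FZ, ∃ f ∈ dimDrop (p m) (q m), dist (ι m f) z ≤ ε := by
    refine ((eventually_all_finset (l := atTop) FZ).2 fun z _ => ?_).exists
    obtain ⟨y, hy, hyz⟩ := hd.exists_dist_lt z hε
    obtain ⟨m, f, hf, rfl⟩ := Set.mem_iUnion.1 hy
    refine (eventually_gt_atTop m).mono fun n hn => ?_
    obtain ⟨k, e, ξ, u, -, -, h⟩ := hL m n hn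
    obtain ⟨g, hg, hg', -⟩ := h f hf
    exact ⟨g, hg, by rw [hg', dist_comm]; exact hyz.le⟩
  choose! f hf hfz using hm
  have ht := ((tendsto_pow_atTop_nhds_zero_of_lt_one (r := (1 / 2 : ℝ)) (by norm_num)
      (by norm_num)).comp (tendsto_sub_atTop_nat m)).const_mul 9
  rw [mul_zero] at ht
  obtain ⟨n, hn, h8, hn'⟩ : ∃ n, m < n ∧ 9 * (1 / 2 : ℝ) ^ (n - m) < 1 ∧ ∀ z ∈ FZ, ∀ s t : I,
      dist s t ≤ 9 * (1 / 2 : ℝ) ^ (n - m) → dist (f z s) (f z t) ≤ ε := by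
    refine ((eventually_gt_atTop m).and ((ht.eventually_lt_const one_pos).and
      ((eventually_all_finset FZ).2 fun z _ => ?_))).exists
    obtain ⟨δ, hδ, h⟩ := Metric.uniformContinuous_iff.1
      (CompactSpace.uniformContinuous_of_continuous (f z).continuous) ε hε
    exact (ht.eventually_lt_const hδ).mono fun n hn s t hst => (h (hst.trans_lt hn)).le
  obtain ⟨k, e, ξ, u, hu, hξ, h⟩ := hL m n hn
  obtain ⟨ι', hι'⟩ := exists_hom_Dd (hι n).1
  obtain ⟨ι₀, hι₀⟩ := exists_hom_Dd (hι m).1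
  have h' : ∀ f ∈ dimDrop (p m) (q m), ∃ g ∈ dimDrop (p n) (q n), ι n g = ι m f ∧
      ∀ s, g s = th e (hu s) fun l => f (ξ l s) := fun f hf => by
    obtain ⟨g, a, b, c⟩ := h f hf
    exact ⟨g, a, b, fun s => by rw [c, th_apply]; rfl⟩
  have p0 : (0 : ℝ) ≤ (1 / 2) ^ (n - m) := by positivity
  obtain ⟨X, a1, a2, a3⟩ := stage (hpq m).1 (hpq m).2.1 (hpq n).1 (hpq n).2.1 (hpq n).2.2 e ξ u hu p0
    (by linarith) hξ (fun f hf => (h' f hf).imp fun g hg => ⟨hg.1, hg.2.2⟩) fun f hf h0 => by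
      obtain ⟨g, a, b, c⟩ := h' f hf
      have : g = 0 := ContinuousMap.ext fun s => by
        rw [c, show (fun l => f (ξ l s)) = 0 from funext fun l => h0 l s, map_zero]; rfl
      refine (hι m).2 hf (mem_Dd.1 (zero_mem _)) ?_
      rw [← b, this]
      exact ((hι' 0).symm.trans (map_zero ι')).trans ((hι₀ 0).symm.trans (map_zero ι₀)).symm
  have b2 : ∑ r, star (ι' (X r)) * ι' (X r) = 1 := by
    simp only [← map_star, ← map_mul, ← map_sum, a2, map_one]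
  refine ⟨fun r => ι' (X r), fun r => by rw [← map_mul, a1, map_zero], b2, fun z hz r => ?_⟩
  obtain ⟨g, a, b, c⟩ := h' _ (hf z hz)
  have := comm_le (norm_le_one b2 r) (a := ι' ⟨g, mem_Dd.2 a⟩) (b := z) (η := 2 * ε) (ε := ε)
    (by rw [hι', b]; exact hfz z hz) (by
      rw [← map_mul, ← map_mul, ← map_sub]
      exact (NonUnitalStarAlgHom.norm_apply_le _ _).trans
        (a3 _ (hf z hz) ε hε.le (hn' z hz) ⟨g, mem_Dd.2 a⟩ c r))
  exact this.trans_eq (by ring)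

end Vale.Agent.P095.NC
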