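import Vale.Agent.P095.Exc

/-! Approximately orthogonal translates for outer actions. -/

namespace Vale.Agent.P095

open scoped CStarAlgebra
open Filter Topology
open Vale.Agent.P101

attribute [local instance] CStarAlgebra.spectralOrder CStarAlgebra.spectralOrderedRing

universe u

section
variable {E : Type*} [CStarAlgebra E]

lemma mul_self_le_self {p : E} (hp : 0 ≤ p) (hp1 : p ≤ 1) : p * p ≤ p := by
  simpa [sq] using CStarAlgebra.pow_antitone hp hp1 (show 1 ≤ 2 by norm_num)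

lemma norm_mul_lt_one [Nontrivial E] {p q : E} (hp : 0 ≤ p) (hp1 : p ≤ 1) (hq : 0 ≤ q)
    (hq1 : q ≤ 1) (h : ∀ ρ : E →ₗ[ℂ] ℂ, IsState ρ → 1 ≤ (ρ p).re → 1 ≤ (ρ q).re → False) :
    ‖p * q‖ < 1 := by
  by_contra! h1
  obtain ⟨ρ, hρ, h2⟩ := exists_state (p * q)
  have h3 : 1 ≤ (ρ (q * (p * p) * q)).re := by
    rw [CStarRing.norm_star_mul_self, star_mul, hp.star_eq, hq.star_eq, ← mul_assoc,
      mul_assoc q] at h2
    rw [h2, Complex.ofReal_re]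
    nlinarith
  have h4 : 1 ≤ (ρ q).re := by
    have := hq.isSelfAdjoint.conjugate_le_conjugate ((mul_self_le_self hp hp1).trans hp1)
    rw [mul_one] at this
    exact h3.trans (pos_mono hρ.2 (this.trans (mul_self_le_self hq hq1)))
  have h5 : nq ρ (1 - q) = 0 := by
    refine le_antisymm (nq_le_of_sq le_rfl ?_) (nq_nonneg _)
    have h0 : 0 ≤ 1 - q := sub_nonneg.2 hq1
    have := pos_mono hρ.2 (mul_self_le_self h0 (sub_le_self _ hq))
    rw [map_sub, hρ.1, Complex.sub_re, Complex.one_re] at this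
    rw [h0.star_eq]
    linarith
  have h6 : ρ ((1 - q) * (p * p * q)) = 0 := by
    have := pos_cs hρ.2 (1 - q) (p * p * q)
    rwa [h5, zero_mul, norm_le_zero_iff, (sub_nonneg.2 hq1).star_eq] at this
  have h7 : ρ (p * p * (1 - q)) = 0 := by
    have := pos_cs hρ.2 (p * p) (1 - q)
    rwa [h5, mul_zero, norm_le_zero_iff, star_mul, hp.star_eq] at this
  have h8 : p * p = q * (p * p) * q + (1 - q) * (p * p * q) + p * p * (1 - q) := by noncomm_ring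
  have h9 := pos_mono hρ.2 (mul_self_le_self hp hp1)
  rw [h8, map_add, map_add, h6, h7, add_zero, add_zero] at h9
  exact h ρ hρ (h3.trans h9) h4

lemma exists_moved (α : E →⋆ₐ[ℂ] E) {x : E} (hx : α x ≠ x) :
    ∃ a, IsSelfAdjoint a ∧ ¬ α a - a ≤ 0 := by
  by_contra! h
  have h1 : ∀ a, IsSelfAdjoint a → α a = a := fun a ha => by
    have h2 := h (-a) ha.neg
    rw [map_neg, neg_sub_neg, sub_nonpos] at h2
    exact le_antisymm (sub_nonpos.1 (h a ha)) h2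
  refine hx ?_
  rw [← realPart_add_I_smul_imaginaryPart x, map_add, map_smul, h1 _ (realPart x).2,
    h1 _ (imaginaryPart x).2]

lemma exists_peak (α : E →⋆ₐ[ℂ] E) {x : E} (hx : α x ≠ x) :
    ∃ p : E, 0 ≤ p ∧ ‖p‖ = 1 ∧ ‖p * α p‖ < 1 := by
  have : Nontrivial E := ⟨_, _, hx⟩
  obtain ⟨a, ha, hb⟩ := exists_moved α hx
  have hbs : IsSelfAdjoint (α a - a) := (ha.map α).sub ha
  obtain ⟨C, hC⟩ : ∃ C, C = ‖α a - a‖ + ‖a‖ := ⟨_, rfl⟩
  obtain ⟨w, hw⟩ : ∃ w, w = α a - a + algebraMap ℝ E C := ⟨_, rfl⟩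
  have hws : IsSelfAdjoint w := hw ▸ hbs.add (IsSelfAdjoint.algebraMap E (.all C))
  have h1 : C < ‖w‖ := by
    by_contra! h
    refine hb ?_
    have h2 := hws.le_algebraMap_norm_self.trans (algebraMap_mono E h)
    rwa [hw, add_le_iff_nonpos_left] at h2
  obtain ⟨r, hr, hr'⟩ := exists_pos_mul_lt (show 0 < (‖w‖ - C) / 4 by linarith) ‖a‖
  obtain ⟨s, hs0, hs, t, ht, H⟩ := norm_second_diff w a (lt_min hr one_pos)
    (show 0 < (‖w‖ - C) / 4 by linarith)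
  have hs1 : s * ‖a‖ ≤ ‖a‖ := mul_le_of_le_one_left (norm_nonneg a) (hs.trans (min_le_right _ _))
  have hs2 : s * ‖a‖ ≤ ‖a‖ * r := by
    rw [mul_comm]; exact mul_le_mul_of_nonneg_left (hs.trans (min_le_left _ _)) (norm_nonneg a)
  have hsa : ‖s • a‖ = s * ‖a‖ := by rw [norm_smul, Real.norm_of_nonneg hs0]
  have h2 : 0 ≤ w + s • a := by
    have h3 := (hbs.add ((IsSelfAdjoint.all s).smul ha)).neg.le_algebraMap_norm_self
    have h4 : ‖-(α a - a + s • a)‖ ≤ C := by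
      rw [norm_neg, hC]; exact norm_add_le_of_le le_rfl (hsa.trans_le hs1)
    have h5 := neg_le_iff_add_nonneg.1 (h3.trans (algebraMap_mono E h4))
    exact h5.trans_eq (by rw [hw]; abel)
  have h3 : ‖w‖ - s * ‖a‖ ≤ ‖w + s • a‖ := by
    have := norm_sub_le (w + s • a) (s • a)
    rw [add_sub_cancel_right] at this
    linarith
  have hC0 : 0 ≤ C := by rw [hC]; positivity
  have key : ∀ ρ : E →ₗ[ℂ] ℂ, IsState ρ → ‖w + s • a‖ ≤ (ρ (w + s • a)).re →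
      ‖w + s • a‖ ≤ (ρ (α (w + s • a))).re → False := fun ρ hρ h4 h5 => by
    have h6 := (st_re_le hρ (α (w + s • a + t • a))).trans (NonUnitalStarAlgHom.norm_apply_le α _)
    have h7 := st_re_le hρ (w + s • a - t • a)
    rw [map_add α, ← Complex.coe_smul t, map_smul α, Complex.coe_smul, Complex.coe_smul, map_add,
      Complex.add_re, st_real_smul] at h6
    rw [map_sub, Complex.sub_re, st_real_smul] at h7
    have h8 : (ρ (α a)).re - (ρ a).re < (‖w‖ - C) / 4 := lt_of_mul_lt_mul_right (by linarith) ht.le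
    have h9 : (ρ (w + s • a)).re = (ρ (α a)).re - (ρ a).re + C + s * (ρ a).re := by
      rw [hw, Algebra.algebraMap_eq_smul_one]
      simp only [map_add, map_sub, Complex.add_re, Complex.sub_re, st_real_smul, hρ.1,
        Complex.one_re, mul_one]
    have h10 := mul_le_mul_of_nonneg_left (st_re_le hρ a) hs0
    linarith
  generalize w + s • a = v at h2 h3 key
  have hv : 0 < ‖v‖ := by linarith
  have h4 : ‖‖v‖⁻¹ • v‖ = 1 := by rw [norm_smul, norm_inv, norm_norm, inv_mul_cancel₀ hv.ne']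
  have h5 : 0 ≤ ‖v‖⁻¹ • v := smul_nonneg (by positivity) h2
  have h6 := (CStarAlgebra.norm_le_one_iff_of_nonneg _ h5).1 h4.le
  refine ⟨‖v‖⁻¹ • v, h5, h4, norm_mul_lt_one h5 h6 (map_nonneg α h5)
    (by simpa using OrderHomClass.mono α h6) fun ρ hρ h7 h8 => key ρ hρ ?_ ?_⟩
  · rwa [st_real_smul, le_inv_mul_iff₀ hv, mul_one] at h7
  · rwa [← Complex.coe_smul, map_smul α, Complex.coe_smul, st_real_smul, le_inv_mul_iff₀ hv,
      mul_one] at h8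

lemma exists_plateau (α : E →⋆ₐ[ℂ] E) {x : E} (hx : α x ≠ x) : ∃ p y₁ y₂ : E, ‖p‖ ≤ 1 ∧
    p * y₁ = y₁ ∧ y₁ * y₂ = y₂ ∧ y₂ ≠ 0 ∧ ‖star p * α p‖ < 1 := by
  have : Nontrivial E := ⟨_, _, hx⟩
  obtain ⟨p, h0, h1, h2⟩ := exists_peak α hx
  obtain ⟨κ, hκ⟩ : ∃ κ, κ = (1 - ‖p * α p‖) / 3 := ⟨_, rfl⟩
  have hκ0 : 0 < κ := by rw [hκ]; linarith
  have hsp : ∀ t ∈ spectrum ℝ p, 0 ≤ t ∧ t ≤ 1 := fun t ht =>
    ⟨spectrum_nonneg_of_nonneg h0 ht, (le_abs_self t).trans (h1 ▸ spectrum.norm_le_norm_of_mem ht)⟩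
  have h3 : ‖cfc (fun t => min 1 (t + κ)) p‖ ≤ 1 := norm_cfc_le zero_le_one fun t ht => by
    rw [Real.norm_of_nonneg (le_min zero_le_one (by linarith [(hsp t ht).1]))]
    exact min_le_left _ _
  have h4 : ‖cfc (fun t => min 1 (t + κ)) p - p‖ ≤ κ := by
    nth_rw 2 [← cfc_id' ℝ p]
    rw [← cfc_sub _ _ _ (by fun_prop) (by fun_prop)]
    refine norm_cfc_le hκ0.le fun t ht => abs_le.2 ⟨?_, ?_⟩
    · linarith [le_min (hsp t ht).2 (show t ≤ t + κ by linarith)]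
    · linarith [min_le_right 1 (t + κ)]
  refine ⟨cfc (fun t => min 1 (t + κ)) p, cfc (fun t => min 1 (max 0 ((t - (1 - κ)) * 2 / κ))) p,
    cfc (fun t => max 0 (t - (1 - κ / 2))) p, h3, ?_, ?_, fun h => ?_, ?_⟩
  · rw [← cfc_mul _ _ _ (by fun_prop) (by fun_prop)]
    refine cfc_congr fun t _ => ?_
    rcases le_total t (1 - κ) with h | h
    · have : (t - (1 - κ)) * 2 / κ ≤ 0 := div_nonpos_of_nonpos_of_nonneg (by linarith) hκ0.le
      simp [max_eq_left this]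
    · simp only [min_eq_left (show 1 ≤ t + κ by linarith), one_mul]
  · rw [← cfc_mul _ _ _ (by fun_prop) (by fun_prop)]
    refine cfc_congr fun t _ => ?_
    rcases le_total t (1 - κ / 2) with h | h
    · simp only [max_eq_left (sub_nonpos.2 h), mul_zero]
    · have : 1 ≤ max 0 ((t - (1 - κ)) * 2 / κ) := le_max_of_le_right (by
        rw [le_div_iff₀ hκ0]; linarith)
      simp only [min_eq_left this, one_mul]
  · have h5 := norm_apply_le_norm_cfc (fun t => max 0 (t - (1 - κ / 2))) p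
      (CStarAlgebra.norm_mem_spectrum_of_nonneg h0)
    rw [h, norm_zero, norm_le_zero_iff, h1] at h5
    linarith [le_max_right 0 (1 - (1 - κ / 2))]
  · rw [IsSelfAdjoint.cfc.star_eq]
    generalize cfc (fun t => min 1 (t + κ)) p = q at h3 h4
    rw [show q * α q = p * α p + ((q - p) * α q + p * α (q - p)) by rw [map_sub]; noncomm_ring]
    have h5 := norm_mul_le_of_le h4 ((NonUnitalStarAlgHom.norm_apply_le α q).trans h3)
    have h6 := norm_mul_le_of_le h1.le ((NonUnitalStarAlgHom.norm_apply_le α _).trans h4)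
    linarith [norm_add_le_of_le (le_refl ‖p * α p‖) (norm_add_le_of_le h5 h6)]

end

variable {G : Type*} [Group G] {A : Type*} [NonUnitalCStarAlgebra A] {X : GAlg.{u} G} {S : Sys A X}

lemma outer_step (hS : S.Good) {D D₁ : GAlg.{u} G} (hD : D ∈ Mod S) (hD₁ : D₁ ∈ Mod S)
    {P Y : D.E} (h1 : ‖P‖ ≤ 1) (h2 : P * Y = Y) (h3 : Y ≠ 0) {p y₁ y₂ : D₁.E} (k1 : ‖p‖ ≤ 1)
    (k2 : p * y₁ = y₁) (k3 : y₁ * y₂ = y₂) (k4 : y₂ ≠ 0) :
    ∃ D' ∈ Mod S, ∃ P' Y' : D'.E, ‖P'‖ ≤ 1 ∧ P' * Y' = Y' ∧ Y' ≠ 0 ∧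
      ∀ g, ‖star P' * D'.act g P'‖ ≤ ‖star P * D.act g P‖ * ‖star p * D₁.act g p‖ := by
  obtain ⟨D', hD', j₁, j₂, e₁, e₂, hc, hn⟩ := pair_mod hS hD hD₁
  refine ⟨D', hD', j₁ P * j₂ p, j₁ Y * j₂ y₁, ?_, ?_, fun h => h3 ?_, fun g => ?_⟩
  · simpa using norm_mul_le_of_le ((NonUnitalStarAlgHom.norm_apply_le j₁ P).trans h1)
      ((NonUnitalStarAlgHom.norm_apply_le j₂ p).trans k1)
  · rw [(hc Y p).symm.mul_mul_mul_comm, ← map_mul, ← map_mul, h2, k2]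
  · have := hn Y y₁ y₂ k3 k4
    rwa [h, norm_zero, norm_le_zero_iff] at this
  · rw [map_mul, ← e₁, ← e₂, (hc P p).eq, star_mul, ← map_star, ← map_star,
      (hc _ _).symm.mul_mul_mul_comm, ← map_mul, ← map_mul]
    exact norm_mul_le_of_le (NonUnitalStarAlgHom.norm_apply_le j₁ _)
      (NonUnitalStarAlgHom.norm_apply_le j₂ _)

lemma outer_one (hS : S.Good) {g₀ : G} (hg : ∃ D ∈ Mod S, ∃ x, D.act g₀ x ≠ x) {ε : ℝ}
    (hε : 0 < ε) {D : GAlg.{u} G} (hD : D ∈ Mod S) {P Y : D.E} (h1 : ‖P‖ ≤ 1) (h2 : P * Y = Y)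
    (h3 : Y ≠ 0) : ∃ D' ∈ Mod S, ∃ P' Y' : D'.E, ‖P'‖ ≤ 1 ∧ P' * Y' = Y' ∧ Y' ≠ 0 ∧
      (∀ g, ‖star P' * D'.act g P'‖ ≤ ‖star P * D.act g P‖) ∧ ‖star P' * D'.act g₀ P'‖ ≤ ε := by
  obtain ⟨D₁, hD₁, x, hx⟩ := hg
  obtain ⟨p, y₁, y₂, k1, k2, k3, k4, k5⟩ := exists_plateau _ hx
  obtain ⟨n, hn⟩ := exists_pow_lt_of_lt_one hε k5
  have hle : ∀ {D : GAlg.{u} G} {P : D.E}, ‖P‖ ≤ 1 → ∀ g, ‖star P * D.act g P‖ ≤ 1 :=
    fun {D P} h g => by
      simpa using norm_mul_le_of_le ((norm_star P).trans_le h) ((D.norm_act g P).trans_le h)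
  suffices H : ∃ D' ∈ Mod S, ∃ P' Y' : D'.E, ‖P'‖ ≤ 1 ∧ P' * Y' = Y' ∧ Y' ≠ 0 ∧
      (∀ g, ‖star P' * D'.act g P'‖ ≤ ‖star P * D.act g P‖) ∧
        ‖star P' * D'.act g₀ P'‖ ≤ ‖star p * D₁.act g₀ p‖ ^ n by
    obtain ⟨D', hD', P', Y', a1, a2, a3, a4, a5⟩ := H
    exact ⟨D', hD', P', Y', a1, a2, a3, a4, a5.trans hn.le⟩
  clear hn
  induction n with
  | zero => exact ⟨D, hD, P, Y, h1, h2, h3, fun _ => le_rfl, by simpa using hle h1 g₀⟩
  | succ n ih =>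
    obtain ⟨D', hD', P', Y', a1, a2, a3, a4, a5⟩ := ih
    obtain ⟨D'', hD'', P'', Y'', b1, b2, b3, b4⟩ := outer_step hS hD' hD₁ a1 a2 a3 k1 k2 k3 k4
    refine ⟨D'', hD'', P'', Y'', b1, b2, b3, fun g => (b4 g).trans ?_, (b4 g₀).trans ?_⟩
    · exact (mul_le_of_le_one_right (norm_nonneg _) (hle k1 g)).trans (a4 g)
    · rw [pow_succ]
      exact mul_le_mul_of_nonneg_right a5 (norm_nonneg _)

lemma Mod.one_ne_zero (hS : S.Good) {D : GAlg.{u} G} (hD : D ∈ Mod S) : (1 : D.E) ≠ 0 := fun h => by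
  obtain ⟨I, U, ι, hι⟩ := hD
  have := hS.simple.1
  obtain ⟨a, ha⟩ := exists_ne (0 : A)
  obtain ⟨i, hi⟩ := (hι.le 1 a _ (half_pos (norm_pos_iff.2 ha))).exists
  rw [map_one, h, norm_zero, Cen.one_apply, one_mul, hS.iso] at hi
  linarith [norm_pos_iff.2 ha]

theorem outer (hS : S.Good) {D₀ : GAlg.{u} G} (h₀ : D₀ ∈ Mod S) (K : Finset G)
    (hK : ∀ g ∈ K, ∃ D ∈ Mod S, ∃ x, D.act g x ≠ x) {ε : ℝ} (hε : 0 < ε) :
    ∃ D ∈ Mod S, ∃ P Y : D.E, ‖P‖ ≤ 1 ∧ P * Y = Y ∧ Y ≠ 0 ∧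
      ∀ g ∈ K, ‖star P * D.act g P‖ ≤ ε := by
  classical
  induction K using Finset.induction_on with
  | empty => exact ⟨D₀, h₀, 1, 1, P101.norm_one_le, one_mul _, Mod.one_ne_zero hS h₀, by simp⟩
  | insert g K _ ih =>
    obtain ⟨D, hD, P, Y, h1, h2, h3, h4⟩ := ih fun g hg => hK g (Finset.mem_insert_of_mem hg)
    obtain ⟨D', hD', P', Y', a1, a2, a3, a4, a5⟩ :=
      outer_one hS (hK g (Finset.mem_insert_self _ _)) hε hD h1 h2 h3
    refine ⟨D', hD', P', Y', a1, a2, a3, fun g' hg' => ?_⟩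
    rcases Finset.mem_insert.1 hg' with rfl | hg'
    · exact a5
    · exact (a4 g').trans (h4 g' hg')

end Vale.Agent.P095
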