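import Vale.Agent.P095.Tr

/-! Traces on commuting subalgebras are averages of product traces. -/

namespace Vale.Agent.P095

open scoped CStarAlgebra ComplexConjugate
open Filter Topology
open Vale.Agent.P101

attribute [local instance] CStarAlgebra.spectralOrder CStarAlgebra.spectralOrderedRing

variable {E E₁ E₂ : Type*} [CStarAlgebra E] [CStarAlgebra E₁] [CStarAlgebra E₂]

theorem IsTr.dixmier {σ : E →ₗ[ℂ] ℂ} (h : IsTr σ) (x : E) : ∃ y : ℕ → E,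
    (∀ n, y n ∈ convexHull ℝ {y | ∃ u ∈ unitary E, y = u * x * star u}) ∧
    ∀ a, Tendsto (fun n => nq σ (y n * a - a * y n)) atTop (𝓝 0) := by
  set K := convexHull ℝ {y | ∃ u ∈ unitary E, y = u * x * star u}
  have hK : ∀ u ∈ unitary E, ∀ y ∈ K, u * y * star u ∈ K := fun u hu y hy => by
    let f : E →ₗ[ℝ] E := (LinearMap.mulRight ℝ (star u)) ∘ₗ LinearMap.mulLeft ℝ u
    refine convexHull_min (t := f ⁻¹' K) ?_ ((convex_convexHull ℝ _).linear_preimage f) hy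
    rintro _ ⟨v, hv, rfl⟩
    exact subset_convexHull ℝ _ ⟨u * v, mul_mem hu hv, by simp [f, mul_assoc]⟩
  have hx : x ∈ K := subset_convexHull ℝ _ ⟨1, one_mem _, by simp⟩
  obtain ⟨r, -, hr, hr'⟩ := exists_seq_tendsto_sInf (S := (fun y => nq σ y ^ 2) '' K)
    ⟨_, x, hx, rfl⟩ ⟨0, by rintro _ ⟨y, -, rfl⟩; positivity⟩
  choose y hy hy' using hr'
  have hm : ∀ z ∈ K, sInf ((fun y => nq σ y ^ 2) '' K) ≤ nq σ z ^ 2 := fun z hz =>
    csInf_le ⟨0, by rintro _ ⟨y, -, rfl⟩; positivity⟩ ⟨z, hz, rfl⟩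
  set m := sInf ((fun y => nq σ y ^ 2) '' K)
  refine ⟨y, hy, fun a => ?_⟩
  have hu : ∀ u ∈ unitary E, Tendsto (fun n => nq σ (y n * u - u * y n)) atTop (𝓝 0) := by
    intro u hu
    have h1 : ∀ n, nq σ (y n * u - u * y n) ≤ √(4 * (r n - m)) := fun n => by
      have h2 := hm _ ((convex_convexHull ℝ _) (hy n) (hK u hu _ (hy n)) (a := 1 / 2) (b := 1 / 2)
        (by norm_num) (by norm_num) (by norm_num))
      have h3 : σ (star (u * y n * star u) * (u * y n * star u)) = σ (star (y n) * y n) := by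
        simp only [star_mul, star_star, mul_assoc]
        rw [← mul_assoc (star u), hu.1, one_mul, h.comm u, mul_assoc, mul_assoc, hu.1, mul_one]
      have h4 : nq σ (y n - u * y n * star u) ^ 2 ≤ 4 * (r n - m) := by
        rw [← hy' n]
        simp only [nq_sq h.pos, star_add, star_sub, star_smul, add_mul, mul_add, sub_mul, mul_sub,
          smul_mul_assoc, mul_smul_comm, map_add, map_sub, h3, Complex.add_re, Complex.sub_re,
          LinearMap.map_smul_of_tower, Complex.smul_re, smul_eq_mul, star_trivial] at h2 ⊢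
        linarith
      have h5 : y n * u - u * y n = (y n - u * y n * star u) * u := by
        rw [sub_mul, mul_assoc _ (star u), hu.1, mul_one]
      rw [h5]
      refine (h.nq_mul_le _ _).trans ((mul_le_of_le_one_right (nq_nonneg _) ?_).trans
        (Real.le_sqrt_of_sq_le h4))
      simpa using (CStarRing.norm_mem_unitary_mul 1 hu).trans_le norm_one_le
    refine squeeze_zero (fun n => nq_nonneg _) h1 ?_
    simpa using ((hr.sub_const m).const_mul 4).sqrt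
  obtain ⟨u, c, rfl, -⟩ := CStarAlgebra.exists_sum_four_unitary a
  refine squeeze_zero (fun n => nq_nonneg _) (g := fun n => ∑ i, ‖c i‖ * nq σ (y n * u i - u i * y n))
    (fun n => ?_) (by simpa using tendsto_finsetSum _ fun i _ => (hu _ (u i).2).const_mul ‖c i‖)
  rw [Finset.mul_sum, Finset.sum_mul, ← Finset.sum_sub_distrib]
  refine (nq_sum_le h.pos _ _).trans (Finset.sum_le_sum fun i _ => ?_)
  rw [← h.pos.nq_smul, smul_sub, mul_smul_comm, smul_mul_assoc]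

/-- positive functionals that are tracial in both variables -/
structure BiTr (j₁ : E₁ →⋆ₐ[ℂ] E) (j₂ : E₂ →⋆ₐ[ℂ] E) (θ : E →ₗ[ℂ] ℂ) : Prop where
  pos : IsPos θ
  c₁ : ∀ a a' c, θ (j₁ (a * a') * j₂ c) = θ (j₁ (a' * a) * j₂ c)
  c₂ : ∀ a c c', θ (j₁ a * j₂ (c * c')) = θ (j₁ a * j₂ (c' * c))

variable {j₁ : E₁ →⋆ₐ[ℂ] E} {j₂ : E₂ →⋆ₐ[ℂ] E}

lemma BiTr.lim {I : Type*} {l : Filter I} [l.NeBot] {θ : I → E →ₗ[ℂ] ℂ} {θ' : E →ₗ[ℂ] ℂ}
    (h : ∀ x, Tendsto (fun i => θ i x) l (𝓝 (θ' x))) (hθ : ∀ i, BiTr j₁ j₂ (θ i)) :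
    BiTr j₁ j₂ θ' :=
  ⟨pos_lim h fun i => (hθ i).pos,
    fun _ _ _ => tendsto_nhds_unique (h _) ((h _).congr fun i => (hθ i).c₁ _ _ _),
    fun _ _ _ => tendsto_nhds_unique (h _) ((h _).congr fun i => (hθ i).c₂ _ _ _)⟩

lemma BiTr.cut {θ : E →ₗ[ℂ] ℂ} (H : BiTr j₁ j₂ θ) (h1 : θ 1 = 1) (hc : ∀ a c, Commute (j₁ a) (j₂ c))
    {y : ℕ → E₁} (hy : ∀ n, 0 ≤ y n ∧ y n ≤ 1)
    (hy' : ∀ a, Tendsto (fun n => nq (θ ∘ₗ j₁.toAlgHom.toLinearMap) (y n * a - a * y n)) atTop (𝓝 0)) :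
    ∃ θ', BiTr j₁ j₂ θ' ∧ ∀ a c, Tendsto (fun n => θ (j₁ (y n * a) * j₂ c)) (hyperfilter ℕ)
      (𝓝 (θ' (j₁ a * j₂ c))) := by
  let s : ℕ → E := fun n => j₁ (CFC.sqrt (y n))
  have hs : ∀ n, star (s n) = s n := fun n => (map_nonneg j₁ (CFC.sqrt_nonneg _)).star_eq
  have hs1 : ∀ n, ‖s n‖ ≤ 1 := fun n => by
    refine (NonUnitalStarAlgHom.norm_apply_le j₁ _).trans ?_
    rw [CStarAlgebra.norm_le_one_iff_of_nonneg _ (CFC.sqrt_nonneg _)]
    simpa using CFC.sqrt_le_sqrt _ _ (hy n).2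
  let θn : ℕ → E →ₗ[ℂ] ℂ := fun n => θ ∘ₗ LinearMap.mulRight ℂ (s n) ∘ₗ LinearMap.mulLeft ℂ (s n)
  obtain ⟨θ', h'⟩ := exists_lim (hyperfilter ℕ) θn (C := 1) fun n x => by
    refine (st_norm_le ⟨h1, H.pos⟩ _).trans (norm_mul₃_le.trans ?_)
    calc _ ≤ 1 * ‖x‖ * 1 := by gcongr <;> exact hs1 n
      _ = _ := by ring
  have h2 : ∀ a c, Tendsto (fun n => θ (j₁ (y n * a) * j₂ c)) (hyperfilter ℕ)
      (𝓝 (θ' (j₁ a * j₂ c))) := fun a c => (h' _).congr fun n => by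
    change θ (s n * (j₁ a * j₂ c) * s n) = _
    rw [mul_assoc, mul_assoc, ← (hc _ c).eq, ← mul_assoc, ← mul_assoc, ← map_mul, ← map_mul, H.c₁,
      ← mul_assoc, CFC.sqrt_mul_sqrt_self _ (hy n).1]
  refine ⟨θ', ⟨pos_lim h' fun n x => ?_, fun a a' c => ?_, fun a c c' =>
    tendsto_nhds_unique (h2 _ _) ((h2 _ _).congr fun n => H.c₂ _ _ _)⟩, h2⟩
  · have := H.pos (x * s n)
    rwa [star_mul, hs, mul_assoc, ← mul_assoc (star x), ← mul_assoc] at this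
  · have hσ : IsTr (θ ∘ₗ j₁.toAlgHom.toLinearMap) :=
      ⟨⟨by simp [h1], pos_comp H.pos j₁⟩, fun a a' => by simpa using H.c₁ a a' 1⟩
    refine tendsto_nhds_unique_of_eventuallyEq (h2 (a * a') c) ((h2 (a' * a) c).add
      (g := fun n => θ (j₁ ((y n * a - a * y n) * a') * j₂ c)) (b := 0) ?_)
      (Eventually.of_forall fun n => ?_) |>.trans (add_zero _)
    · refine squeeze_zero_norm (fun n => ?_) (((by simpa using (hy' a).mul_const (nq θ (j₁ a' * j₂ c))) :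
        Tendsto (fun n => nq (θ ∘ₗ j₁.toAlgHom.toLinearMap) (y n * a - a * y n) *
          nq θ (j₁ a' * j₂ c)) atTop (𝓝 0)).mono_left Nat.hyperfilter_le_atTop)
      have := pos_cs H.pos (j₁ (star (y n * a - a * y n))) (j₁ a' * j₂ c)
      rwa [← nq_comp, hσ.nq_star, map_star, star_star, ← mul_assoc, ← map_mul] at this
    · simp only [← mul_assoc]
      rw [H.c₁ (y n * a') a, ← map_add, ← add_mul, ← map_add]
      congr 3
      noncomm_ring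

theorem prod_base (hc : ∀ a c, Commute (j₁ a) (j₂ c)) {τ : E →ₗ[ℂ] ℂ} (hτ : IsTr τ) {κ : Type*}
    [Fintype κ] (x : κ → E₁) (y : κ → E₂) : ∃ σ₁ σ₂, IsTr σ₁ ∧ IsTr σ₂ ∧
      (τ (∑ k, j₁ (x k) * j₂ (y k))).re ≤ (∑ k, σ₁ (x k) * σ₂ (y k)).re := by
  set z := ∑ k, j₁ (x k) * j₂ (y k) with hz
  have key : ∀ (p : (E →ₗ[ℂ] ℂ) → Prop) (f : (E →ₗ[ℂ] ℂ) → ℝ) (C : ℝ),
      (∀ θ, p θ → IsState θ ∧ f θ ≤ C) → (∃ θ, p θ) →
      (∀ (θ : ℕ → E →ₗ[ℂ] ℂ) θ', (∀ x, Tendsto (fun i => θ i x) (hyperfilter ℕ) (𝓝 (θ' x))) →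
        ((∀ i, p (θ i)) → p θ') ∧ Tendsto (fun i => f (θ i)) (hyperfilter ℕ) (𝓝 (f θ'))) →
      ∃ θ, p θ ∧ ∀ θ', p θ' → f θ' ≤ f θ := by
    rintro p f C h1 ⟨θ₀, h2⟩ h3
    have hb : BddAbove (f '' {θ | p θ}) := ⟨C, by rintro _ ⟨θ, h, rfl⟩; exact (h1 θ h).2⟩
    obtain ⟨r, -, hr, hr'⟩ := exists_seq_tendsto_sSup (S := f '' {θ | p θ}) ⟨_, θ₀, h2, rfl⟩ hb
    choose θ hθ hθ' using hr'
    obtain ⟨θ', -, h'⟩ := exists_lim_st (hyperfilter ℕ) fun n => (h1 _ (hθ n)).1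
    refine ⟨θ', (h3 θ θ' h').1 hθ, fun θ'' h'' => ?_⟩
    rw [tendsto_nhds_unique (h3 θ θ' h').2 ((hr.mono_left Nat.hyperfilter_le_atTop).congr
      fun n => (hθ' n).symm)]
    exact le_csSup hb ⟨_, h'', rfl⟩
  have hτ' : BiTr j₁ j₂ τ := ⟨hτ.pos, fun a a' c => by
      rw [map_mul j₁, map_mul j₁, mul_assoc, hτ.comm, mul_assoc, ← (hc a c).eq, mul_assoc],
    fun a c c' => by
      rw [map_mul j₂, map_mul j₂, ← mul_assoc, hτ.comm, ← mul_assoc, ← (hc a c').eq, mul_assoc]⟩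
  have one : ∀ {θ : ℕ → E →ₗ[ℂ] ℂ} {θ' : E →ₗ[ℂ] ℂ}, (∀ x, Tendsto (fun i => θ i x) (hyperfilter ℕ)
      (𝓝 (θ' x))) → ∀ {w : E} {c : ℂ}, (∀ i, θ i w = c) → θ' w = c := fun h w c h' =>
    tendsto_nhds_unique (h w) (tendsto_const_nhds.congr fun i => (h' i).symm)
  obtain ⟨θ₀, ⟨h₀, h₀'⟩, hm⟩ := key (fun θ => BiTr j₁ j₂ θ ∧ θ 1 = 1) (fun θ => (θ z).re) ‖z‖
    (fun θ h => ⟨⟨h.2, h.1.pos⟩, st_re_le ⟨h.2, h.1.pos⟩ z⟩) ⟨τ, hτ', hτ.one⟩
    fun θ θ' h => ⟨fun h' => ⟨BiTr.lim h fun i => (h' i).1, one h fun i => (h' i).2⟩,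
      (Complex.continuous_re.tendsto _).comp (h z)⟩
  obtain ⟨θ, ⟨H, h1, hθ⟩, hM⟩ := key (fun θ => BiTr j₁ j₂ θ ∧ θ 1 = 1 ∧ (θ z).re = (θ₀ z).re)
    (fun θ => ∑ k, ‖θ (j₂ (y k))‖ ^ 2) (∑ k, ‖j₂ (y k)‖ ^ 2)
    (fun θ h => ⟨⟨h.2.1, h.1.pos⟩, Finset.sum_le_sum fun k _ =>
      pow_le_pow_left₀ (norm_nonneg _) (st_norm_le ⟨h.2.1, h.1.pos⟩ _) 2⟩) ⟨θ₀, h₀, h₀', rfl⟩
    fun θ θ' h => ⟨fun h' => ⟨BiTr.lim h fun i => (h' i).1, one h fun i => (h' i).2.1,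
      tendsto_nhds_unique ((Complex.continuous_re.tendsto _).comp (h z))
        (tendsto_const_nhds.congr fun i => (h' i).2.2.symm)⟩,
      tendsto_finsetSum _ fun k _ => (h _).norm.pow 2⟩
  set m := (θ₀ z).re
  set M := ∑ k, ‖θ (j₂ (y k))‖ ^ 2 with hMd
  have hom : ∀ θ' : E →ₗ[ℂ] ℂ, BiTr j₁ j₂ θ' → ∀ μ : ℝ, θ' 1 = μ → (θ' z).re ≤ μ * m ∧
      ((θ' z).re = μ * m → ∑ k, ‖θ' (j₂ (y k))‖ ^ 2 ≤ μ ^ 2 * M) := fun θ' h' μ hμ => by
    have h2 : 0 ≤ μ := by simpa [hμ] using pos_re h'.pos zero_le_one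
    rcases h2.eq_or_lt with rfl | h2
    · have h3 : ∀ w, θ' w = 0 := fun w => by simpa [hμ] using pos_norm_le h'.pos w
      simp [h3]
    have h3 : BiTr j₁ j₂ (((μ⁻¹ : ℝ) : ℂ) • θ') := ⟨pos_of_re fun w => by
        simp only [LinearMap.smul_apply, smul_eq_mul, Complex.re_ofReal_mul, Complex.im_ofReal_mul,
          h'.pos.im, mul_zero, and_true]
        exact mul_nonneg (by positivity) (h'.pos.re w),
      fun _ _ _ => by simp only [LinearMap.smul_apply, h'.c₁], fun _ _ _ => by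
        simp only [LinearMap.smul_apply]; rw [h'.c₂]⟩
    have h4 : (((μ⁻¹ : ℝ) : ℂ) • θ') 1 = 1 := by simp [hμ, h2.ne']
    have h5 := hm _ ⟨h3, h4⟩
    simp only [LinearMap.smul_apply, smul_eq_mul, Complex.re_ofReal_mul] at h5
    refine ⟨by rwa [inv_mul_le_iff₀ h2] at h5, fun h6 => ?_⟩
    have h7 := hM _ ⟨h3, h4, by
      simp only [LinearMap.smul_apply, smul_eq_mul, Complex.re_ofReal_mul, h6]; field_simp⟩
    simp only [LinearMap.smul_apply, smul_eq_mul, norm_mul, mul_pow, ← Finset.mul_sum,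
      Complex.norm_real, Real.norm_eq_abs, sq_abs, inv_pow] at h7
    rwa [inv_mul_le_iff₀ (by positivity)] at h7
  have hσ : IsTr (θ ∘ₗ j₁.toAlgHom.toLinearMap) :=
    ⟨⟨by simp [h1], pos_comp H.pos j₁⟩, fun a a' => by simpa using H.c₁ a a' 1⟩
  have main : ∀ a : E₁, 0 ≤ a → ‖a‖ ≤ 1 → ∀ k, θ (j₁ a * j₂ (y k)) = θ (j₁ a) * θ (j₂ (y k)) := by
    intro a ha ha1
    obtain ⟨w, hw, hw'⟩ := hσ.dixmier a
    have h2 : ∀ n, (0 ≤ w n ∧ w n ≤ 1) ∧ ∀ c, θ (j₁ (w n) * j₂ c) = θ (j₁ a * j₂ c) := fun n => by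
      refine convexHull_min (t := {v | (0 ≤ v ∧ v ≤ 1) ∧ ∀ c, θ (j₁ v * j₂ c) = θ (j₁ a * j₂ c)})
        ?_ ?_ (hw n)
      · rintro _ ⟨u, hu, rfl⟩
        refine ⟨⟨star_right_conjugate_nonneg ha u, ?_⟩, fun c => ?_⟩
        · simpa [hu.2] using star_right_conjugate_le_conjugate
            ((CStarAlgebra.norm_le_one_iff_of_nonneg a ha).1 ha1) u
        · rw [H.c₁, ← mul_assoc, hu.1, one_mul]
      · rintro v ⟨⟨hv, hv1⟩, hv'⟩ v' ⟨⟨hw, hw1⟩, hw'⟩ s t hs ht hst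
        refine ⟨⟨add_nonneg (smul_nonneg hs hv) (smul_nonneg ht hw), ?_⟩, fun c => ?_⟩
        · refine (add_le_add (smul_le_smul_of_nonneg_left hv1 hs)
            (smul_le_smul_of_nonneg_left hw1 ht)).trans_eq ?_
          rw [← add_smul, hst, one_smul]
        · simp only [← Complex.coe_smul, map_add, map_smul, add_mul, smul_mul_assoc, hv', hw']
          rw [← add_smul, ← Complex.ofReal_add, hst, Complex.ofReal_one, one_smul]
    obtain ⟨θ₁, H₁, l₁⟩ := H.cut h1 hc (fun n => (h2 n).1) hw'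
    obtain ⟨θ₂, H₂, l₂⟩ := H.cut h1 hc (y := fun n => 1 - w n)
      (fun n => ⟨sub_nonneg.2 (h2 n).1.2, sub_le_self _ (h2 n).1.1⟩) fun a =>
        (hw' a).congr fun n => by rw [nq_comm]; congr 1; noncomm_ring
    have h3 : ∀ a c, θ₁ (j₁ a * j₂ c) + θ₂ (j₁ a * j₂ c) = θ (j₁ a * j₂ c) := fun a c =>
      tendsto_nhds_unique ((l₁ a c).add (l₂ a c)) (tendsto_const_nhds.congr fun n => by
        simp [sub_mul])
    have h4 : ∀ c, θ₁ (j₂ c) = θ (j₁ a * j₂ c) := fun c =>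
      tendsto_nhds_unique (by simpa using l₁ 1 c) (tendsto_const_nhds.congr fun n =>
        ((h2 n).2 c).symm)
    set lam := (θ (j₁ a)).re
    have h5 : θ (j₁ a) = lam := pos_eq_re H.pos (map_nonneg j₁ ha).isSelfAdjoint
    have h6 : θ₁ 1 = lam := by simpa [h5] using h4 1
    have h7 : θ₂ 1 = (1 - lam : ℝ) := by
      have := h3 1 1
      simp only [map_one, mul_one, h1, h6] at this
      push_cast
      linear_combination this
    have h8 : (θ₁ z).re + (θ₂ z).re = m := by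
      rw [← hθ, ← Complex.add_re, hz, map_sum, map_sum, map_sum, ← Finset.sum_add_distrib]
      simp only [h3]
    obtain ⟨a1, a2⟩ := hom θ₁ H₁ _ h6
    obtain ⟨b1, b2⟩ := hom θ₂ H₂ _ h7
    replace a2 := a2 (by linarith)
    replace b2 := b2 (by linarith)
    have hl0 : 0 ≤ lam := pos_re H.pos (map_nonneg j₁ ha)
    have hl1 : 0 ≤ 1 - lam := by simpa [h7] using pos_re H₂.pos zero_le_one
    have h9 : ∀ k, θ (j₂ (y k)) = θ₁ (j₂ (y k)) + θ₂ (j₂ (y k)) := fun k => by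
      simpa using (h3 1 (y k)).symm
    have h10 : ∑ k, ‖θ₁ (j₂ (y k)) - lam * θ (j₂ (y k))‖ ^ 2 =
        (1 - lam) * ∑ k, ‖θ₁ (j₂ (y k))‖ ^ 2 + lam * ∑ k, ‖θ₂ (j₂ (y k))‖ ^ 2 -
          lam * (1 - lam) * M := by
      simp only [hMd, Finset.mul_sum, ← Finset.sum_add_distrib, ← Finset.sum_sub_distrib, h9]
      refine Finset.sum_congr rfl fun k _ => ?_
      simp only [Complex.sq_norm, Complex.normSq_apply, Complex.sub_re, Complex.sub_im,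
        Complex.add_re, Complex.add_im, Complex.re_ofReal_mul, Complex.im_ofReal_mul]
      ring
    have h11 : ∑ k, ‖θ₁ (j₂ (y k)) - lam * θ (j₂ (y k))‖ ^ 2 ≤ 0 := by
      nlinarith [mul_le_mul_of_nonneg_left a2 hl1, mul_le_mul_of_nonneg_left b2 hl0]
    intro k
    have h12 := (Finset.single_le_sum (f := fun k => ‖θ₁ (j₂ (y k)) - lam * θ (j₂ (y k))‖ ^ 2)
      (fun k _ => by positivity) (Finset.mem_univ k)).trans h11
    rw [sq_nonpos_iff, norm_eq_zero, sub_eq_zero, h4] at h12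
    rw [h12, h5]
  have main' : ∀ a k, θ (j₁ a * j₂ (y k)) = θ (j₁ a) * θ (j₂ (y k)) := fun a k => by
    have : a ∈ Submodule.span ℂ ({x | 0 ≤ x} ∩ Metric.closedBall (0 : E₁) 1) := by
      simp [CStarAlgebra.span_nonneg_inter_unitClosedBall]
    induction this using Submodule.span_induction with
    | mem a ha => exact main a ha.1 (mem_closedBall_zero_iff.1 ha.2) k
    | zero => simp
    | add a b _ _ ha hb => simp [add_mul, ha, hb]
    | smul c a _ ha => simp [ha, mul_assoc]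
  refine ⟨_, θ ∘ₗ j₂.toAlgHom.toLinearMap, hσ, ⟨⟨by simp [h1], pos_comp H.pos j₂⟩,
    fun c c' => by simpa using H.c₂ 1 c c'⟩, (hm τ ⟨hτ', hτ.one⟩).trans_eq ?_⟩
  rw [← hθ, hz, map_sum]
  simp [main']

end Vale.Agent.P095
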