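import Vale.Agent.P101.Red

/-! Bounded products of unital C*-algebras, lifting along homomorphisms with dense range. -/

namespace Vale.Agent.P095

open scoped ENNReal CStarAlgebra
open Filter Topology

section prd
variable {I : Type*} (E : I → Type*) [∀ i, CStarAlgebra (E i)]

/-- bounded families -/
def Prd : Type _ := lp E ∞

noncomputable instance : NonUnitalCStarAlgebra (Prd E) :=
  inferInstanceAs (NonUnitalCStarAlgebra (lp E ∞))

variable {E}

def Prd.app (x : Prd E) (i : I) : E i := (show lp E ∞ from x).1 i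

instance : CoeFun (Prd E) fun _ => ∀ i, E i := ⟨Prd.app⟩

@[ext] lemma Prd.ext {x y : Prd E} (h : ∀ i, x i = y i) : x = y := lp.ext (funext h)

noncomputable def Prd.mk (x : ∀ i, E i) (h : ∃ C, ∀ i, ‖x i‖ ≤ C) : Prd E :=
  (⟨x, memℓp_infty (by obtain ⟨C, hC⟩ := h; exact ⟨C, by rintro _ ⟨i, rfl⟩; exact hC i⟩)⟩ : lp E ∞)

@[simp] lemma Prd.mk_apply (x : ∀ i, E i) (h) (i : I) : Prd.mk x h i = x i := rfl

lemma Prd.norm_apply_le (x : Prd E) (i : I) : ‖x i‖ ≤ ‖x‖ :=
  lp.norm_apply_le_norm ENNReal.top_ne_zero (show lp E ∞ from x) i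

lemma Prd.norm_le (x : Prd E) {C : ℝ} (hC : 0 ≤ C) (h : ∀ i, ‖x i‖ ≤ C) : ‖x‖ ≤ C :=
  lp.norm_le_of_forall_le hC h

@[simp] lemma Prd.add_apply (x y : Prd E) (i : I) : (x + y) i = x i + y i := rfl
@[simp] lemma Prd.sub_apply (x y : Prd E) (i : I) : (x - y) i = x i - y i := rfl
@[simp] lemma Prd.neg_apply (x : Prd E) (i : I) : (-x) i = -x i := rfl
@[simp] lemma Prd.zero_apply (i : I) : (0 : Prd E) i = 0 := rfl
@[simp] lemma Prd.mul_apply (x y : Prd E) (i : I) : (x * y) i = x i * y i := rfl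
@[simp] lemma Prd.smul_apply (c : ℂ) (x : Prd E) (i : I) : (c • x) i = c • x i := rfl
@[simp] lemma Prd.star_apply (x : Prd E) (i : I) : (star x) i = star (x i) := rfl

noncomputable instance : One (Prd E) := ⟨Prd.mk 1 ⟨1, fun _ => P101.norm_one_le⟩⟩

@[simp] lemma Prd.one_apply (i : I) : (1 : Prd E) i = 1 := rfl

noncomputable instance : NormedRing (Prd E) :=
  { (inferInstance : NonUnitalNormedRing (Prd E)) with
    one_mul := fun x => Prd.ext fun i => by simp
    mul_one := fun x => Prd.ext fun i => by simp }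

noncomputable instance : Algebra ℂ (Prd E) :=
  Algebra.ofModule (fun _ _ _ => smul_mul_assoc _ _ _) (fun _ _ _ => mul_smul_comm _ _ _)

noncomputable instance : NormedAlgebra ℂ (Prd E) where
  norm_smul_le := fun c x => norm_smul_le c x

noncomputable instance : CStarAlgebra (Prd E) where

/-- evaluation -/
def Prd.ev (i : I) : Prd E →⋆ₐ[ℂ] E i where
  toFun x := x i
  map_one' := rfl
  map_mul' _ _ := rfl
  map_zero' := rfl
  map_add' _ _ := rfl
  commutes' c := by simp [Algebra.algebraMap_eq_smul_one]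
  map_star' _ := rfl

@[simp] lemma Prd.ev_apply (i : I) (x : Prd E) : Prd.ev i x = x i := rfl

lemma Prd.sum_apply {κ : Type*} (s : Finset κ) (x : κ → Prd E) (i : I) :
    (∑ k ∈ s, x k) i = ∑ k ∈ s, x k i := map_sum (Prd.ev i) x s

/-- a family of homomorphisms into the factors -/
noncomputable def Prd.hom {R : Type*} [CStarAlgebra R] (f : ∀ i, R →⋆ₐ[ℂ] E i) :
    R →⋆ₐ[ℂ] Prd E where
  toFun x := Prd.mk (fun i => f i x) ⟨‖x‖, fun i => NonUnitalStarAlgHom.norm_apply_le (f i) x⟩
  map_one' := Prd.ext fun i => by simp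
  map_mul' _ _ := Prd.ext fun i => by simp
  map_zero' := Prd.ext fun i => by simp
  map_add' _ _ := Prd.ext fun i => by simp
  commutes' c := Prd.ext fun i => by simp [Algebra.algebraMap_eq_smul_one]
  map_star' _ := Prd.ext fun i => by simp [map_star]

@[simp] lemma Prd.hom_apply {R : Type*} [CStarAlgebra R] (f : ∀ i, R →⋆ₐ[ℂ] E i) (x : R) (i : I) :
    Prd.hom f x i = f i x := rfl

end prd

section lift
variable {C E : Type*} [CStarAlgebra C] [CStarAlgebra E]

lemma map_cfc_real (ι : C →⋆ₐ[ℂ] E) {x : C} (hx : IsSelfAdjoint x) {f : ℝ → ℝ}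
    (hf : Continuous f) : ι (cfc f x) = cfc f (ι x) :=
  StarAlgHomClass.map_cfc (R := ℝ) (S := ℂ) ι f x hf.continuousOn (map_continuous ι) hx (hx.map ι)

lemma exists_lift_norm (ι : C →⋆ₐ[ℂ] E) (x : C) : ∃ x', ι x' = ι x ∧ ‖x'‖ ≤ ‖ι x‖ := by
  let := CStarAlgebra.spectralOrder C
  let := CStarAlgebra.spectralOrderedRing C
  let := CStarAlgebra.spectralOrder E
  let := CStarAlgebra.spectralOrderedRing E
  set c := ‖ι x‖ with hc
  rcases (norm_nonneg (ι x)).eq_or_lt with h0 | h0
  · exact ⟨0, by rw [map_zero, norm_eq_zero.1 h0.symm], by rw [norm_zero]; exact h0.le⟩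
  have hs : IsSelfAdjoint (star x * x) := IsSelfAdjoint.star_mul_self x
  let k : ℝ → ℝ := fun t => c / max c √t
  have hk : Continuous k := continuous_const.div (by fun_prop) fun t =>
    (lt_max_of_lt_left h0).ne'
  refine ⟨x * cfc k (star x * x), ?_, ?_⟩
  · rw [map_mul, map_cfc_real ι hs hk, cfc_congr (g := fun _ => 1), cfc_const_one ℝ _ (hs.map ι),
      mul_one]
    intro t ht
    have h1 := spectrum.norm_le_norm_mul_of_mem ht
    have h2 : ‖ι (star x * x)‖ = c * c := by rw [map_mul, map_star, CStarRing.norm_star_mul_self]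
    have h3 : t ≤ c * c := by
      have := mul_le_mul_of_nonneg_left (P101.norm_one_le (E := E)) (norm_nonneg (ι (star x * x)))
      rw [h2] at h1 this
      linarith [le_abs_self t, Real.norm_eq_abs t]
    have h4 : √t ≤ c := by rw [Real.sqrt_le_left h0.le]; nlinarith
    simp only [k, max_eq_left h4]
    exact div_self h0.ne'
  · have h1 : star (x * cfc k (star x * x)) * (x * cfc k (star x * x)) =
        cfc (fun t => k t * t * k t) (star x * x) := by
      rw [cfc_mul _ _ _ (by fun_prop) (by fun_prop), cfc_mul _ _ _ (by fun_prop) (by fun_prop),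
        cfc_id' ℝ _, star_mul, IsSelfAdjoint.cfc.star_eq]
      simp only [mul_assoc]
    have h2 : ‖cfc (fun t => k t * t * k t) (star x * x)‖ ≤ c * c := by
      refine norm_cfc_le (by positivity) fun t ht => ?_
      have h3 : 0 ≤ t := spectrum_nonneg_of_nonneg (star_mul_self_nonneg x) ht
      have h4 : 0 < max c √t := lt_max_of_lt_left h0
      have h5 : k t * √t ≤ c := by
        simp only [k]
        rw [div_mul_eq_mul_div, div_le_iff₀ h4]
        exact mul_le_mul_of_nonneg_left (le_max_right _ _) h0.le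
      have h6 : 0 ≤ k t * √t := by positivity
      have h7 : k t * t * k t = (k t * √t) * (k t * √t) := by
        linear_combination (-(k t * k t)) * Real.mul_self_sqrt h3
      rw [h7, Real.norm_of_nonneg (by positivity)]
      exact mul_le_mul h5 h5 h6 h0.le
    rw [← h1, CStarRing.norm_star_mul_self] at h2
    exact abs_le_of_sq_le_sq' (by nlinarith) h0.le |>.2

lemma surj_of_dense (ι : C →⋆ₐ[ℂ] E) (h : DenseRange ι) : Function.Surjective ι := by
  let f : NormedAddGroupHom C E := (ι : C →+ E).mkNormedAddGroupHom 1 fun x => by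
    simpa using NonUnitalStarAlgHom.norm_apply_le ι x
  have h1 : f.SurjectiveOnWith f.range 1 := by
    rintro _ ⟨x, rfl⟩
    obtain ⟨x', h1, h2⟩ := exists_lift_norm ι x
    exact ⟨x', h1, by rw [one_mul]; exact h2⟩
  have h2 := controlled_closure_of_complete one_pos one_pos h1
  intro y
  obtain ⟨x, hx, -⟩ := h2 y (h y)
  exact ⟨x, hx⟩

lemma exists_lift_le {ι : C →⋆ₐ[ℂ] E} (h : Function.Surjective ι) (y : E) :
    ∃ x, ι x = y ∧ ‖x‖ ≤ ‖y‖ := by
  obtain ⟨x, rfl⟩ := h y
  exact exists_lift_norm ι x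

lemma norm_le_of_ker {B : Type*} [CStarAlgebra B] (q : C →⋆ₐ[ℂ] E) (f : C →⋆ₐ[ℂ] B)
    (h : ∀ x, q x = 0 → f x = 0) (x : C) : ‖f x‖ ≤ ‖q x‖ := by
  obtain ⟨x', h1, h2⟩ := exists_lift_norm q x
  have h3 : f x = f x' := by
    rw [← sub_eq_zero, ← map_sub]; exact h _ (by rw [map_sub, h1, sub_self])
  rw [h3]
  exact (NonUnitalStarAlgHom.norm_apply_le f _).trans h2

lemma exists_desc {B : Type*} [CStarAlgebra B] {q : C →⋆ₐ[ℂ] E} (hq : Function.Surjective q)
    (f : C →⋆ₐ[ℂ] B) (h : ∀ x, q x = 0 → f x = 0) : ∃ g : E →⋆ₐ[ℂ] B, ∀ x, g (q x) = f x :=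
  P101.exists_lift q hq.denseRange f (norm_le_of_ker q f h)

end lift

end Vale.Agent.P095
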