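import Vale.Agent.P095.Tr

/-! Resolvent thresholds. -/

namespace Vale.Agent.P095

open scoped CStarAlgebra ComplexConjugate
open Filter Topology Finset
open Vale.Agent.P101

attribute [local instance] CStarAlgebra.spectralOrder CStarAlgebra.spectralOrderedRing

lemma ring_block {R S : Type*} [Ring R] [Ring S] (μ : S →+ R) {a b : S} {t r ra rb : R}
    (ht : ∀ x, Commute t x) (h4 : 4 • ((a * b - b * a) * (a * b - b * a)) = -1) (ha : a * a = a)
    (hb : b * b = b) (h1 : ∀ z, μ a * μ z = μ 1 * μ (a * z)) (h2 : ∀ z, μ b * μ z = μ 1 * μ (b * z))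
    (r1 : r * (μ 1 + t) = 1) (r2 : (μ 1 + t) * r = 1) (a1 : ra * (μ a + t) = 1)
    (a2 : (μ a + t) * ra = 1) (b1 : rb * (μ b + t) = 1) (b2 : (μ b + t) * rb = 1) :
    4 • (((μ a * ra) ^ 2 * (μ b * rb) ^ 2 - (μ b * rb) ^ 2 * (μ a * ra) ^ 2) *
      ((μ a * ra) ^ 2 * (μ b * rb) ^ 2 - (μ b * rb) ^ 2 * (μ a * ra) ^ 2)) + (μ 1 * r) ^ 8 = 0 := by
  have inv : ∀ {u v x : R}, v * u = 1 → u * v = 1 → Commute u x → Commute v x := fun {u v x} h h' c =>
    (c.units_inv_left (u := ⟨u, v, h', h⟩))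
  set M := μ 1 with hM
  have key : ∀ {z : S} {rz : R}, z * z = z → (∀ w, μ z * μ w = M * μ (z * w)) → rz * (μ z + t) = 1 →
      (μ z + t) * rz = 1 → Commute M (μ z) ∧ Commute r (μ z) ∧
        (μ z * rz) ^ 2 = r ^ 2 * M * μ z := fun {z rz} hz h c1 c2 => by
    have c3 : Commute M (μ z) := by
      have := (h 1).symm
      rwa [mul_one, ← hM] at this
    have c4 := inv r1 r2 (c3.add_left (ht _))
    have c5 : μ z * rz = μ z * r := by
      have c6 : (μ z + t) * (μ z * r) = μ z := by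
        rw [← mul_assoc, add_mul, h, hz, ← add_mul, (c3.add_left (ht _)).eq, mul_assoc, r2, mul_one]
      rw [← (inv c1 c2 ((Commute.refl _).add_left (ht _))).eq]
      nth_rw 1 [← c6]
      rw [← mul_assoc, c1, one_mul]
    refine ⟨c3, c4, ?_⟩
    rw [c5, ← c4.eq, c4.mul_pow, sq (μ z), h, hz, mul_assoc]
  obtain ⟨c1, c2, c3⟩ := key ha h1 a1 a2
  obtain ⟨d1, d2, d3⟩ := key hb h2 b1 b2
  have c0 : Commute r M := inv r1 r2 ((Commute.refl _).add_left (ht _))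
  set N := r ^ 2 * M
  have n1 : Commute N (μ a) := (c2.pow_left 2).mul_left c1
  have n2 : Commute N (μ b) := (d2.pow_left 2).mul_left d1
  set K := μ a * μ b - μ b * μ a with hK
  have n3 : Commute N K := (n1.mul_right n2).sub_right (n2.mul_right n1)
  have e1 : N * μ a * (N * μ b) - N * μ b * (N * μ a) = N ^ 2 * K := by
    rw [n1.symm.mul_mul_mul_comm, n2.symm.mul_mul_mul_comm, hK, mul_sub, sq]
  have w : ∀ {x y : S}, (∀ z, μ x * μ z = M * μ (x * z)) → (∀ z, μ y * μ z = M * μ (y * z)) →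
      Commute M (μ x) → Commute M (μ y) → ∀ (n : ℕ) z, μ x * μ y * (M ^ n * μ z) =
        M ^ (n + 2) * μ (x * y * z) := fun {x y} hx hy cx cy n z => by
    rw [← mul_assoc, ← ((cx.mul_right cy).pow_left n).eq, mul_assoc, mul_assoc, hy, ← mul_assoc (μ x),
      ← cx.eq, mul_assoc, hx, pow_add, sq]
    simp only [mul_assoc]
  have e2 : K = M * μ (a * b - b * a) := by rw [hK, h1, h2, map_sub, mul_sub]
  have e3 : K * K = M ^ 3 * μ ((a * b - b * a) * (a * b - b * a)) := by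
    nth_rw 2 [e2]
    rw [hK, sub_mul, ← pow_one M, w h1 h2 c1 d1, w h2 h1 d1 c1, ← mul_sub, ← map_sub, ← sub_mul,
      pow_one]
  rw [c3, d3, e1, (n3.pow_left 2).symm.mul_mul_mul_comm, e3, ← mul_smul_comm, ← mul_smul_comm,
    ← map_nsmul, h4, map_neg, ← hM, ← pow_add, ((c0.pow_left 2).mul_pow _), c0.symm.mul_pow,
    ← (c0.pow_pow 8 8).eq]
  simp only [mul_neg, ← pow_mul, mul_assoc, ← pow_succ, ← pow_add]
  norm_num

variable {E : Type*} [CStarAlgebra E] {τ : E →ₗ[ℂ] ℂ}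

/-- the threshold function -/
noncomputable def psi (t : ℝ) (x : E) : E := x * res x t

/-- commutator of squares -/
def cm (x y : E) : E := x ^ 2 * y ^ 2 - y ^ 2 * x ^ 2

lemma psi_nonneg {x : E} (hx : 0 ≤ x) {t : ℝ} (ht : 0 < t) : 0 ≤ psi t x :=
  Commute.mul_nonneg hx (res_nonneg _ ht) (res_comm hx (Commute.refl x) t).symm

lemma psi_le {x : E} (hx : 0 ≤ x) {t : ℝ} (ht : 0 < t) : psi t x ≤ 1 := by
  rw [psi, mul_res_eq hx ht, Complex.coe_smul]
  exact sub_le_self _ (smul_nonneg ht.le (res_nonneg _ ht))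

lemma norm_psi {x : E} (hx : 0 ≤ x) {t : ℝ} (ht : 0 < t) : ‖psi t x‖ ≤ 1 :=
  (CStarAlgebra.norm_le_one_iff_of_nonneg _ (psi_nonneg hx ht)).2 (psi_le hx ht)

lemma psi_mono {x y : E} (hx : 0 ≤ x) (h : x ≤ y) {t : ℝ} (ht : 0 < t) : psi t x ≤ psi t y := by
  rw [psi, psi, mul_res_eq hx ht, mul_res_eq (hx.trans h) ht, Complex.coe_smul, Complex.coe_smul]
  exact sub_le_sub_left (smul_le_smul_of_nonneg_left (res_anti hx h ht) ht.le) 1

lemma map_psi {E' : Type*} [CStarAlgebra E'] (j : E →⋆ₐ[ℂ] E') {x : E} (hx : 0 ≤ x) {t : ℝ}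
    (ht : 0 < t) : j (psi t x) = psi t (j x) := by rw [psi, map_mul, map_res j hx ht, psi]

theorem block_err {I S : Type*} [Ring S] {E : I → Type*} [∀ i, CStarAlgebra (E i)]
    {τ : ∀ i, E i →ₗ[ℂ] ℂ} (hτ : ∀ i, IsTr (τ i)) (ε : I → ℝ) (μ : ∀ i, S →+ E i) {a b : S}
    (h4 : 4 • ((a * b - b * a) * (a * b - b * a)) = -1) (ha : a * a = a) (hb : b * b = b)
    (N : S → ℝ) (hN : ∀ i z, ‖μ i z‖ ≤ N z) (h0 : ∀ i, 0 ≤ μ i 1 ∧ 0 ≤ μ i a ∧ 0 ≤ μ i b)
    (h1 : ∀ i z, nq (τ i) (μ i a * μ i z - μ i 1 * μ i (a * z)) ≤ N z * ε i)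
    (h2 : ∀ i z, nq (τ i) (μ i b * μ i z - μ i 1 * μ i (b * z)) ≤ N z * ε i) {t : ℝ} (ht : 0 < t) :
    ∃ C, ∀ i, nq (τ i) (4 • (cm (psi t (μ i a)) (psi t (μ i b)) * cm (psi t (μ i a)) (psi t (μ i b))) +
      psi t (μ i 1) ^ 8) ≤ C * ε i := by
  let K : TwoSidedIdeal (Prd E) := TwoSidedIdeal.mk' {y | ∃ C, ∀ i, nq (τ i) (y i) ≤ C * ε i}
    ⟨0, fun i => by simp [nq_zero]⟩
    (by rintro x y ⟨C, h⟩ ⟨C', h'⟩
        exact ⟨C + C', fun i => ((hτ i).pos.nq_add _ _).trans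
          ((add_le_add (h i) (h' i)).trans_eq (by ring))⟩)
    (by rintro x ⟨C, h⟩; exact ⟨C, fun i => by simpa [nq_neg] using h i⟩)
    (by rintro x y ⟨C, h⟩
        exact ⟨‖x‖ * C, fun i => (nq_mul_le (hτ i).pos _ _).trans ((mul_le_mul (x.norm_apply_le i)
          (h i) (nq_nonneg _) (norm_nonneg _)).trans_eq (by ring))⟩)
    (by rintro x y ⟨C, h⟩
        exact ⟨‖y‖ * C, fun i => ((hτ i).nq_mul_le _ _).trans ((mul_le_mul (h i) (y.norm_apply_le i)
          (norm_nonneg _) ((nq_nonneg _).trans (h i))).trans_eq (by ring))⟩)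
  have hK : ∀ y, y ∈ K ↔ ∃ C, ∀ i, nq (τ i) (y i) ≤ C * ε i := fun y => TwoSidedIdeal.mem_mk' ..
  let π := K.ringCon.mk'
  have hπ : ∀ x y, π x = π y ↔ x - y ∈ K := fun x y => by
    rw [← K.rel_iff]; exact RingCon.eq _
  let M : S →+ Prd E :=
    { toFun := fun z => Prd.mk (fun i => μ i z) ⟨_, fun i => hN i z⟩
      map_zero' := Prd.ext fun i => by simp
      map_add' := fun _ _ => Prd.ext fun i => by simp }
  let r : S → Prd E := fun z => Prd.mk (fun i => res (μ i z) t) ⟨_, fun i => norm_res _ ht⟩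
  have hr : ∀ z, (∀ i, 0 ≤ μ i z) → π (r z) * (π (M z) + π ((t : ℂ) • 1)) = 1 ∧
      (π (M z) + π ((t : ℂ) • 1)) * π (r z) = 1 := fun z hz => by
    constructor <;> rw [← map_add, ← map_mul, ← map_one π] <;> congr 1 <;> ext i
    · simp [r, M, mul_add, res_mul_eq (hz i) ht, -Complex.coe_smul]
    · simp [r, M, add_mul, mul_res_eq (hz i) ht, -Complex.coe_smul]
  have := ring_block (π.toAddMonoidHom.comp M) (t := π ((t : ℂ) • 1)) (fun x => by
      obtain ⟨x, rfl⟩ := K.ringCon.mk'_surjective x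
      exact Commute.map (by simp [Commute, SemiconjBy]) π) h4 ha hb
    (fun z => (map_mul π _ _).symm.trans (((hπ _ _).2 ((hK _).2 ⟨_, fun i => h1 i z⟩)).trans
      (map_mul π _ _)))
    (fun z => (map_mul π _ _).symm.trans (((hπ _ _).2 ((hK _).2 ⟨_, fun i => h2 i z⟩)).trans
      (map_mul π _ _)))
    (hr 1 fun i => (h0 i).1).1 (hr 1 fun i => (h0 i).1).2 (hr a fun i => (h0 i).2.1).1
    (hr a fun i => (h0 i).2.1).2 (hr b fun i => (h0 i).2.2).1 (hr b fun i => (h0 i).2.2).2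
  obtain ⟨C, hC⟩ := (hK _).1 ((hπ (4 • (cm (M a * r a) (M b * r b) * cm (M a * r a) (M b * r b)) +
    (M 1 * r 1) ^ 8) 0).1 (by
      simp only [cm, map_add, map_nsmul, map_mul, map_sub, map_pow, map_zero]; exact this))
  refine ⟨C, fun i => le_of_eq_of_le ?_ (hC i)⟩
  rw [← Prd.ev_apply]
  simp only [cm, sub_zero, map_add, map_nsmul, map_mul, map_sub, map_pow]
  rfl

section scal
variable {R : ℕ} {s : ℝ}

/-- the thresholds -/
noncomputable def th (R : ℕ) (r : ℕ) : ℝ := (r + 1) / R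

lemma th_pos (hR : 0 < R) (r : ℕ) : 0 < th R r := by unfold th; positivity

lemma sc_upper (hR : 0 < R) (hs : 0 ≤ s) :
    ∑ r ∈ range R, (s * (s + th R r)⁻¹) ^ 2 ≤ R * (s * (s + 1)⁻¹) := by
  rcases hs.eq_or_lt with rfl | hs
  · simp
  have hR' : (0 : ℝ) < R := by exact_mod_cast hR
  have h1 := sum_range_sub' (fun r : ℕ => R * s ^ 2 * (s + r / R)⁻¹) R
  refine (sum_le_sum fun r _ => ?_).trans (h1.trans_le (le_of_eq ?_))
  · simp only [th]
    push_cast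
    field_simp
    nlinarith [mul_pos hs hR', Nat.cast_nonneg (α := ℝ) r]
  · field_simp
    simp
    ring

lemma sc_lower (hR : 0 < R) (hs : 0 ≤ s) : R * (s * (s + 1)⁻¹) - s * (s + (R : ℝ)⁻¹)⁻¹ ≤
    ∑ r ∈ range R, (s * (s + th R r)⁻¹) ^ 2 := by
  have hR' : (0 : ℝ) < R := by exact_mod_cast hR
  have h1 := sum_range_sub' (fun r : ℕ => R * s ^ 2 * (s + (r + 1) / R)⁻¹) R
  refine le_trans ?_ (h1.ge.trans (sum_le_sum fun r _ => ?_))
  · simp only [Nat.cast_zero, zero_add]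
    field_simp
    nlinarith [mul_nonneg hs hR'.le, mul_nonneg (mul_nonneg hs hR'.le) hs,
      mul_nonneg (mul_nonneg (mul_nonneg hs hR'.le) hs) hR'.le]
  · simp only [th]
    push_cast
    field_simp
    nlinarith [mul_nonneg hs hR'.le, Nat.cast_nonneg (α := ℝ) r, sq_nonneg s]

lemma sc_high (hR : 0 < R) (hs : 0 ≤ s) (h1 : s ≤ 1) :
    2⁻¹ ^ 16 * (R * s - 2 * (s * (s + (R : ℝ)⁻¹)⁻¹)) ≤ ∑ r ∈ range R, (s * (s + th R r)⁻¹) ^ 16 := by
  have hR' : (0 : ℝ) < R := by exact_mod_cast hR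
  have h2 : ⌊R * s⌋₊ ≤ R := Nat.floor_le_of_le (by nlinarith)
  refine le_trans ?_ (sum_le_sum_of_subset_of_nonneg (range_subset_range.2 h2) fun r _ _ => by
    positivity)
  refine le_trans ?_ (card_nsmul_le_sum _ _ (2⁻¹ ^ 16) fun r hr => ?_)
  · rw [card_range, nsmul_eq_mul, mul_comm]
    gcongr
    have h3 := Nat.lt_floor_add_one (R * s)
    have h4 : s * (s + (R : ℝ)⁻¹)⁻¹ = R * s / (R * s + 1) := by field_simp
    rw [h4]
    have h5 : 0 ≤ R * s := by positivity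
    rcases le_total 1 (R * s) with h | h
    · have : 1 / 2 ≤ R * s / (R * s + 1) := by rw [le_div_iff₀ (by positivity)]; linarith
      linarith
    · have : R * s / 2 ≤ R * s / (R * s + 1) := by gcongr; linarith
      linarith [Nat.cast_nonneg (α := ℝ) ⌊R * s⌋₊]
  · have h3 : th R r ≤ s := by
      rw [th, div_le_iff₀ hR', mul_comm]
      exact_mod_cast (Nat.le_floor_iff (by positivity)).1 (mem_range.1 hr)
    have h4 := th_pos hR r
    gcongr
    rw [← div_eq_mul_inv, le_div_iff₀ (by positivity)]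
    linarith

end scal

lemma cont_psi {t : ℝ} (ht : 0 < t) : Continuous fun s : ℝ => s * (max s 0 + t)⁻¹ :=
  continuous_id'.mul (res_cont ht)

lemma psi_pow {x : E} (hx : 0 ≤ x) {t : ℝ} (ht : 0 < t) (n : ℕ) :
    psi t x ^ n = cfc (fun s : ℝ => (s * (max s 0 + t)⁻¹) ^ n) x := by
  rw [psi, mul_res hx ht, cfc_pow _ _ _ (cont_psi ht).continuousOn]

lemma sum_psi_pow {x : E} (hx : 0 ≤ x) {R : ℕ} (hR : 0 < R) (n : ℕ) :
    ∑ r ∈ range R, psi (th R r) x ^ n =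
      cfc (fun s : ℝ => ∑ r ∈ range R, (s * (max s 0 + th R r)⁻¹) ^ n) x := by
  simp only [psi_pow hx (th_pos hR _)]
  rw [← cfc_sum (fun r (s : ℝ) => (s * (max s 0 + th R r)⁻¹) ^ n) _ _ fun r _ =>
    ((cont_psi (th_pos hR r)).pow n).continuousOn, sum_fn]

lemma cont_sum_psi {R : ℕ} (hR : 0 < R) (n : ℕ) :
    Continuous fun s : ℝ => ∑ r ∈ range R, (s * (max s 0 + th R r)⁻¹) ^ n :=
  continuous_finsetSum _ fun r _ => (cont_psi (th_pos hR r)).pow n

lemma op_upper {x : E} (hx : 0 ≤ x) {R : ℕ} (hR : 0 < R) :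
    ∑ r ∈ range R, psi (th R r) x ^ 2 ≤ (R : ℝ) • psi 1 x := by
  rw [sum_psi_pow hx hR, psi, mul_res hx one_pos, ← cfc_smul _ _ _ (cont_psi one_pos).continuousOn]
  refine cfc_mono (fun s hs => ?_) (cont_sum_psi hR 2).continuousOn
    ((cont_psi one_pos).const_smul (R : ℝ)).continuousOn
  have := spectrum_nonneg_of_nonneg hx hs
  simpa only [max_eq_left this, smul_eq_mul] using sc_upper hR this

lemma op_lower {x : E} (hx : 0 ≤ x) {R : ℕ} (hR : 0 < R) :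
    (R : ℝ) • psi 1 x - psi (R : ℝ)⁻¹ x ≤ ∑ r ∈ range R, psi (th R r) x ^ 2 := by
  have hR' : (0 : ℝ) < (R : ℝ)⁻¹ := by positivity
  have h1 : Continuous fun s : ℝ => (R : ℝ) • (s * (max s 0 + 1)⁻¹) :=
    (cont_psi one_pos).const_smul (R : ℝ)
  rw [sum_psi_pow hx hR, psi, psi, mul_res hx one_pos, mul_res hx hR',
    ← cfc_smul _ _ _ (cont_psi one_pos).continuousOn,
    ← cfc_sub _ _ _ h1.continuousOn (cont_psi hR').continuousOn]
  refine cfc_mono (fun s hs => ?_) (h1.sub (cont_psi hR')).continuousOn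
    (cont_sum_psi hR 2).continuousOn
  have := spectrum_nonneg_of_nonneg hx hs
  simpa only [max_eq_left this, smul_eq_mul] using sc_lower hR this

lemma op_high {x : E} (hx : 0 ≤ x) (h1 : x ≤ 1) {R : ℕ} (hR : 0 < R) :
    (2⁻¹ ^ 16 : ℝ) • ((R : ℝ) • x - (2 : ℝ) • psi (R : ℝ)⁻¹ x) ≤
      ∑ r ∈ range R, psi (th R r) x ^ 16 := by
  have hR' : (0 : ℝ) < (R : ℝ)⁻¹ := by positivity
  have h2 : Continuous fun s : ℝ => (2 : ℝ) • (s * (max s 0 + (R : ℝ)⁻¹)⁻¹) :=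
    (cont_psi hR').const_smul (2 : ℝ)
  have h3 : Continuous fun s : ℝ => (R : ℝ) • s - (2 : ℝ) • (s * (max s 0 + (R : ℝ)⁻¹)⁻¹) :=
    (continuous_id'.const_smul (R : ℝ)).sub h2
  rw [sum_psi_pow hx hR, psi, mul_res hx hR', ← cfc_smul _ _ _ (cont_psi hR').continuousOn]
  nth_rw 1 [← cfc_id' ℝ x]
  rw [← cfc_smul .., ← cfc_sub _ _ _ (by fun_prop) h2.continuousOn, ← cfc_smul _ _ _ h3.continuousOn]
  refine cfc_mono (fun s hs => ?_) (h3.const_smul (2⁻¹ ^ 16 : ℝ)).continuousOn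
    (cont_sum_psi hR 16).continuousOn
  have := spectrum_nonneg_of_nonneg hx hs
  simpa only [max_eq_left this, smul_eq_mul] using sc_high hR this ((CFC.le_one_iff x).1 h1 s hs)

lemma IsTr.psi_one (ht : IsTr τ) {x y : E} (hy : 0 ≤ y) (h : y ≤ x) :
    (τ (psi 1 x)).re - (τ (psi 1 y)).re ≤ (τ (x - y)).re := by
  have hx := hy.trans h
  have h1 : psi 1 x - psi 1 y = res y 1 * (x - y) * res x 1 := by
    rw [mul_sub, sub_mul, mul_assoc _ x, psi, psi, mul_res_eq hx one_pos, mul_res_eq hy one_pos,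
      res_mul_eq hy one_pos]
    simp [mul_sub, sub_mul]
  rw [← Complex.sub_re, ← map_sub, h1, ht.comm, ← mul_assoc]
  refine (Complex.re_le_norm _).trans ((ht.norm_mul_le _ (sub_nonneg.2 h)).trans
    (mul_le_of_le_one_left (pos_re ht.pos (sub_nonneg.2 h)) ?_))
  simpa using norm_mul_le_of_le (norm_res x one_pos) (norm_res y one_pos)

lemma IsTr.sum_psi_le (ht : IsTr τ) {x : E} (hx : 0 ≤ x) {R : ℕ} (hR : 0 < R) :
    ∑ r ∈ range R, (τ (psi (th R r) x ^ 2)).re ≤ R * (τ x).re := by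
  have h1 := pos_mono ht.pos (op_upper hx hR)
  have h2 := ht.psi_one le_rfl hx
  rw [map_sum, Complex.re_sum, LinearMap.map_smul_of_tower, Complex.smul_re, smul_eq_mul] at h1
  simp only [psi, zero_mul, map_zero, Complex.zero_re, sub_zero] at h2
  exact h1.trans (mul_le_mul_of_nonneg_left h2 (by positivity))

lemma IsTr.rob_psi (ht : IsTr τ) {x y : E} (hy : 0 ≤ y) (h : y ≤ x) {R : ℕ} (hR : 0 < R) :
    ∑ r ∈ range R, nq τ (psi (th R r) x - psi (th R r) y) ^ 2 ≤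
      R * (τ (x - y)).re + (τ (psi (R : ℝ)⁻¹ y)).re := by
  have h1 := pos_mono ht.pos (op_upper (hy.trans h) hR)
  have h2 := pos_mono ht.pos (op_lower hy hR)
  have h3 := mul_le_mul_of_nonneg_left (ht.psi_one hy h) (Nat.cast_nonneg (α := ℝ) R)
  refine (sum_le_sum fun r _ => ht.mono_sq (psi_nonneg hy (th_pos hR r))
    (psi_mono hy h (th_pos hR r))).trans ?_
  simp only [map_sum, Complex.re_sum, LinearMap.map_smul_of_tower, Complex.smul_re, smul_eq_mul,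
    map_sub, Complex.sub_re, sq, sum_sub_distrib] at *
  linarith

end Vale.Agent.P095
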