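import Vale.Agent.P095.CP
import Vale.Agent.P095.Cmp
import Vale.Agent.P095.Exc
import Vale.Agent.P095.N1
import Vale.Agent.P095.Out
import Vale.Agent.P095.Cut
import Vale.Agent.P095.Car

/-! Small isometries: the local step. -/

namespace Vale.Agent.P095

open scoped CStarAlgebra ComplexConjugate
open Filter Topology Finset
open Vale.Agent.P101

attribute [local instance] CStarAlgebra.spectralOrder CStarAlgebra.spectralOrderedRing

universe u

variable {G : Type*} [Group G] {A : Type*} [NonUnitalCStarAlgebra A] {X : GAlg.{u} G} {S : Sys A X}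

lemma exists_plat {E : Type*} [CStarAlgebra E] [Nontrivial E] {ζ : E} (h : 3 / 4 ≤ ‖ζ‖) :
    ∃ k f : E, ‖k‖ ≤ 2 ∧ f * (star ζ * ζ) ≠ 0 ∧
      star (ζ * k) * (ζ * k) * (f * (star ζ * ζ)) = f * (star ζ * ζ) := by
  have h0 := star_mul_self_nonneg ζ
  have h1 : 1 / 2 < ‖star ζ * ζ‖ := by rw [CStarRing.norm_star_mul_self]; nlinarith
  have hk : Continuous fun t : ℝ => (√(max t (1 / 2)))⁻¹ :=
    Continuous.inv₀ (by fun_prop) fun t => (Real.sqrt_pos.2 (lt_max_of_lt_right (by norm_num))).ne'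
  have h2 : cfc (fun t : ℝ => max (t - 1 / 2) 0) (star ζ * ζ) * (star ζ * ζ) =
      cfc (fun t : ℝ => max (t - 1 / 2) 0 * t) (star ζ * ζ) := by
    rw [cfc_mul _ _ _ (by fun_prop) (by fun_prop), cfc_id' ℝ _]
  refine ⟨cfc (fun t : ℝ => (√(max t (1 / 2)))⁻¹) (star ζ * ζ),
    cfc (fun t : ℝ => max (t - 1 / 2) 0) (star ζ * ζ), norm_cfc_le zero_le_two fun t _ => ?_, ?_, ?_⟩
  · rw [Real.norm_of_nonneg (by positivity)]
    refine inv_le_of_inv_le₀ two_pos (Real.le_sqrt_of_sq_le (le_max_of_le_right (by norm_num)))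
  · rw [h2]
    intro h3
    have h5 := norm_apply_le_norm_cfc (fun t : ℝ => max (t - 1 / 2) 0 * t) (star ζ * ζ)
      (CStarAlgebra.norm_mem_spectrum_of_nonneg h0)
    rw [h3, norm_zero, norm_le_zero_iff] at h5
    exact (mul_pos (lt_max_of_lt_left (by linarith)) (by linarith)).ne' h5
  · rw [h2, star_mul, IsSelfAdjoint.cfc.star_eq, mul_assoc _ (star ζ), ← mul_assoc (star ζ),
      ← mul_assoc (cfc _ _)]
    generalize star ζ * ζ = a at *
    nth_rw 2 [← cfc_id' ℝ a]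
    rw [← cfc_mul _ _ _ hk.continuousOn (by fun_prop), ← cfc_mul _ _ _ (by fun_prop) hk.continuousOn,
      ← cfc_mul _ _ _ (by fun_prop) (by fun_prop)]
    refine cfc_congr fun t _ => ?_
    rcases le_total t (1 / 2) with h | h
    · simp only [max_eq_right (sub_nonpos.2 h), zero_mul, mul_zero]
    · have h5 := Real.mul_self_sqrt (show 0 ≤ t by linarith)
      have h6 : √t ≠ 0 := (Real.sqrt_pos.2 (by linarith)).ne'
      simp only [max_eq_left h]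
      field_simp
      rw [sq √t, h5]

lemma exists_exz (hS : S.Good) {D₀ : GAlg.{u} G} (h₀ : D₀ ∈ Mod S) {ρ : A →L[ℂ] ℂ}
    (hρ : ∀ (F : Finset A) (ε : ℝ), 0 < ε → ∃ z : A, ‖z‖ = 1 ∧
      ∀ a ∈ F, ‖star z * a * z - ρ a • (star z * z)‖ ≤ ε) (B : Finset A) (K : Finset G)
    (hK : ∀ g ∈ K, ∃ D ∈ Mod S, ∃ x, D.act g x ≠ x) {ε : ℝ} (hε : 0 < ε) :
    ∃ (w : X.E) (z : A), z ≠ 0 ∧ star w * w * S.φ z = S.φ z ∧ ∀ b ∈ B,
      ‖star w * S.φ b * w - ρ b • (star w * w)‖ ≤ ε ∧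
      ∀ g ∈ K, ‖star w * S.φ b * X.act g w‖ ≤ ε := by
  have := hS.nontrivial
  obtain ⟨δ, hδ, hδ'⟩ := exists_pos_mul_lt (lt_min hε one_pos) (4 * ∑ b ∈ B, ‖b‖ + 8)
  have hB : 0 ≤ ∑ b ∈ B, ‖b‖ := sum_nonneg fun _ _ => norm_nonneg _
  have hδ1 := hδ'.trans_le (min_le_left _ _)
  have hδ2 := hδ'.trans_le (min_le_right _ _)
  obtain ⟨z', hz, hz'⟩ := hρ B δ hδ
  obtain ⟨D, ⟨I, U, ι, h⟩, P, Y, hP, hPY, hY, hPK⟩ := outer hS h₀ K hK hδ
  obtain ⟨P, rfl, hP'⟩ := h.lift P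
  obtain ⟨Y, rfl⟩ := h.surj Y
  have e1 := h.plateau hS hPY hY z' hδ
  have e2 := NormedAddGroup.tendsto_nhds_zero.1 (Cen.comm P z') δ hδ
  have e3 := (eventually_all_finset B).2 fun b _ => (eventually_all_finset K).2 fun g _ =>
    (NormedAddGroup.tendsto_nhds_zero.1 (Cen.comm ((Cen S U).act g P) (star z' * b * S.α g z')) δ
      hδ).and (h.le (star P * (Cen S U).act g P) (star z' * b * S.α g z') δ hδ)
  obtain ⟨i, h1, h2, h3⟩ := (e1.and (e2.and e3)).exists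
  have h4 : ‖P i‖ ≤ 1 := (hP' i).trans hP
  obtain ⟨k, f, hk, hf, hf'⟩ := exists_plat (ζ := S.φ z' * P i) (by
    have := norm_sub_norm_le (P i * S.φ z') (S.φ z' * P i)
    nlinarith)
  obtain ⟨ζ, hζ⟩ := hS.ideal' (P i) z'
  obtain ⟨z, hz2⟩ := hS.ideal f (star ζ * ζ)
  rw [map_mul, map_star, ← hζ] at hz2
  have h5 : ∀ y : X.E, ∀ k', ‖k'‖ ≤ 2 → ‖star k * y * k'‖ ≤ 4 * ‖y‖ := fun y k' hk' =>
    (norm_mul_le_of_le (norm_mul_le_of_le ((norm_star k).trans_le hk) le_rfl) hk').trans_eq (by ring)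
  refine ⟨S.φ z' * P i * k, z, fun h => hf (by rw [hz2, h, map_zero]), hz2 ▸ hf',
    fun b hb => ⟨?_, fun g hg => ?_⟩⟩
  · have h6 := h5 (star (P i) * S.φ (star z' * b * z' - ρ b • (star z' * z')) * P i) k hk
    have h7 := norm_mul_le_of_le (norm_mul_le_of_le ((norm_star _).trans_le h4)
      ((hS.iso _).trans_le (hz' b hb))) h4
    refine le_of_eq_of_le (congrArg _ ?_) (h6.trans (by nlinarith))
    simp [map_star, mul_sub, sub_mul, mul_assoc]
  · obtain ⟨h6, h7⟩ := h3 b hb g hg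
    have h8 : ‖star z' * b * S.α g z'‖ ≤ ∑ b ∈ B, ‖b‖ := by
      have := norm_mul_le_of_le (norm_mul_le_of_le ((norm_star _).trans hz).le
        (single_le_sum (fun b _ => norm_nonneg b) hb)) ((S.nrm g z').trans hz.le)
      simpa using this
    rw [map_mul ι, map_star ι, h.eqv] at h7
    have h9 := mul_le_mul (hPK g hg) h8 (norm_nonneg _) hδ.le
    have h10 := norm_mul_le_of_le ((norm_star _).trans_le h4) h6.le
    have h11 := h5 (star (P i) * S.φ (star z' * b * S.α g z') * X.act g (P i)) (X.act g k)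
      ((X.norm_act _ _).trans_le hk)
    have h12 := norm_sub_le_of_le h7 h10
    rw [show (star P * (Cen S U).act g P) i * S.φ (star z' * b * S.α g z') - star (P i) *
      (((Cen S U).act g P) i * S.φ (star z' * b * S.α g z') - S.φ (star z' * b * S.α g z') *
      ((Cen S U).act g P) i) = star (P i) * S.φ (star z' * b * S.α g z') * X.act g (P i) by
        simp only [Cen.mul_apply, Cen.star_apply, Cen.act_apply]; noncomm_ring] at h12
    refine le_of_eq_of_le (congrArg _ ?_) (h11.trans (by nlinarith))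
    simp [map_star, mul_assoc, S.cov]

lemma term_est {E : Type*} [CStarAlgebra E] {d d' t t' w m y e : E} {μ : ℂ} {ε M : ℝ} (ht : ‖t‖ ≤ 2)
    (ht' : ‖t'‖ ≤ 2) (hd : ‖d‖ ≤ M) (hd' : ‖d'‖ ≤ M) (hμ : ‖μ‖ ≤ M)
    (h1 : ‖star w * m * w - μ • (star w * w)‖ ≤ ε) (h2 : star w * w * t' = t')
    (h3 : ‖star t * t' - y‖ ≤ ε) (h4 : ‖star d * y * d' - e‖ ≤ 5 * M * ε) :
    ‖star (w * t * d) * m * (w * t' * d') - μ • e‖ ≤ (9 * M ^ 2 + M ^ 3) * ε := by
  have h5 : star (w * t * d) * m * (w * t' * d') - μ • e = star d * (star t *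
      (star w * m * w - μ • (star w * w)) * t') * d' + μ • (star d * (star t * t' - y) * d' +
      (star d * y * d' - e)) := by
    simp only [star_mul, mul_sub, sub_mul, mul_smul_comm, smul_mul_assoc, mul_assoc] at h2 ⊢
    rw [← mul_assoc w t', ← mul_assoc (star w) (w * t'), h2]
    module
  rw [← norm_star] at ht hd
  rw [h5]
  refine (norm_add_le_of_le (norm_mul_le_of_le (norm_mul_le_of_le hd (norm_mul_le_of_le
    (norm_mul_le_of_le ht h1) ht')) hd') ((norm_smul_le _ _).trans (mul_le_mul hμ (norm_add_le_of_le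
    (norm_mul_le_of_le (norm_mul_le_of_le hd h3) hd') h4) (norm_nonneg _)
    ((norm_nonneg _).trans hμ)))).trans_eq (by ring)

lemma mid_est {E : Type*} [CStarAlgebra E] {d d' u e : E} {ε M : ℝ} (hu : star u = u) (hu' : ‖u‖ ≤ 1)
    (he : ‖e‖ ≤ 1) (hd : ‖d‖ ≤ M) (hd' : ‖d'‖ ≤ M) (h1 : ‖u * d - d‖ ≤ ε) (h2 : ‖u * d' - d'‖ ≤ ε)
    (h3 : ‖e * star d - star d * e‖ ≤ ε) :
    ‖star d * (u * u * e * (u * u)) * d' - e * (star d * d')‖ ≤ 5 * M * ε := by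
  have h4 : ∀ {d : E}, ‖u * d - d‖ ≤ ε → ‖u * u * d - d‖ ≤ 2 * ε := fun {d} h => by
    rw [show u * u * d - d = u * (u * d - d) + (u * d - d) by noncomm_ring]
    linarith [norm_add_le_of_le (norm_mul_le_of_le hu' h) h]
  have h5 : star d * (u * u * e * (u * u)) * d' - e * (star d * d') = star (u * u * d - d) * e *
      (u * u * d') + (star d * e * (u * u * d' - d') - (e * star d - star d * e) * d') := by
    simp only [star_sub, star_mul, hu]; noncomm_ring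
  rw [h5]
  refine (norm_add_le_of_le (norm_mul_le_of_le (norm_mul_le_of_le ((norm_star _).trans_le (h4 h1)) he)
    (norm_mul_le_of_le (norm_mul_le_of_le hu' hu') hd')) (norm_sub_le_of_le (norm_mul_le_of_le
    (norm_mul_le_of_le ((norm_star _).trans_le hd) he) (h4 h2)) (norm_mul_le_of_le h3 hd'))).trans_eq
    (by ring)

lemma norm_sum₂_le {E ι : Type*} [SeminormedAddCommGroup E] [Fintype ι] {f : ι → ι → E} {C : ℝ}
    (h : ∀ y y', ‖f y y'‖ ≤ C) : ‖∑ y, ∑ y', f y y'‖ ≤ Fintype.card ι * (Fintype.card ι * C) := by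
  simpa using (norm_sum_le univ _).trans (sum_le_card_nsmul univ _ _ fun y _ =>
    (norm_sum_le univ _).trans (sum_le_card_nsmul univ _ _ fun y' _ => h y y'))

section
variable {E P N : Type*} [CStarAlgebra E] [Fintype P] [Fintype N] {c : P → N → E} {d : N → N → E}
  {t t' : P × N → E} {w b : E} {M θ : ℝ}

lemma si_alg [DecidableEq P] [DecidableEq N] {y e : E} {μ : P → N → P → N → ℂ} {β : Prop}
    [Decidable β] (hM : 0 ≤ M) (hθ : 0 ≤ θ) (ht : ∀ l, ‖t l‖ ≤ 2) (ht' : ∀ l, ‖t' l‖ ≤ 2)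
    (hd : ∀ l i, ‖d l i‖ ≤ M) (hμ : ∀ k i k' j, ‖μ k i k' j‖ ≤ M)
    (h1 : ∀ k i k' j, ‖star w * (star (c k i) * b * c k' j) * w - μ k i k' j • (star w * w)‖ ≤ θ)
    (h2 : ∀ l, star w * w * t' l = t' l)
    (h3 : ∀ l l', ‖star (t l) * t' l' - if β ∧ l = l' then y else 0‖ ≤ θ)
    (h4 : ∀ l i j, ‖star (d l i) * y * d l j - e * (star (d l i) * d l j)‖ ≤ 5 * M * θ) :
    ‖star (∑ x : (P × N) × N, c x.1.1 x.2 * (w * t x.1 * d x.1.2 x.2)) * b *
      (∑ x : (P × N) × N, c x.1.1 x.2 * (w * t' x.1 * d x.1.2 x.2)) - if β then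
      e * ∑ k, ∑ l, ∑ i, ∑ j, μ k i k j • (star (d l i) * d l j) else 0‖ ≤
      Fintype.card ((P × N) × N) * (Fintype.card ((P × N) × N) * ((9 * M ^ 2 + M ^ 3) * θ)) := by
  refine le_of_eq_of_le (congrArg _ ?_) (norm_sum₂_le fun x x' : (P × N) × N =>
    term_est (ht x.1) (ht' x'.1) (hd x.1.2 x.2) (hd x'.1.2 x'.2) (hμ _ _ _ _)
      (h1 x.1.1 x.2 x'.1.1 x'.2) (h2 _) (h3 _ _)
      (e := if β ∧ x.1 = x'.1 then e * (star (d x.1.2 x.2) * d x'.1.2 x'.2) else 0) ?_)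
  · simp only [sum_sub_distrib]
    rw [star_sum, sum_mul, sum_mul_sum]
    congr 1
    · simp only [star_mul, mul_assoc]
    · split_ifs with hβ
      · simp only [hβ, true_and, smul_ite, smul_zero, mul_sum, mul_smul_comm]
        rw [Fintype.sum_prod_type, Fintype.sum_prod_type]
        refine sum_congr rfl fun k _ => sum_congr rfl fun l _ => sum_congr rfl fun i _ => ?_
        rw [Fintype.sum_prod_type, sum_comm]
        simp
      · simp [hβ]
  · split_ifs with h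
    · rw [← h.2]; exact h4 _ _ _
    · simp only [mul_zero, zero_mul, sub_zero, norm_zero]; positivity

lemma si_orth (j : E →⋆ₐ[ℂ] E) (hM : 0 ≤ M) (hθ : 0 ≤ θ) (ht : ∀ l, ‖t l‖ ≤ 2) (ht' : ∀ l, ‖t' l‖ ≤ 2)
    (hd : ∀ l i, ‖d l i‖ ≤ M)
    (h1 : ∀ k i k' i', ‖star w * (star (c k i) * b * j (c k' i')) * j w‖ ≤ θ) :
    ‖star (∑ x : (P × N) × N, c x.1.1 x.2 * (w * t x.1 * d x.1.2 x.2)) * b *
      j (∑ x : (P × N) × N, c x.1.1 x.2 * (w * t' x.1 * d x.1.2 x.2))‖ ≤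
      Fintype.card ((P × N) × N) * (Fintype.card ((P × N) × N) * ((9 * M ^ 2 + M ^ 3) * θ)) := by
  rw [star_sum, sum_mul, map_sum, sum_mul_sum]
  refine norm_sum₂_le fun x x' => ?_
  have h5 := norm_mul_le_of_le (norm_mul_le_of_le ((norm_star _).trans_le (norm_mul_le_of_le
    (ht x.1) (hd x.1.2 x.2))) (h1 x.1.1 x.2 x'.1.1 x'.2)) ((NonUnitalStarAlgHom.norm_apply_le j _).trans
    (norm_mul_le_of_le (ht' x'.1) (hd x'.1.2 x'.2)))
  refine le_of_eq_of_le (by simp only [star_mul, map_mul, mul_assoc]) (h5.trans ?_)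
  nlinarith [mul_nonneg (sq_nonneg M) hθ, mul_nonneg (pow_nonneg hM 3) hθ]

end

lemma ee_mem {E : Type*} [CStarAlgebra E] {x : E} (hx : ‖x‖ ≤ 1) : 0 ≤ ee x ∧ ‖ee x‖ ≤ 1 := by
  have h1 := norm_kk hx
  have h2 : IsSelfAdjoint (star x * x - x * star x) :=
    (IsSelfAdjoint.star_mul_self x).sub (IsSelfAdjoint.mul_star_self x)
  have h3 := norm_one_sub_star_mul h1
  rw [h2.star_eq] at h3
  exact ⟨sub_nonneg.2 ((CStarAlgebra.norm_le_one_iff_of_nonneg _ h2.mul_self_nonneg).1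
    ((norm_mul_le_of_le h1 h1).trans_eq (one_mul _))), h3⟩

theorem si_core [TopologicalSpace.SeparableSpace A] [DecidableEq G] [Countable G] (hS : S.Good)
    (hN : IsNuclear A) (hG : IsAmenable G) {D₀ : GAlg.{u} G} (h₀ : D₀ ∈ Mod S)
    (hE : IsEmpty (D₀.E →⋆ₐ[ℂ] ℂ)) (F : Finset A) (K₁ K₂ : Finset G)
    (hK : ∀ g ∈ K₂, ∃ D ∈ Mod S, ∃ x, D.act g x ≠ x) {ε : ℝ} (hε : 0 < ε) :
    ∃ (x : X.E) (s : Bool → X.E), ‖x‖ ≤ 1 ∧ ∀ a ∈ F, ‖x * S.φ a - S.φ a * x‖ ≤ ε ∧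
      (∀ g ∈ K₁, ‖(X.act g x - x) * S.φ a‖ ≤ ε) ∧ ∀ σ σ',
      ‖star (s σ) * S.φ a * s σ' - if σ = σ' then ee x * S.φ a else 0‖ ≤ ε ∧
      ∀ g ∈ K₂, ‖star (s σ) * S.φ a * X.act g (s σ')‖ ≤ ε := by
  classical
  have := hS.simple.1
  have hD := fun (κ : Type) [Fintype κ] [DecidableEq κ] (i₀ : κ) => data_mod hS h₀ hE i₀
  have hC : Cls (TC (Mod S)) := cls_TC (fun D₁ h₁ D₂ h₂ => by
    obtain ⟨D, hD, j₁, j₂, e₁, e₂, hc, -⟩ := pair_mod hS h₁ h₂
    exact ⟨D, hD, j₁, j₂, e₁, e₂, hc⟩) hD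
  obtain ⟨ρ, r1, r2, r3⟩ := exc A
  obtain ⟨n, p, c, d, hcd⟩ := n1 hS.simple hN r1 r2 F (half_pos hε)
  obtain ⟨M, hM0, hM, hM'⟩ : ∃ M : ℝ, 0 ≤ M ∧ (∀ l i, ‖S.φ (d l i)‖ ≤ M) ∧ ∀ a ∈ F, ‖a‖ ≤ M ∧
      ∀ k i k' j, ‖ρ (star (c k i) * a * c k' j)‖ ≤ M := by
    obtain ⟨M₁, h₁⟩ := (Set.finite_range fun x : Fin n × Fin n => ‖S.φ (d x.1 x.2)‖).bddAbove
    obtain ⟨M₂, h₂⟩ := (Set.finite_range fun a : F => ‖(a : A)‖).bddAbove
    obtain ⟨M₃, h₃⟩ := (Set.finite_range fun x : F × (Fin p × Fin n) × Fin p × Fin n =>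
      ‖ρ (star (c x.2.1.1 x.2.1.2) * x.1 * c x.2.2.1 x.2.2.2)‖).bddAbove
    refine ⟨max (max M₁ M₂) (max M₃ 0), by simp, fun l i => ?_, fun a ha => ⟨?_, fun k i k' j => ?_⟩⟩
    · simp [h₁ ⟨(l, i), rfl⟩]
    · simp [h₂ ⟨⟨a, ha⟩, rfl⟩]
    · simp [h₃ ⟨(⟨a, ha⟩, (k, i), k', j), rfl⟩]
  obtain ⟨N, hN'⟩ : ∃ N : ℝ, N = Fintype.card ((Fin p × Fin n) × Fin n) := ⟨_, rfl⟩
  have hN0 : 0 ≤ N := hN' ▸ Nat.cast_nonneg _
  obtain ⟨θ, hθ, hθ'⟩ := exists_pos_mul_lt (lt_min (half_pos hε) one_pos)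
    (N * N * (9 * M ^ 2 + M ^ 3) + M + 1)
  have hP : 0 ≤ N * N * (9 * M ^ 2 + M ^ 3) * θ := by positivity
  have hP' : 0 ≤ M * θ := by positivity
  have hθ1 := hθ'.trans_le (min_le_left _ _)
  have hθ2 := hθ'.trans_le (min_le_right _ _)
  obtain ⟨w, z, hz, hw, hw'⟩ := exists_exz hS h₀ r3 (F.biUnion fun a => univ.biUnion
    fun x : (Fin p × Fin n) × Fin p × Fin n => insert (star (c x.1.1 x.1.2) * a * c x.2.1 x.2.2)
      (K₂.image fun g => star (c x.1.1 x.1.2) * a * S.α g (c x.2.1 x.2.2))) K₂ hK hθ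
  obtain ⟨u, u', u0, u1, u2, -, u3, u4, m, ζ, hζ⟩ := cut hS.simple hz
    (univ.image fun x : Fin n × Fin n => d x.1 x.2) hθ
  obtain ⟨η, hη, hcmp⟩ := cmp hS hN hD (Bool × Fin p × Fin n) m hθ
  obtain ⟨D, ⟨I, U, ι, h⟩, x, hx, hx1, hx2⟩ := tr_small hC hG K₁ (δ := min (η / 4) θ) (by positivity)
  obtain ⟨x, rfl, hx'⟩ := h.lift x
  have hx3 : ∀ i, ‖x i‖ ≤ 1 := fun i => (hx' i).trans hx
  have he : ∀ i, ee x i = ee (x i) := fun i => map_ee (Cen.ev i) x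
  have e1 := cp h hS (e := ee x) (fun i => he i ▸ (ee_mem (hx3 i)).1) (fun σ hσ => by
    rw [map_ee]; exact hx2 σ hσ) (by positivity) (η := η / 2)
    ((min_le_left _ _).trans_lt (by linarith)) u0.isSelfAdjoint u1 u2.isSelfAdjoint u3
  have e2 := (eventually_all_finset F).2 fun a _ =>
    (NormedAddGroup.tendsto_nhds_zero.1 (Cen.comm x a) ε hε).and
      ((eventually_all_finset K₁).2 fun g _ => h.le ((Cen S U).act g x - x) a _ (half_pos hε))
  have e3 := eventually_all.2 fun y : Fin n × Fin n =>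
    NormedAddGroup.tendsto_nhds_zero.1 (Cen.comm (ee x) (star (d y.1 y.2))) θ hθ
  obtain ⟨i, ⟨K, γ, g1, g2, g3⟩, h2, h3⟩ := (e1.and (e2.and e3)).exists
  rw [he] at g2
  simp only [he, map_star] at h3
  obtain ⟨-, he1⟩ := ee_mem (hx3 i)
  have u5 : ‖S.φ u‖ ≤ 1 := (hS.iso u).trans_le u1
  have hy : ‖∑ k, star (γ k) * γ k‖ ≤ 1 := by
    rw [← hS.iso, g2, map_mul]
    simpa using norm_mul_le_of_le (norm_mul_le_of_le (norm_mul_le_of_le u5 u5) he1)
      (norm_mul_le_of_le u5 u5)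
  obtain ⟨r, hr⟩ := hcmp z u' ζ K γ hz hζ g1 hy (by linarith)
  have t1 : ∀ l, ‖S.φ (z * r l)‖ ≤ 2 := fun l => by
    have h4 := hr l l
    rw [if_pos rfl] at h4
    have h5 := norm_sub_norm_le (star (z * r l) * (z * r l)) (∑ k, star (γ k) * γ k)
    rw [CStarRing.norm_star_mul_self] at h5
    rw [hS.iso]
    nlinarith [norm_nonneg (z * r l)]
  refine ⟨x i, fun σ => ∑ y : (Fin p × Fin n) × Fin n, S.φ (c y.1.1 y.2) *
    (w * S.φ (z * r (σ, y.1)) * S.φ (d y.1.2 y.2)), hx3 i, fun a ha => ⟨(h2 a ha).1.le, fun g hg => ?_,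
    fun σ σ' => ⟨?_, fun g hg => ?_⟩⟩⟩
  · have h4 := (h2 a ha).2 g hg
    rw [map_sub, h.eqv] at h4
    have h5 := mul_le_mul ((hx1 g hg).trans (min_le_right _ _)) (hM' a ha).1 (norm_nonneg _) hθ.le
    exact h4.trans (by linarith)
  · have h5 := si_alg (c := fun k i => S.φ (c k i)) (b := S.φ a) (w := w) (β := σ = σ') (e := ee (x i))
      (y := S.φ (∑ k, star (γ k) * γ k)) hM0 hθ.le (fun l => t1 (σ, l)) (fun l => t1 (σ', l)) hM
      (hM' a ha).2 (fun k i k' j => by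
        simpa only [map_mul, map_star] using (hw' _ (mem_biUnion.2 ⟨a, ha,
          mem_biUnion.2 ⟨((k, i), k', j), mem_univ _, mem_insert_self _ _⟩⟩)).1)
      (fun l => by rw [map_mul, ← mul_assoc, hw]) (fun l l' => by
        have := hr (σ, l) (σ', l')
        rw [← hS.iso, map_sub, map_mul, map_star, apply_ite S.φ, map_zero] at this
        simpa only [Prod.mk.injEq] using this) (fun l i j => by
        rw [g2, map_mul]
        refine mid_est (by rw [← map_star, u0.isSelfAdjoint.star_eq]) u5 he1 (hM _ _) (hM _ _) ?_ ?_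
          (h3 (_, _)).le <;> rw [← map_mul, ← map_sub, hS.iso] <;>
          exact (u4 _ (mem_image_of_mem _ (mem_univ (_, _)))).1)
    rw [← hN'] at h5
    split_ifs at h5 ⊢
    · have h6 := norm_mul_le_of_le he1 ((hS.iso _).trans_le (hcd a ha))
      simp only [map_sub, map_sum, map_smul, map_mul, map_star, mul_sub (ee (x i))] at h6
      have h7 := norm_add_le_of_le h5 h6
      rw [sub_add_sub_cancel] at h7
      linarith only [h7, hθ1, hP', hθ]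
    · linarith only [h5, hθ1, hP', hθ, hε]
  · have h5 := si_orth (c := fun k i => S.φ (c k i)) (b := S.φ a) (w := w) (X.act g) hM0 hθ.le
      (fun l => t1 (σ, l)) (fun l => t1 (σ', l)) hM fun k i k' j => by
        simpa only [map_mul, map_star, S.cov] using (hw' _ (mem_biUnion.2 ⟨a, ha, mem_biUnion.2
          ⟨((k, i), k', j), mem_univ _, mem_insert_of_mem (mem_image_of_mem _ hg)⟩⟩)).2 g hg
    rw [← hN'] at h5
    linarith only [h5, hθ1, hP', hθ, hε]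

end Vale.Agent.P095
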