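import Vale.Agent.P095.SI1

/-! Small isometries in a model, averaging, and the absence of characters. -/

namespace Vale.Agent.P095

open scoped CStarAlgebra ComplexConjugate Pointwise symmDiff
open Filter Topology Finset
open Vale.Agent.P101

attribute [local instance] CStarAlgebra.spectralOrder CStarAlgebra.spectralOrderedRing

universe u

variable {G : Type*} [Group G] {A : Type*} [NonUnitalCStarAlgebra A] {X : GAlg.{u} G} {S : Sys A X}

lemma tend_of_dense {A Y : Type*} [SeminormedAddCommGroup A] [SeminormedAddCommGroup Y] {a : ℕ → A}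
    (ha : DenseRange a) {T : ℕ → A → Y} {C : ℝ} (hT : ∀ n x y, ‖T n x - T n y‖ ≤ C * ‖x - y‖)
    (h : ∀ k, ∀ᶠ n in atTop, ‖T n (a k)‖ ≤ 1 / (n + 1)) (x : A) :
    Tendsto (fun n => T n x) atTop (𝓝 0) := by
  rw [NormedAddGroup.tendsto_nhds_zero]
  intro ε hε
  obtain ⟨δ, hδ, hδ'⟩ := exists_pos_mul_lt (half_pos hε) |C|
  obtain ⟨k, hk⟩ := ha.exists_dist_lt x hδ
  rw [dist_eq_norm] at hk
  filter_upwards [h k, ev_small (half_pos hε)] with n h1 h2
  have h3 := (hT n x (a k)).trans (mul_le_mul (le_abs_self C) hk.le (norm_nonneg _) (abs_nonneg C))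
  linarith [norm_sub_norm_le (T n x) (T n (a k))]

lemma tend_bdd {E : Type*} [CStarAlgebra E] {f g : ℕ → E} {C : ℝ} (hf : ∀ n, ‖f n‖ ≤ C)
    (hg : Tendsto g atTop (𝓝 0)) : Tendsto (fun n => f n * g n) atTop (𝓝 0) :=
  isBoundedUnder_le_mul_tendsto_zero (isBoundedUnder_of ⟨C, hf⟩) hg

theorem si_seq [TopologicalSpace.SeparableSpace A] [DecidableEq G] [Countable G] (hS : S.Good)
    (hN : IsNuclear A) (hG : IsAmenable G) {D₀ : GAlg.{u} G} (h₀ : D₀ ∈ Mod S)
    (hE : IsEmpty (D₀.E →⋆ₐ[ℂ] ℂ)) : ∃ (x : ℕ → X.E) (s : Bool → ℕ → X.E) (v : ℕ → A),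
      (∀ n, ‖x n‖ ≤ 1) ∧ (∀ σ n, ‖s σ n‖ ≤ 2) ∧
      (∀ a, Tendsto (fun n => x n * S.φ a - S.φ a * x n) atTop (𝓝 0)) ∧
      (∀ g a, Tendsto (fun n => (X.act g (x n) - x n) * S.φ a) atTop (𝓝 0)) ∧
      (∀ a, Tendsto (fun n => S.φ (v n * v n * a - a)) atTop (𝓝 0)) ∧
      (∀ σ σ' a, Tendsto (fun n => star (s σ n) * S.φ a * s σ' n -
        if σ = σ' then ee (x n) * S.φ a else 0) atTop (𝓝 0)) ∧
      (∀ σ σ', Tendsto (fun n => star (s σ n) * s σ' n -
        if σ = σ' then ee (x n) * S.φ (v n * v n) else 0) atTop (𝓝 0)) ∧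
      ∀ σ σ' g, (∃ D ∈ Mod S, ∃ x, D.act g x ≠ x) →
        Tendsto (fun n => star (s σ n) * X.act g (s σ' n)) atTop (𝓝 0) := by
  classical
  obtain ⟨a, ha⟩ := TopologicalSpace.exists_dense_seq A
  obtain ⟨K, hK⟩ := exists_exh G
  choose v v0 v1 v2 using fun n : ℕ => exists_unit ((range n).image a) (ε := 1 / (n + 1))
    (by positivity)
  choose x s h1 h2 using fun n : ℕ => si_core hS hN hG h₀ hE ((range n).image a ∪ (range n).image
    (fun k => v n * a k * v n) ∪ insert (v n * v n) ((K n).image fun g => v n * S.α g (v n))) (K n)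
    ((K n).filter fun g => ∃ D ∈ Mod S, ∃ x, D.act g x ≠ x) (fun g hg => (mem_filter.1 hg).2)
    (ε := 1 / (n + 1)) (by positivity)
  have hv : ∀ n, star (S.φ (v n)) = S.φ (v n) := fun n => by
    rw [← map_star, (v0 n).isSelfAdjoint.star_eq]
  have hm : ∀ k, ∀ᶠ n in atTop, k ∈ range n := fun k =>
    (eventually_gt_atTop k).mono fun n hn => mem_range.2 hn
  have h0 : Tendsto (fun n : ℕ => (1 : ℝ) / (n + 1)) atTop (𝓝 0) :=
    tendsto_one_div_add_atTop_nhds_zero_nat
  have hφ : ∀ x y, ‖S.φ x - S.φ y‖ = ‖x - y‖ := fun x y => by rw [← map_sub, hS.iso]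
  have e1 : ∀ b, Tendsto (fun n => v n * b - b) atTop (𝓝 0) := tend_of_dense ha (C := 2)
    (fun n x y => by
      rw [show v n * x - x - (v n * y - y) = v n * (x - y) - (x - y) by noncomm_ring]
      linarith [norm_sub_le_of_le (norm_mul_le_of_le (v1 n) (le_refl ‖x - y‖)) (le_refl ‖x - y‖)])
    fun k => (hm k).mono fun n hn => (v2 n _ (mem_image_of_mem _ hn)).1
  have e2 : ∀ f : ℕ → A, ∀ g : ℕ → A, (∀ n, ‖f n‖ ≤ 1) → Tendsto g atTop (𝓝 0) →
      Tendsto (fun n => f n * g n) atTop (𝓝 0) := fun f g hf hg =>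
    isBoundedUnder_le_mul_tendsto_zero (isBoundedUnder_of ⟨1, hf⟩) hg
  have e3 : ∀ g : ℕ → A, Tendsto g atTop (𝓝 0) → Tendsto (fun n => S.φ (g n)) atTop (𝓝 0) :=
    fun g hg => map_zero S.φ ▸ ((map_continuous S.φ).tendsto 0).comp hg
  have e4 : ∀ σ σ' n, ‖star (S.φ (v n) * s n σ) * (S.φ (v n) * s n σ') -
      if σ = σ' then ee (x n) * S.φ (v n * v n) else 0‖ ≤ 1 / (n + 1) := fun σ σ' n => by
    simpa only [star_mul, hv, map_mul, mul_assoc] using ((h2 n (v n * v n) (by simp)).2.2 σ σ').1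
  have e5 : ∀ σ n, ‖S.φ (v n) * s n σ‖ ≤ 2 := fun σ n => by
    have h3 := e4 σ σ n
    rw [if_pos rfl] at h3
    have h4 := norm_sub_norm_le (star (S.φ (v n) * s n σ) * (S.φ (v n) * s n σ))
      (ee (x n) * S.φ (v n * v n))
    have h5 := norm_mul_le_of_le (ee_mem (h1 n)).2 ((hS.iso _).trans_le (norm_mul_le_of_le (v1 n) (v1 n)))
    have h6 : (1 : ℝ) / (n + 1) ≤ 1 := by
      rw [div_le_one (by positivity)]; linarith [Nat.cast_nonneg (α := ℝ) n]
    rw [CStarRing.norm_star_mul_self] at h4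
    nlinarith [norm_nonneg (S.φ (v n) * s n σ)]
  refine ⟨x, fun σ n => S.φ (v n) * s n σ, v, h1, e5, tend_of_dense ha (C := 2) (fun n y z => ?_)
    fun k => (hm k).mono fun n hn => (h2 n _ (by simp [mem_image_of_mem a hn])).1,
    fun g => tend_of_dense ha (C := 2) (fun n y z => ?_) fun k => ((hm k).and (hK g)).mono fun n hn =>
      (h2 n _ (by simp [mem_image_of_mem a hn.1])).2.1 g hn.2, fun b => e3 _ ?_, fun σ σ' b => ?_,
    fun σ σ' => squeeze_zero_norm (e4 σ σ') h0, fun σ σ' g hg => squeeze_zero_norm' ?_ h0⟩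
  · rw [show x n * S.φ y - S.φ y * x n - (x n * S.φ z - S.φ z * x n) = x n * (S.φ y - S.φ z) -
      (S.φ y - S.φ z) * x n by noncomm_ring]
    linarith [norm_sub_le_of_le (norm_mul_le_of_le (h1 n) (hφ y z).le) (norm_mul_le_of_le (hφ y z).le (h1 n))]
  · rw [← mul_sub]
    exact (norm_mul_le_of_le (norm_sub_le_of_le ((X.norm_act g _).trans_le (h1 n)) (h1 n))
      (hφ y z).le).trans_eq (by ring)
  · simpa [mul_sub, mul_assoc] using (e2 v _ v1 (e1 b)).add (e1 b)
  · have h3 : Tendsto (fun n => v n * b * v n - b) atTop (𝓝 0) := by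
      have h4 := (e1 (star b)).star
      simp only [star_sub, star_mul, star_star, (v0 _).isSelfAdjoint.star_eq, star_zero] at h4
      simpa [mul_sub, mul_assoc] using (e2 v _ v1 h4).add (e1 b)
    have h4 := tend_of_dense ha (C := 5) (T := fun n b => star (S.φ (v n) * s n σ) * S.φ b *
      (S.φ (v n) * s n σ') - if σ = σ' then ee (x n) * S.φ (v n * b * v n) else 0) (fun n y z => by
        have h5 := norm_mul_le_of_le (norm_mul_le_of_le ((norm_star _).trans_le (e5 σ n)) (hφ y z).le)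
          (e5 σ' n)
        have h6 := norm_mul_le_of_le (ee_mem (h1 n)).2 ((hS.iso _).trans_le (norm_mul_le_of_le
          (norm_mul_le_of_le (v1 n) (le_refl ‖y - z‖)) (v1 n)))
        rw [sub_sub_sub_comm]
        simp only [mul_sub, sub_mul, map_sub] at h5 h6
        split_ifs
        · exact (norm_sub_le_of_le h5 h6).trans_eq (by ring)
        · rw [sub_self, sub_zero]; linarith [norm_nonneg (y - z)])
      (fun k => (hm k).mono fun n hn => by
        simpa only [star_mul, hv, map_mul, mul_assoc] using ((h2 n (v n * a k * v n) (by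
          simp only [mem_union, mem_image_of_mem (fun k => v n * a k * v n) hn, true_or,
            or_true])).2.2 σ σ').1) b
    split_ifs at h4 ⊢
    · simpa [mul_sub] using h4.add (tend_bdd (fun n => (ee_mem (h1 n)).2) (e3 _ h3))
    · exact h4
  · filter_upwards [hK g] with n hn
    simpa only [star_mul, hv, map_mul, mul_assoc, S.cov] using ((h2 n (v n * S.α g (v n)) (by
      simp only [mem_union, mem_insert, mem_image_of_mem (fun g => v n * S.α g (v n)) hn,
        or_true])).2.2 σ σ').2 g (mem_filter.2 ⟨hn, hg⟩)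

theorem si_mod [TopologicalSpace.SeparableSpace A] [DecidableEq G] [Countable G] (hS : S.Good)
    (hN : IsNuclear A) (hG : IsAmenable G) {D₀ : GAlg.{u} G} (h₀ : D₀ ∈ Mod S)
    (hE : IsEmpty (D₀.E →⋆ₐ[ℂ] ℂ)) : ∃ D ∈ Mod S, ∃ (x : D.E) (s : Bool → D.E), ‖x‖ ≤ 1 ∧
      (∀ g, D.act g x = x) ∧ (∀ σ σ', star (s σ) * s σ' = if σ = σ' then ee x else 0) ∧
      ∀ σ σ' g, (∃ D ∈ Mod S, ∃ x, D.act g x ≠ x) → star (s σ) * D.act g (s σ') = 0 := by
  obtain ⟨x, s, v, h1, h2, h3, h4, h5, h6, h7, h8⟩ := si_seq hS hN hG h₀ hE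
  obtain ⟨D, ι, h⟩ := exists_model S (hyperfilter ℕ)
  have hl : (hyperfilter ℕ : Filter ℕ) ≤ atTop := Nat.hyperfilter_le_atTop
  have e1 : ∀ σ σ' a, Tendsto (fun n => (star (s σ n) * s σ' n - if σ = σ' then ee (x n) else 0) *
      S.φ a) atTop (𝓝 0) := fun σ σ' a => by
    have := (h7 σ σ').mul_const (S.φ a)
    split_ifs at this ⊢
    · simpa [mul_sub, sub_mul, mul_assoc] using this.add (tend_bdd (fun n => (ee_mem (h1 n)).2) (h5 a))
    · simpa using this
  have e2 : ∀ σ a, Tendsto (fun n => s σ n * S.φ a - S.φ a * s σ n) atTop (𝓝 0) := fun σ a => by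
    have := (((e1 σ σ a).const_mul (star (S.φ a))).sub (((h6 σ σ a).const_mul (star (S.φ a))))).sub
      (((h6 σ σ (star a)).mul_const (S.φ a)).sub (h6 σ σ (star a * a)))
    simp only [mul_zero, zero_mul, sub_zero, if_true] at this
    have h9 := (this.congr (f₂ := fun n => star (s σ n * S.φ a - S.φ a * s σ n) *
      (s σ n * S.φ a - S.φ a * s σ n)) fun n => by
        simp only [star_sub, star_mul, map_mul, map_star]; noncomm_ring).norm.sqrt
    simp only [CStarRing.norm_star_mul_self, Real.sqrt_mul_self (norm_nonneg _), norm_zero,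
      Real.sqrt_zero] at h9
    exact tendsto_zero_iff_norm_tendsto_zero.2 h9
  let x' : (Cen S (hyperfilter ℕ)).E := Cen.mk x ⟨1, h1⟩ fun a => (h3 a).mono_left hl
  let s' : Bool → (Cen S (hyperfilter ℕ)).E := fun σ => Cen.mk (s σ) ⟨2, h2 σ⟩ fun a =>
    (e2 σ a).mono_left hl
  refine ⟨D, ⟨_, _, ι, h⟩, ι x', fun σ => ι (s' σ), (NonUnitalStarAlgHom.norm_apply_le ι _).trans
    (Prd.norm_le _ zero_le_one h1), fun g => ?_, fun σ σ' => ?_, fun σ σ' g hg => ?_⟩
  · rw [← h.eqv]
    exact h.ext fun a => (h4 g a).mono_left hl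
  · rw [← map_star, ← map_mul, ← map_ee, ← map_zero ι, ← apply_ite ι]
    refine h.ext fun a => ((e1 σ σ' a).mono_left hl).congr fun n => ?_
    split_ifs
    · exact congrArg (fun y => (_ - y) * _) (map_ee (Cen.ev n) x').symm
    · rfl
  · rw [← h.eqv, ← map_star, ← map_mul]
    exact h.eq_zero fun a => zero_mul (S.φ a) ▸ ((h8 σ σ' g hg).mul_const (S.φ a)).mono_left hl

lemma gram_sum {E ι : Type*} [CStarAlgebra E] [DecidableEq ι] {a b : ι → E} {e : E}
    (h : ∀ i j, star (a i) * b j = if i = j then e else 0) (T : Finset ι) (β β' : ι → ℝ) :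
    star (∑ i ∈ T, β i • a i) * ∑ i ∈ T, β' i • b i = (∑ i ∈ T, β i * β' i) • e := by
  rw [star_sum, sum_mul_sum, sum_smul]
  refine sum_congr rfl fun i hi => ?_
  simp [h, hi, smul_smul, mul_comm]

lemma sqrt_sub_sq {a b : ℝ} (ha : 0 ≤ a) (hb : 0 ≤ b) : (√a - √b) * (√a - √b) ≤ |a - b| := by
  have h1 := Real.mul_self_sqrt ha
  have h2 := Real.mul_self_sqrt hb
  have h3 := Real.sqrt_nonneg a
  have h4 := Real.sqrt_nonneg b
  rcases le_total √a √b with h | h
  · exact le_trans (by nlinarith) (neg_le_abs _)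
  · exact le_trans (by nlinarith) (le_abs_self _)

lemma avg_coset [DecidableEq G] {D : GAlg.{u} G} (N : Subgroup G) (hN : ∀ g ∈ N, ∀ y, D.act g y = y)
    {e : D.E} (he : ‖e‖ ≤ 1) (he' : ∀ g, D.act g e = e) {s : Bool → D.E}
    (h1 : ∀ σ σ', star (s σ) * s σ' = if σ = σ' then e else 0)
    (h2 : ∀ σ σ', ∀ g ∉ N, star (s σ) * D.act g (s σ') = 0) {F : Finset G} (hF : F.Nonempty) :
    ∃ r : Bool → D.E, (∀ σ σ', star (r σ) * r σ' = if σ = σ' then e else 0) ∧
      ∀ σ g, ‖D.act g (r σ) - r σ‖ ^ 2 ≤ ((g • F) ∆ F).card / F.card := by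
  classical
  have hc : (0 : ℝ) < F.card := by exact_mod_cast hF.card_pos
  let a : Bool → G ⧸ N → D.E := fun σ c => D.act c.out (s σ)
  have a1 : ∀ σ (g : G), a σ (g : G ⧸ N) = D.act g (s σ) := fun σ g => by
    obtain ⟨n, hn⟩ := QuotientGroup.mk_out_eq_mul N g
    simp only [a, hn, D.act_mul, hN _ n.2]
  have a2 : ∀ σ σ' c c', star (a σ c) * a σ' c' = if c = c' then (if σ = σ' then e else 0) else 0 :=
    fun σ σ' c c' => by
      induction c using QuotientGroup.induction_on with | H g =>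
      induction c' using QuotientGroup.induction_on with | H g' =>
      by_cases h : (g : G ⧸ N) = g'
      · rw [if_pos h, ← h, a1, a1, ← map_star, ← map_mul, h1]
        split_ifs <;> simp [he']
      · rw [if_neg h, a1, a1, ← mul_inv_cancel_left g g', D.act_mul, ← map_star, ← map_mul,
          h2 _ _ _ (mt QuotientGroup.eq.2 h), map_zero]
  let w : Finset G → G ⧸ N → ℝ := fun T c => (T.filter fun g : G => (g : G ⧸ N) = c).card / F.card
  have w0 : ∀ T c, 0 ≤ w T c := fun T c => by positivity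
  have w1 : ∀ (T : Finset G) (R : Finset (G ⧸ N)), ∑ c ∈ R, w T c ≤ T.card / F.card := fun T R => by
    rw [← sum_div]
    gcongr
    exact_mod_cast (sum_card_fiberwise_eq_card_filter T R _).trans_le (card_filter_le _ _)
  have w2 : ∀ σ (T : Finset G) (R : Finset (G ⧸ N)), T.image (↑) ⊆ R →
      ∑ c ∈ T.image (↑), √(w T c) • a σ c = ∑ c ∈ R, √(w T c) • a σ c := fun σ T R h =>
    sum_subset h fun c _ hc => by
      rw [show w T c = 0 by
        simp only [w, filter_eq_empty_iff.2 fun g hg h => hc (mem_image.2 ⟨g, hg, h⟩), card_empty,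
          Nat.cast_zero, zero_div], Real.sqrt_zero, zero_smul]
  refine ⟨fun σ => ∑ c ∈ F.image (↑), √(w F c) • a σ c, fun σ σ' => ?_, fun σ g => ?_⟩
  · rw [gram_sum (a2 σ σ')]
    simp only [Real.mul_self_sqrt (w0 _ _), w, ← sum_div]
    rw [← Nat.cast_sum, ← card_eq_sum_card_image, div_self hc.ne', one_smul]
  · have h3 : D.act g (∑ c ∈ F.image (↑), √(w F c) • a σ c) =
        ∑ c ∈ (g • F).image (↑), √(w (g • F) c) • a σ c := by
      have : (g • F).image ((↑) : G → G ⧸ N) = (F.image ((↑) : G → G ⧸ N)).image (g • ·) := by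
        rw [image_image, ← image_smul, image_image]; rfl
      rw [this, sum_image fun _ _ _ _ h => MulAction.injective g h, map_sum]
      refine sum_congr rfl fun c _ => ?_
      induction c using QuotientGroup.induction_on with | H h =>
      rw [← Complex.coe_smul, map_smul, Complex.coe_smul, a1, ← D.act_mul, ← a1]
      have h4 : (g • F).filter (fun y : G => (y : G ⧸ N) = g • (h : G ⧸ N)) =
          g • F.filter fun y : G => (y : G ⧸ N) = h := by
        ext y
        simp [← inv_smul_mem_iff, QuotientGroup.eq, mul_assoc]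
      simp only [w, h4, card_smul_finset]
      rfl
    dsimp only
    rw [h3, w2 σ _ _ (subset_union_left (s₂ := F.image (↑))),
      w2 σ F _ (subset_union_right (s₁ := (g • F).image (↑))), ← sum_sub_distrib]
    simp only [← sub_smul]
    rw [sq, ← CStarRing.norm_star_mul_self, gram_sum (a2 σ σ), if_pos rfl, norm_smul,
      Real.norm_of_nonneg (sum_nonneg fun _ _ => mul_self_nonneg _)]
    refine (mul_le_of_le_one_right (sum_nonneg fun _ _ => mul_self_nonneg _) he).trans
      ((sum_le_sum fun c _ => (sqrt_sub_sq (w0 _ _) (w0 _ _)).trans ?_).trans (w1 _ _))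
    simp only [w, ← sub_div, abs_div, Nat.abs_cast]
    gcongr
    have h4 : ∀ T T' : Finset G, ((T.filter fun g : G => (g : G ⧸ N) = c).card : ℝ) ≤
        (T'.filter fun g : G => (g : G ⧸ N) = c).card + ((T ∆ T').filter fun g : G => (g : G ⧸ N) = c).card :=
      fun T T' => by
        exact_mod_cast (card_le_card (by
          intro y; simp only [mem_filter, mem_union, mem_symmDiff]; tauto)).trans (card_union_le _ _)
    have h5 := h4 F (g • F)
    rw [symmDiff_comm] at h5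
    exact abs_sub_le_iff.2 ⟨by linarith [h4 (g • F) F], by linarith⟩

theorem noChar_fix [TopologicalSpace.SeparableSpace A] [DecidableEq G] [Countable G] (hS : S.Good)
    (hN : IsNuclear A) (hG : IsAmenable G) {D₀ : GAlg.{u} G} (h₀ : D₀ ∈ Mod S)
    (hE : IsEmpty (D₀.E →⋆ₐ[ℂ] ℂ)) : ∃ D ∈ Mod S, IsEmpty (D.fix →⋆ₐ[ℂ] ℂ) := by
  obtain ⟨D, hD, x, s, h1, h2, h3, h4⟩ := si_mod hS hN hG h₀ hE
  let N : Subgroup G :=
    { carrier := {g | ∀ D ∈ Mod S, ∀ y, D.act g y = y}
      mul_mem' := fun ha hb D hD y => by rw [D.act_mul, hb D hD, ha D hD]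
      one_mem' := fun D _ => D.act_one
      inv_mem' := fun {g} ha D hD y => by rw [← ha D hD (D.act g⁻¹ y), D.act_inv] }
  obtain ⟨K, hK⟩ := exists_exh G
  choose F hF hF' using fun n : ℕ => hG (K n) (1 / (n + 1)) (by positivity)
  choose r r1 r2 using fun n => avg_coset N (fun g hg => hg D hD) (ee_mem h1).2
    (fun g => by rw [map_ee, h2]) h3 (fun σ σ' g hg => h4 σ σ' g (by
      by_contra hn
      exact hg fun D hD y => by_contra fun h => hn ⟨D, hD, y, h⟩)) (hF n)
  obtain ⟨D', hD', Θ, e1, e2⟩ := up_mod (fun _ => D) fun _ => hD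
  have r3 : ∀ σ n, ‖r n σ‖ ≤ 1 := fun σ n => by
    have := (ee_mem h1).2
    rw [← if_pos (t := ee x) (e := 0) (rfl : σ = σ), ← r1 n, CStarRing.norm_star_mul_self] at this
    nlinarith [norm_nonneg (r n σ)]
  let R : Bool → Prd fun _ : ℕ => D.E := fun σ => Prd.mk (fun n => r n σ) ⟨1, r3 σ⟩
  let x' : D'.fix := ⟨Θ (Prd.cst ℕ D.E x), fun g => by
    rw [← e1]; exact congrArg Θ (Prd.ext fun n => h2 g)⟩
  let R' : Bool → D'.fix := fun σ => ⟨Θ (R σ), fun g => by
    rw [← e1, ← sub_eq_zero, ← map_sub]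
    refine e2 _ (squeeze_zero' (Eventually.of_forall fun _ => norm_nonneg _) ((hK g).mono fun n hn => ?_)
      (Real.sqrt_zero ▸ (tendsto_one_div_add_atTop_nhds_zero_nat (𝕜 := ℝ)).sqrt))
    refine Real.le_sqrt_of_sq_le ((r2 n σ g).trans ?_)
    rw [div_le_iff₀ (by exact_mod_cast (hF n).card_pos)]
    exact hF' n g hn⟩
  have h5 : ∀ σ σ', star (R' σ) * R' σ' = if σ = σ' then ee x' else 0 := fun σ σ' => by
    refine Subtype.ext ?_
    change star (Θ (R σ)) * Θ (R σ') = D'.fix.subtype _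
    rw [apply_ite D'.fix.subtype, map_ee, map_zero]
    change _ = if _ then ee (Θ (Prd.cst ℕ D.E x)) else 0
    rw [← map_star, ← map_mul, ← map_ee, ← map_ee, ← map_zero Θ, ← apply_ite Θ]
    refine congrArg Θ (Prd.ext fun n => (r1 n σ σ').trans ?_)
    split_ifs <;> rfl
  refine ⟨D', hD', ⟨fun χ => ?_⟩⟩
  have h6 : ∀ σ σ', star (χ (R' σ)) * χ (R' σ') = if σ = σ' then 1 else 0 := fun σ σ' => by
    rw [← map_star, ← map_mul, h5, apply_ite χ, map_ee, map_zero, ee, mul_comm (star _), sub_self,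
      mul_zero, sub_zero]
  have h7 := h6 true false
  simp only [Bool.true_eq_false, if_false, mul_eq_zero, star_eq_zero] at h7
  rcases h7 with h | h
  · simpa [h] using h6 true true
  · simpa [h] using h6 false false

end Vale.Agent.P095
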