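import Vale.Agent.P095.PB

/-! Tracial quotients of products. -/

namespace Vale.Agent.P095

open scoped CStarAlgebra ComplexConjugate
open Filter Topology
open Vale.Agent.P101

attribute [local instance] CStarAlgebra.spectralOrder CStarAlgebra.spectralOrderedRing

universe u

variable {G : Type*} [Group G]

/-- an algebra with an action and a set of traces -/
structure TAlg (G : Type*) [Group G] extends GAlg.{u} G where
  T : Set (E →ₗ[ℂ] ℂ)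

/-- the linear map of a homomorphism -/
abbrev lin {E E' : Type*} [CStarAlgebra E] [CStarAlgebra E'] (j : E →⋆ₐ[ℂ] E') : E →ₗ[ℂ] E' :=
  j.toAlgHom.toLinearMap

section
variable {I : Type} (l : Filter I) (D : I → GAlg.{u} G)

/-- limit traces -/
def Lim (τ : (Prd fun i => (D i).E) →ₗ[ℂ] ℂ) : Prop :=
  IsTr τ ∧ ∀ y c, (∀ ε > 0, ∀ᶠ i in l, ∀ σ, IsTr σ → (σ (y i)).re ≤ c + ε) → (τ y).re ≤ c

variable {D}

structure IsTM {Q : TAlg.{u} G} (q : (GAlg.prd D).E →⋆ₐ[ℂ] Q.E) : Prop where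
  surj : Function.Surjective q
  eqv : Eqv (D' := Q.toGAlg) q
  mem : ∀ τ, τ ∈ Q.T ↔ Lim l D (τ ∘ₗ lin q)
  desc : ∀ τ, Lim l D τ → ∃ τ' ∈ Q.T, τ' ∘ₗ lin q = τ
  faith : ∀ x, (∀ τ ∈ Q.T, nq τ x = 0) → x = 0

variable {l}

lemma Lim.comp {J : Type} {l' : Filter J} {D' : J → GAlg.{u} G} {τ} (h : Lim l' D' τ) {r : J → I}
    (hr : Tendsto r l' l) (f : ∀ j, (D (r j)).E →⋆ₐ[ℂ] (D' j).E) :
    Lim l D (τ ∘ₗ lin (Prd.hom fun j => (f j).comp (Prd.ev (r j)))) :=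
  ⟨h.1.comp _, fun y c hy => h.2 _ c fun ε hε =>
    (hr.eventually (hy ε hε)).mono fun j hj σ hσ => hj _ (hσ.comp (f j))⟩

theorem exists_TM (l : Filter I) (D : I → GAlg.{u} G) :
    ∃ (Q : TAlg.{u} G) (q : (GAlg.prd D).E →⋆ₐ[ℂ] Q.E), IsTM l q := by
  have hS : ∀ θ ∈ {τ | Lim l D τ}, IsPos θ := fun θ h => h.1.pos
  have hB : ∀ x, Bdd {τ | Lim l D τ} x := fun x => ⟨‖x‖, fun θ h y => nq_mul_le h.1.pos x y⟩
  obtain ⟨E, _, q, h1, h2⟩ := exists_completion (gns_isCSemi hS hB)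
  have h3 := surj_of_dense q h2
  have h4 : ∀ τ, Lim l D τ → ∀ x, nq τ x ≤ ‖q x‖ := fun τ h x => by
    simpa [st_nq_one h.1.st, h1] using le_gns hS (hB x) h 1
  have h5 : ∀ x, (∀ τ, Lim l D τ → nq τ x = 0) → q x = 0 := fun x hx => by
    rw [← norm_le_zero_iff, h1]
    exact gns_le le_rfl fun τ h y => by simpa [hx τ h] using h.1.nq_mul_le x y
  obtain ⟨act, a1, a2, a3⟩ := (GAlg.prd D).exists_quot h3 fun g x hx => h5 _ fun τ h => by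
    have := h4 _ (h.comp tendsto_id fun i => (D i).act g) x
    rw [hx, norm_zero, nq_comp] at this
    exact le_antisymm this (nq_nonneg _)
  have h6 : ∀ τ, Lim l D τ → ∃ τ' : E →ₗ[ℂ] ℂ, Lim l D (τ' ∘ₗ lin q) ∧ τ' ∘ₗ lin q = τ :=
    fun τ h => by
    obtain ⟨g, hg⟩ := (lin q).exists_rightInverse_of_surjective (LinearMap.range_eq_top.2 h3)
    have h' : (τ ∘ₗ g) ∘ₗ lin q = τ := LinearMap.ext fun x => by
      have h6 := (st_le_nq h.1.st _).trans (h4 τ h (g (q x) - x))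
      rw [map_sub q, show q (g (q x)) = q x from LinearMap.congr_fun hg _, sub_self, norm_zero,
        norm_le_zero_iff, map_sub, sub_eq_zero] at h6
      exact h6
    exact ⟨τ ∘ₗ g, h'.symm ▸ h, h'⟩
  refine ⟨⟨⟨E, act, a1, a2⟩, {τ | Lim l D (τ ∘ₗ lin q)}⟩, q, h3, a3, fun _ => Iff.rfl, h6,
    fun x hx => ?_⟩
  obtain ⟨x, rfl⟩ := h3 x
  refine h5 x fun τ h => ?_
  obtain ⟨τ', h7, rfl⟩ := h6 τ h
  rw [nq_comp]
  exact hx τ' h7

lemma exists_ultra {I : Type*} {l : Filter I} {p : I → Prop} (h : ¬ ∀ᶠ i in l, p i) :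
    ∃ V : Ultrafilter I, (V : Filter I) ≤ l ∧ ∀ᶠ i in V, ¬ p i := by
  have : (l ⊓ 𝓟 {i | ¬ p i}).NeBot := frequently_iff_neBot.1 (not_eventually.1 h)
  obtain ⟨V, hV⟩ := Ultrafilter.exists_le (l ⊓ 𝓟 {i | ¬ p i})
  exact ⟨V, hV.trans inf_le_left, le_principal_iff.1 (hV.trans inf_le_right)⟩

variable {Q : TAlg.{u} G} {q : (GAlg.prd D).E →⋆ₐ[ℂ] Q.E}

lemma IsTM.tr (h : IsTM l q) {τ} (hτ : τ ∈ Q.T) : IsTr τ := by
  have h1 := ((h.mem τ).1 hτ).1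
  refine ⟨⟨by simpa using h1.one, fun y => ?_⟩, fun x y => ?_⟩
  · obtain ⟨y, rfl⟩ := h.surj y
    simpa [map_star] using h1.pos y
  · obtain ⟨x, rfl⟩ := h.surj x
    obtain ⟨y, rfl⟩ := h.surj y
    simpa using h1.comm x y

lemma IsTM.lim (h : IsTM l q) {J : Type*} (V : Ultrafilter J) {r : J → I} (hr : Tendsto r V l)
    (σ : ∀ j, (D (r j)).E →ₗ[ℂ] ℂ) (hσ : ∀ᶠ j in V, IsTr (σ j)) :
    ∃ τ ∈ Q.T, ∀ y, Tendsto (fun j => σ j (y (r j))) V (𝓝 (τ (q y))) := by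
  classical
  obtain ⟨τ, hτ⟩ := exists_lim V (fun j => if IsTr (σ j) then σ j ∘ₗ lin (Prd.ev (E := fun i => (D i).E) (r j)) else 0)
    (C := 1) fun j x => by
      split_ifs with hj
      · simpa using st_norm_le (hj.comp (Prd.ev (E := fun i => (D i).E) (r j))).st x
      · simp
  replace hτ : ∀ y, Tendsto (fun j => σ j (y (r j))) V (𝓝 (τ y)) := fun y =>
    (hτ y).congr' (hσ.mono fun j hj => by simp [hj])
  have h1 : ∀ y c, (∀ ε > 0, ∀ᶠ j in V, (σ j (y (r j))).re ≤ c + ε) → (τ y).re ≤ c := fun y c hy =>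
    le_of_forall_pos_le_add fun ε hε =>
      le_of_tendsto ((Complex.continuous_re.tendsto _).comp (hτ y)) (hy ε hε)
  obtain ⟨τ', h2, rfl⟩ := h.desc τ ⟨⟨⟨tendsto_nhds_unique (hτ 1) (tendsto_const_nhds.congr'
      (hσ.mono fun j hj => hj.one.symm)), pos_of_re fun y =>
      ⟨ge_of_tendsto ((Complex.continuous_re.tendsto _).comp (hτ _))
        (hσ.mono fun j hj => hj.pos.re _), tendsto_nhds_unique
        ((Complex.continuous_im.tendsto _).comp (hτ _)) (tendsto_const_nhds.congr'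
          (hσ.mono fun j hj => (hj.pos.im _).symm))⟩⟩, fun x y => tendsto_nhds_unique (hτ _)
      ((hτ _).congr' (hσ.mono fun j hj => hj.comm _ _))⟩,
    fun y c hy => h1 y c fun ε hε => ((hr.eventually (hy ε hε)).and hσ).mono fun j hj =>
      hj.1 _ hj.2⟩
  exact ⟨τ', h2, hτ⟩

lemma IsTM.ev (h : IsTM l q) {y : Prd fun i => (D i).E} {c : ℝ} (hy : ∀ τ ∈ Q.T, (τ (q y)).re ≤ c)
    {ε : ℝ} (hε : 0 < ε) : ∀ᶠ i in l, ∀ σ, IsTr σ → (σ (y i)).re ≤ c + ε := by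
  by_contra hn
  obtain ⟨V, hV, hV'⟩ := exists_ultra hn
  have : ∀ i, ∃ σ : (D i).E →ₗ[ℂ] ℂ, ¬ (∀ σ, IsTr σ → (σ (y i)).re ≤ c + ε) →
      IsTr σ ∧ c + ε < (σ (y i)).re := fun i => by
    by_cases hi : ∀ σ, IsTr σ → (σ (y i)).re ≤ c + ε
    · exact ⟨0, fun h => absurd hi h⟩
    · push Not at hi
      obtain ⟨σ, hσ⟩ := hi
      exact ⟨σ, fun _ => hσ⟩
  choose σ hσ using this
  obtain ⟨τ, h1, h2⟩ := h.lim V (r := id) hV σ (hV'.mono fun i hi => (hσ i hi).1)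
  have := ge_of_tendsto ((Complex.continuous_re.tendsto _).comp (h2 y))
    (hV'.mono fun i hi => (hσ i hi).2.le)
  linarith [hy τ h1]

lemma IsTM.inv (h : IsTM l q) {τ} (hτ : τ ∈ Q.T) (g : G) : τ ∘ₗ lin (Q.act g) ∈ Q.T := by
  rw [h.mem] at hτ ⊢
  have := hτ.comp tendsto_id fun i => (D i).act g
  convert this using 1
  exact LinearMap.ext fun x => congrArg τ (h.eqv g x).symm

lemma IsTM.zero (h : IsTM l q) {R : Type*} [CStarAlgebra R] (f : R →⋆ₐ[ℂ] (GAlg.prd D).E) {x : R}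
    (hx : ∀ τ, Lim l D τ → nq (τ ∘ₗ lin f) x = 0) : q (f x) = 0 :=
  h.faith _ fun τ hτ => by
    have := hx _ ((h.mem τ).1 hτ)
    rwa [nq_comp, nq_comp] at this

lemma IsTM.map (h : IsTM l q) {J : Type} {l' : Filter J} {D' : J → GAlg.{u} G} {Q' : TAlg.{u} G}
    {q' : (GAlg.prd D').E →⋆ₐ[ℂ] Q'.E} (h' : IsTM l' q') {r : J → I}
    (hr : Tendsto r l' l) (f : ∀ j, (D (r j)).E →⋆ₐ[ℂ] (D' j).E) (hf : ∀ j, Eqv (f j)) :
    ∃ j : Q.E →⋆ₐ[ℂ] Q'.E, Eqv (D := Q.toGAlg) (D' := Q'.toGAlg) j ∧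
      ∀ x, j (q x) = q' (Prd.hom (fun j => (f j).comp (Prd.ev (r j))) x) := by
  obtain ⟨j, hj⟩ := exists_desc h.surj (q'.comp (Prd.hom fun j => (f j).comp (Prd.ev (r j))))
    fun x hx => h'.zero _ fun τ hτ => by
      obtain ⟨τ', -, h1⟩ := h.desc _ (hτ.comp hr f)
      rw [← h1, nq_comp, hx, nq_zero]
  refine ⟨j, fun g x => ?_, hj⟩
  obtain ⟨x, rfl⟩ := h.surj x
  rw [← h.eqv, hj, hj, StarAlgHom.comp_apply, StarAlgHom.comp_apply, ← h'.eqv]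
  exact congrArg q' (Prd.ext fun j => hf j g _)

end

/-- equivariant maps of tracial algebras -/
abbrev TEqv {Q Q' : TAlg.{u} G} (j : Q.E →⋆ₐ[ℂ] Q'.E) : Prop :=
  Eqv (D := Q.toGAlg) (D' := Q'.toGAlg) j

/-- the properties of a class of tracial algebras -/
structure Cls (C : Set (TAlg.{u} G)) : Prop where
  tr : ∀ {Q}, Q ∈ C → ∀ {τ}, τ ∈ Q.T → IsTr τ
  inv : ∀ {Q}, Q ∈ C → ∀ {τ}, τ ∈ Q.T → ∀ g, τ ∘ₗ lin (Q.act g) ∈ Q.T
  faith : ∀ {Q}, Q ∈ C → ∀ x, (∀ τ ∈ Q.T, nq τ x = 0) → x = 0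
  pair : ∀ {Q₁ Q₂}, Q₁ ∈ C → Q₂ ∈ C → ∃ Q ∈ C, ∃ (j₁ : Q₁.E →⋆ₐ[ℂ] Q.E) (j₂ : Q₂.E →⋆ₐ[ℂ] Q.E),
    TEqv j₁ ∧ TEqv j₂ ∧ (∀ x y, Commute (j₁ x) (j₂ y)) ∧ ∀ (κ : Type) [Fintype κ] (x : κ → Q₁.E)
      (y : κ → Q₂.E) (c : ℝ), (∀ τ₁ ∈ Q₁.T, ∀ τ₂ ∈ Q₂.T, (∑ k, τ₁ (x k) * τ₂ (y k)).re ≤ c) →
      ∀ τ ∈ Q.T, (τ (∑ k, j₁ (x k) * j₂ (y k))).re ≤ c
  up : ∀ Q : ℕ → TAlg.{u} G, (∀ n, Q n ∈ C) → ∃ Q' ∈ C,
    ∃ Θ : (GAlg.prd fun n => (Q n).toGAlg).E →⋆ₐ[ℂ] Q'.E, Eqv (D' := Q'.toGAlg) Θ ∧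
    ∀ τ ∈ Q'.T, ∀ (y : Prd fun n => (Q n).E) (c : ℝ),
      (∀ ε > 0, ∀ᶠ n in atTop, ∀ σ ∈ (Q n).T, (σ (y n)).re ≤ c + ε) → (τ (Θ y)).re ≤ c
  units : ∀ (κ : Type) [Fintype κ] [DecidableEq κ] [Nonempty κ],
    ∃ Q ∈ C, ∃ e : κ → κ → Q.E, OZ e ∧ P101.tr e = 1

/-- tracial quotients of products of algebras in a class -/
def TC (K : Set (GAlg.{u} G)) : Set (TAlg.{u} G) :=
  {Q | ∃ (I : Type) (l : Filter I) (D : I → GAlg.{u} G) (q : (GAlg.prd D).E →⋆ₐ[ℂ] Q.E),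
    l.NeBot ∧ (∀ i, D i ∈ K) ∧ IsTM l q}

lemma oz_norm {E κ : Type*} [CStarAlgebra E] [Fintype κ] [DecidableEq κ] {φ : κ → κ → E} (h : OZ φ)
    (h1 : ‖P101.tr φ‖ ≤ 1) (i j : κ) : ‖φ i j‖ ≤ 1 := by
  have h2 : ∀ i j, ‖φ i j‖ * ‖φ i j‖ ≤ ‖φ j j‖ := fun i j => by
    rw [← CStarRing.norm_star_mul_self, h.star, h.mul, if_pos rfl]
    exact (norm_mul_le_of_le h1 le_rfl).trans_eq (one_mul _)
  have h3 : ‖φ j j‖ ≤ 1 := by nlinarith [h2 j j, norm_nonneg (φ j j)]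
  nlinarith [h2 i j, norm_nonneg (φ i j)]

lemma data_tr {E κ : Type*} [CStarAlgebra E] [Fintype κ] [DecidableEq κ] {φ : κ → κ → E} {i₀ : κ}
    {v : Fin 1 → E} (h : Data i₀ φ v) {τ} (hτ : IsTr τ) :
    (τ (star (1 - P101.tr φ) * (1 - P101.tr φ))).re * Fintype.card κ ≤ 4 := by
  have h1 : star (v 0) * v 0 = 1 - P101.tr φ := by simpa using h.sum
  have h2 : ‖star (v 0) * v 0‖ ≤ 2 := by
    rw [h1]; linarith [norm_sub_le (1 : E) (P101.tr φ), norm_one_le (E := E), h.nrm]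
  have h3 : ∀ i, τ (P101.tr φ * φ i i) = τ (φ i₀ i₀ * φ i₀ i₀) := fun i => by
    have := hτ.comm (φ i i₀) (φ i₀ i)
    simpa [h.oz.mul] using this
  have h4 : (τ (φ i₀ i₀ * φ i₀ i₀)).re * Fintype.card κ ≤ 1 := by
    have h5 := (st_re_le hτ.st (P101.tr φ * P101.tr φ)).trans (norm_mul_le_of_le h.nrm h.nrm)
    nth_rw 2 [P101.tr] at h5
    simpa [Finset.mul_sum, h3, mul_comm] using h5
  have h5 : (τ (star (v 0) * v 0)).re ≤ 2 * (τ (φ i₀ i₀ * φ i₀ i₀)).re := by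
    have h6 := pos_mono hτ.pos (CStarAlgebra.star_left_conjugate_le_norm_smul (a := φ i₀ i₀)
      (b := v 0 * star (v 0)) (IsSelfAdjoint.mul_star_self _))
    rw [h.oz.star, ← mul_assoc, h.top, mul_assoc, ← h.oz.star i₀ i₀, ← star_mul, h.oz.star, h.top,
      hτ.comm, CStarRing.norm_self_mul_star, ← CStarRing.norm_star_mul_self,
      LinearMap.map_smul_of_tower, Complex.smul_re, smul_eq_mul] at h6
    refine h6.trans (mul_le_mul_of_nonneg_right h2 ?_)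
    simpa [h.oz.star] using hτ.pos.re (φ i₀ i₀)
  have h6 := (Complex.re_le_norm _).trans (hτ.norm_mul_le (star (v 0) * v 0) (star_mul_self_nonneg (v 0)))
  have h7 := mul_le_mul_of_nonneg_right h2 (hτ.pos.re (v 0))
  rw [← h1, (IsSelfAdjoint.star_mul_self _).star_eq]
  nlinarith [Nat.cast_nonneg (α := ℝ) (Fintype.card κ)]

theorem cls_TC {K : Set (GAlg.{u} G)}
    (hP : ∀ D₁ ∈ K, ∀ D₂ ∈ K, ∃ D ∈ K, ∃ (j₁ : D₁.E →⋆ₐ[ℂ] D.E) (j₂ : D₂.E →⋆ₐ[ℂ] D.E),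
      Eqv j₁ ∧ Eqv j₂ ∧ ∀ x y, Commute (j₁ x) (j₂ y))
    (hD : ∀ (κ : Type) [Fintype κ] [DecidableEq κ] (i₀ : κ), ∃ D ∈ K, ∃ (φ : κ → κ → D.E)
      (v : Fin 1 → D.E), Data i₀ φ v) : Cls (TC K) where
  tr := by rintro Q ⟨I, l, D, q, -, -, h⟩ τ hτ; exact h.tr hτ
  inv := by rintro Q ⟨I, l, D, q, -, -, h⟩ τ hτ; exact h.inv hτ
  faith := by rintro Q ⟨I, l, D, q, -, -, h⟩; exact h.faith
  pair := by
    rintro Q₁ Q₂ ⟨I, l, D, q₁, _, hD, h₁⟩ ⟨J, l', D', q₂, _, hD', h₂⟩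
    choose F hF f₁ f₂ e₁ e₂ hc using fun x : I × J => hP _ (hD x.1) _ (hD' x.2)
    obtain ⟨Q, q, h⟩ := exists_TM (l ×ˢ l') F
    obtain ⟨j₁, a₁, b₁⟩ := h₁.map h tendsto_fst f₁ e₁
    obtain ⟨j₂, a₂, b₂⟩ := h₂.map h tendsto_snd f₂ e₂
    refine ⟨Q, ⟨_, _, F, q, inferInstance, hF, h⟩, j₁, j₂, a₁, a₂, fun x y => ?_,
      fun κ _ x y c hxy τ hτ => ?_⟩
    · obtain ⟨x, rfl⟩ := h₁.surj x
      obtain ⟨y, rfl⟩ := h₂.surj y
      rw [b₁, b₂]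
      refine Commute.map ?_ q
      exact Prd.ext fun i => (hc i (x i.1) (y i.2)).eq
    choose x' hx using fun k => h₁.surj (x k)
    choose y' hy using fun k => h₂.surj (y k)
    simp only [← hx, ← hy, b₁, b₂, ← map_mul, ← map_sum q]
    refine ((h.mem τ).1 hτ).2 _ c fun ε hε => ?_
    by_contra hn
    obtain ⟨V, hV, hV'⟩ := exists_ultra hn
    have : ∀ i : I × J, ∃ (σ₁ : (D i.1).E →ₗ[ℂ] ℂ) (σ₂ : (D' i.2).E →ₗ[ℂ] ℂ),
        (∃ σ, IsTr σ ∧ c + ε < (σ (∑ k, f₁ i (x' k i.1) * f₂ i (y' k i.2))).re) →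
        IsTr σ₁ ∧ IsTr σ₂ ∧ c + ε ≤ (∑ k, σ₁ (x' k i.1) * σ₂ (y' k i.2)).re := fun i => by
      by_cases hi : ∃ σ, IsTr σ ∧ c + ε < (σ (∑ k, f₁ i (x' k i.1) * f₂ i (y' k i.2))).re
      · obtain ⟨σ, h3, h4⟩ := hi
        obtain ⟨σ₁, σ₂, h5, h6, h7⟩ := prod_base (hc i) h3 (fun k => x' k i.1) fun k => y' k i.2
        exact ⟨σ₁, σ₂, fun _ => ⟨h5, h6, h4.le.trans h7⟩⟩
      · exact ⟨0, 0, fun h => absurd h hi⟩
    choose σ₁ σ₂ hσ using this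
    replace hσ := hV'.mono fun i hi => hσ i (by
      push Not at hi
      simpa [Prd.sum_apply] using hi)
    obtain ⟨τ₁, c₁, d₁⟩ := h₁.lim V (tendsto_fst.mono_left hV) σ₁ (hσ.mono fun i hi => hi.1)
    obtain ⟨τ₂, c₂, d₂⟩ := h₂.lim V (tendsto_snd.mono_left hV) σ₂ (hσ.mono fun i hi => hi.2.1)
    have h3 := ge_of_tendsto ((Complex.continuous_re.tendsto _).comp (tendsto_finsetSum Finset.univ
      fun k _ => (d₁ (x' k)).mul (d₂ (y' k)))) (hσ.mono fun i hi => hi.2.2)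
    have h4 := hxy τ₁ c₁ τ₂ c₂
    simp only [hx, hy] at h3
    linarith
  up := by
    intro Q hQ
    choose I l D q hl hD h using hQ
    let L : Filter (Σ n, I n) := atTop.bind fun n => (l n).map (Sigma.mk n)
    have hL : ∀ p : (Σ n, I n) → Prop, (∀ᶠ x in L, p x) ↔ ∀ᶠ n in atTop, ∀ᶠ i in l n, p ⟨n, i⟩ :=
      fun p => mem_bind'
    obtain ⟨Q', q', h'⟩ := exists_TM L fun x => D x.1 x.2
    let R : (Prd fun n => Prd fun i => (D n i).E) →⋆ₐ[ℂ] (Prd fun x : Σ n, I n => (D x.1 x.2).E) :=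
      Prd.hom fun x => (Prd.ev (E := fun i => (D x.1 i).E) x.2).comp
        (Prd.ev (E := fun n => Prd fun i => (D n i).E) x.1)
    let p : (Prd fun n => Prd fun i => (D n i).E) →⋆ₐ[ℂ] (Prd fun n => (Q n).E) :=
      Prd.hom fun n => (q n).comp (Prd.ev n)
    have hp : Function.Surjective p := fun y => by
      choose x h1 h2 using fun n => exists_lift_le (h n).surj (y n)
      exact ⟨Prd.mk x ⟨_, fun n => (h2 n).trans (y.norm_apply_le n)⟩, Prd.ext h1⟩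
    have h0 : ∀ τ, Lim L (fun x => D x.1 x.2) τ → ∀ x c, (∀ ε > 0, ∀ᶠ n in atTop, ∀ σ ∈ (Q n).T,
        (σ (p x n)).re ≤ c + ε) → (τ (R x)).re ≤ c := fun τ hτ x c hx =>
      hτ.2 _ c fun ε hε => (hL _).2 ((hx _ (half_pos hε)).mono fun n hn => by
        have := (h n).ev hn (half_pos hε)
        rw [add_assoc, add_halves] at this
        exact this)
    obtain ⟨Θ, hΘ⟩ := exists_desc hp (q'.comp R) fun x hx => h'.zero R fun τ hτ => by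
      rw [nq_comp, nq, ← map_star, ← map_mul, Real.sqrt_eq_zero']
      exact h0 τ hτ _ 0 fun ε hε => Eventually.of_forall fun n σ _ => by simp [hx, hε.le]
    refine ⟨Q', ⟨_, L, _, q', ⟨fun hb => ?_⟩, fun x => hD _ _, h'⟩, Θ, fun g y => ?_,
      fun τ hτ y c hy => ?_⟩
    · obtain ⟨n, hn⟩ := ((hL fun _ => False).1 (by simp [hb])).exists
      exact (hl n).ne (eventually_false_iff_eq_bot.1 hn)
    · obtain ⟨x, rfl⟩ := hp y
      have : (GAlg.prd fun n => (Q n).toGAlg).act g (p x) =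
          p ((GAlg.prd fun n => GAlg.prd (D n)).act g x) := Prd.ext fun n => ((h n).eqv g _).symm
      rw [this, hΘ, hΘ, StarAlgHom.comp_apply, StarAlgHom.comp_apply, ← h'.eqv]
      rfl
    · obtain ⟨x, rfl⟩ := hp y
      rw [hΘ]
      exact h0 _ ((h'.mem τ).1 hτ) x c hy
  units := by
    intro κ _ _ ⟨k₀⟩
    choose D hD φ v H using fun n => hD (κ × Fin (n + 1)) (k₀, 0)
    obtain ⟨Q, q, h⟩ := exists_TM atTop D
    have h1 : ∀ n, P101.tr (fun a b => ∑ c, φ n (a, c) (b, c)) = P101.tr (φ n) := fun n => by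
      simp [P101.tr, Fintype.sum_prod_type]
    have h2 : ∀ n, OZ fun a b => ∑ c, φ n (a, c) (b, c) := fun n =>
      ⟨fun a b => by simp [(H n).oz.star], fun a b c d => by
        rw [h1, Finset.sum_mul_sum]
        split_ifs with hb <;> simp [(H n).oz.mul, hb, Finset.mul_sum]⟩
    let e : κ → κ → Prd fun n => (D n).E := fun a b => Prd.mk (fun n => ∑ c, φ n (a, c) (b, c))
      ⟨1, fun n => oz_norm (h2 n) ((h1 n).symm ▸ (H n).nrm) a b⟩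
    have h3 : ∀ n, P101.tr e n = P101.tr (φ n) := fun n => by
      rw [← h1, P101.tr, Prd.sum_apply]; rfl
    have h4 : OZ e := ⟨fun a b => Prd.ext fun n => (h2 n).star a b, fun a b c d => Prd.ext fun n => by
      have := (h2 n).mul a b c d
      rw [h1] at this
      split_ifs at this ⊢
      · rw [Prd.mul_apply, Prd.mul_apply, h3]; exact this
      · exact this⟩
    refine ⟨Q, ⟨_, _, D, q, inferInstance, hD, h⟩, fun a b => q (e a b), h4.map q, ?_⟩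
    rw [P101.tr, ← map_sum, eq_comm, ← sub_eq_zero, ← map_one q, ← map_sub]
    refine h.zero (StarAlgHom.id ℂ _) fun τ hτ => ?_
    rw [nq, Real.sqrt_eq_zero']
    refine hτ.2 _ 0 fun ε hε => ?_
    filter_upwards [(tendsto_one_div_add_atTop_nhds_zero_nat.const_mul 4).eventually_lt_const
      (show 4 * 0 < ε by simpa)] with n hn σ hσ
    have h5 := data_tr (H n) hσ
    have h6 : (n + 1 : ℝ) ≤ Fintype.card (κ × Fin (n + 1)) := by
      have : 1 ≤ Fintype.card κ := Fintype.card_pos_iff.2 ⟨k₀⟩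
      simp only [Fintype.card_prod, Fintype.card_fin]
      exact_mod_cast Nat.le_mul_of_pos_left _ this
    rw [← h3] at h5
    have h7 := mul_le_mul_of_nonneg_left h6 (hσ.pos.re (1 - P101.tr e n))
    rw [mul_one_div, div_lt_iff₀ (by positivity)] at hn
    have h8 : (σ (star (1 - P101.tr e n) * (1 - P101.tr e n))).re ≤ ε :=
      le_of_mul_le_mul_right (by linarith) (show (0 : ℝ) < n + 1 by positivity)
    rw [zero_add]
    exact h8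

end Vale.Agent.P095
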