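import Vale.Agent.P095.Infra
import Vale.Agent.P101.MinT

/-! Positive functionals and traces. -/

namespace Vale.Agent.P095

open scoped CStarAlgebra ComplexConjugate
open Filter Topology
open Vale.Agent.P101

attribute [local instance] CStarAlgebra.spectralOrder CStarAlgebra.spectralOrderedRing

variable {E : Type*} [CStarAlgebra E] {θ τ : E →ₗ[ℂ] ℂ}

lemma pos_re (h : IsPos θ) {x : E} (hx : 0 ≤ x) : 0 ≤ (θ x).re := by
  obtain ⟨y, rfl⟩ := CStarAlgebra.nonneg_iff_eq_star_mul_self.1 hx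
  exact h.re y

lemma pos_mono (h : IsPos θ) {x y : E} (hx : x ≤ y) : (θ x).re ≤ (θ y).re := by
  have := pos_re h (sub_nonneg.2 hx)
  rw [map_sub, Complex.sub_re] at this
  linarith

lemma pos_star (h : IsPos θ) (x : E) : θ (star x) = conj (θ x) := by
  simpa using h.herm 1 x

lemma pos_im (h : IsPos θ) {x : E} (hx : IsSelfAdjoint x) : (θ x).im = 0 := by
  have := pos_star h x
  rw [hx.star_eq] at this
  exact Complex.conj_eq_iff_im.1 this.symm

lemma pos_eq_re (h : IsPos θ) {x : E} (hx : IsSelfAdjoint x) : θ x = (θ x).re :=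
  Complex.ext rfl (by simp [pos_im h hx])

lemma pos_cs (h : IsPos θ) (x y : E) : ‖θ (star x * y)‖ ≤ nq θ x * nq θ y := by
  obtain ⟨c, hc, h1⟩ := Complex.exists_norm_eq_mul_self (θ (star x * y))
  have := h.cs x (c • y)
  rwa [h.nq_smul, hc, one_mul, mul_smul_comm, map_smul, smul_eq_mul, ← h1, Complex.ofReal_re] at this

lemma nq_mul_le (h : IsPos θ) (x y : E) : nq θ (x * y) ≤ ‖x‖ * nq θ y :=
  h.nq_hom (StarAlgHom.id ℂ E) x y

lemma nq_sq (h : IsPos θ) (x : E) : nq θ x ^ 2 = (θ (star x * x)).re := by rw [sq, h.nq_sq]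

lemma nq_neg (x : E) : nq θ (-x) = nq θ x := by simp [nq]

lemma nq_zero : nq θ (0 : E) = 0 := by simp [nq]

lemma nq_sub_le (h : IsPos θ) (x y : E) : nq θ (x - y) ≤ nq θ x + nq θ y := by
  rw [sub_eq_add_neg, ← nq_neg y]; exact h.nq_add _ _

lemma nq_comm (x y : E) : nq θ (x - y) = nq θ (y - x) := by rw [← nq_neg, neg_sub]

lemma nq_tri (h : IsPos θ) (x y z : E) : nq θ (x - z) ≤ nq θ (x - y) + nq θ (y - z) := by
  have := h.nq_add (x - y) (y - z)
  rwa [sub_add_sub_cancel] at this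

lemma nq_sum_le (h : IsPos θ) {κ : Type*} (s : Finset κ) (x : κ → E) :
    nq θ (∑ k ∈ s, x k) ≤ ∑ k ∈ s, nq θ (x k) :=
  Finset.le_sum_of_subadditive (nq θ) nq_zero.le h.nq_add s x

lemma nq_comp {E' : Type*} [CStarAlgebra E'] (j : E' →⋆ₐ[ℂ] E) (x : E') :
    nq (θ ∘ₗ j.toAlgHom.toLinearMap) x = nq θ (j x) := by simp [nq, map_star]

lemma nq_le_of_sq {x : E} {r : ℝ} (hr : 0 ≤ r) (h : (θ (star x * x)).re ≤ r ^ 2) : nq θ x ≤ r :=
  Real.sqrt_le_iff.2 ⟨hr, h⟩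

lemma pos_norm_le (h : IsPos θ) (x : E) : ‖θ x‖ ≤ ‖x‖ * (θ 1).re := by
  have h1 := pos_cs h 1 x
  have h2 := nq_mul_le h x 1
  have h3 := h.nq_sq 1
  simp only [star_one, one_mul, mul_one] at h1 h2 h3
  rw [← h3]
  nlinarith [nq_nonneg (θ := θ) 1]

lemma st_nq_one (h : IsState θ) : nq θ 1 = 1 := by simp [nq, h.1]

lemma st_le_nq (h : IsState θ) (x : E) : ‖θ x‖ ≤ nq θ x := by
  simpa [st_nq_one h] using pos_cs h.2 1 x

lemma st_nq_le (h : IsState θ) (x : E) : nq θ x ≤ ‖x‖ := by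
  simpa [st_nq_one h] using nq_mul_le h.2 x 1

lemma st_norm_le (h : IsState θ) (x : E) : ‖θ x‖ ≤ ‖x‖ := (st_le_nq h x).trans (st_nq_le h x)

lemma st_re_le (h : IsState θ) (x : E) : (θ x).re ≤ ‖x‖ :=
  (Complex.re_le_norm _).trans (st_norm_le h x)

lemma pos_cont (h : IsPos θ) : Continuous θ :=
  AddMonoidHomClass.continuous_of_bound θ (θ 1).re fun x => by
    rw [mul_comm]; exact pos_norm_le h x

lemma pos_comp (h : IsPos θ) {E' : Type*} [CStarAlgebra E'] (j : E' →⋆ₐ[ℂ] E) :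
    IsPos (θ ∘ₗ j.toAlgHom.toLinearMap) := fun y => by simpa [map_star] using h (j y)

lemma pos_of_re (h : ∀ y, 0 ≤ (θ (star y * y)).re ∧ (θ (star y * y)).im = 0) : IsPos θ := fun y =>
  ⟨_, (h y).1, Complex.ext rfl (by simp [(h y).2])⟩

/-- tracial states -/
structure IsTr (τ : E →ₗ[ℂ] ℂ) : Prop where
  st : IsState τ
  comm : ∀ x y, τ (x * y) = τ (y * x)

lemma IsTr.pos (h : IsTr τ) : IsPos τ := h.st.2

lemma IsTr.one (h : IsTr τ) : τ 1 = 1 := h.st.1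

lemma IsTr.comp (h : IsTr τ) {E' : Type*} [CStarAlgebra E'] (j : E' →⋆ₐ[ℂ] E) :
    IsTr (τ ∘ₗ j.toAlgHom.toLinearMap) :=
  ⟨⟨by simp [h.one], pos_comp h.pos j⟩, fun x y => by simp [h.comm (j x)]⟩

lemma IsTr.nq_star (h : IsTr τ) (x : E) : nq τ (star x) = nq τ x := by simp [nq, h.comm x]

lemma IsTr.nq_mul_le (h : IsTr τ) (x y : E) : nq τ (x * y) ≤ nq τ x * ‖y‖ := by
  rw [← h.nq_star, star_mul, ← h.nq_star x, mul_comm, ← norm_star y]
  exact P095.nq_mul_le h.pos _ _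

lemma IsTr.cs (h : IsTr τ) (x y : E) : ‖τ (x * y)‖ ≤ nq τ x * nq τ y := by
  simpa [h.nq_star] using pos_cs h.pos (star x) y

lemma IsTr.mul_nonneg (h : IsTr τ) {a b : E} (ha : 0 ≤ a) (hb : 0 ≤ b) : 0 ≤ (τ (a * b)).re := by
  obtain ⟨y, rfl⟩ := CStarAlgebra.nonneg_iff_eq_star_mul_self.1 ha
  rw [mul_assoc, h.comm]
  exact pos_re h.pos (star_right_conjugate_nonneg hb y)

lemma IsTr.mul_mono (h : IsTr τ) {a b c : E} (ha : 0 ≤ a) (hb : b ≤ c) :
    (τ (a * b)).re ≤ (τ (a * c)).re := by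
  have := h.mul_nonneg ha (sub_nonneg.2 hb)
  rw [mul_sub, map_sub, Complex.sub_re] at this
  linarith

lemma IsTr.norm_mul_le (h : IsTr τ) (z : E) {p : E} (hp : 0 ≤ p) :
    ‖τ (z * p)‖ ≤ ‖z‖ * (τ p).re := by
  obtain ⟨y, rfl⟩ := CStarAlgebra.nonneg_iff_eq_star_mul_self.1 hp
  have h1 := h.cs (z * star y) y
  have h2 := P095.nq_mul_le h.pos z (star y)
  rw [h.nq_star] at h2
  rw [← h.pos.nq_sq, ← mul_assoc, ← mul_assoc]
  exact h1.trans (mul_le_mul_of_nonneg_right h2 (nq_nonneg _))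

lemma IsTr.mono_sq (h : IsTr τ) {a b : E} (hb : 0 ≤ b) (hab : b ≤ a) :
    nq τ (a - b) ^ 2 ≤ (τ (a * a)).re - (τ (b * b)).re := by
  have h1 := h.mul_mono hb hab
  rw [nq_sq h.pos, star_sub, (hb.trans hab).star_eq, hb.star_eq]
  simp only [mul_sub, sub_mul, map_sub, Complex.sub_re, h.comm a b]
  linarith

lemma map_sqrt {E' : Type*} [CStarAlgebra E'] (j : E →⋆ₐ[ℂ] E') {a : E} (ha : 0 ≤ a) :
    j (CFC.sqrt a) = CFC.sqrt (j a) :=
  (CFC.sqrt_unique (by rw [← map_mul, CFC.sqrt_mul_sqrt_self a ha])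
    (map_nonneg j (CFC.sqrt_nonneg a))).symm

lemma IsTr.sqrt_sub (h : IsTr τ) {a b : E} (hb : 0 ≤ b) (hab : b ≤ a) :
    nq τ (CFC.sqrt a - CFC.sqrt b) ^ 2 ≤ (τ (a - b)).re := by
  have := h.mono_sq (CFC.sqrt_nonneg b) (CFC.sqrt_le_sqrt b a hab)
  rwa [CFC.sqrt_mul_sqrt_self a (hb.trans hab), CFC.sqrt_mul_sqrt_self b hb, ← Complex.sub_re,
    ← map_sub] at this

/-- the resolvent -/
noncomputable def res (a : E) (t : ℝ) : E := cfc (fun s : ℝ => (max s 0 + t)⁻¹) a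

lemma res_cont {t : ℝ} (ht : 0 < t) : Continuous fun s : ℝ => (max s 0 + t)⁻¹ :=
  Continuous.inv₀ (by fun_prop) fun s => by positivity

lemma res_nonneg (a : E) {t : ℝ} (ht : 0 < t) : 0 ≤ res a t := cfc_nonneg fun s _ => by positivity

lemma norm_res (a : E) {t : ℝ} (ht : 0 < t) : ‖res a t‖ ≤ t⁻¹ :=
  norm_cfc_le (by positivity) fun s _ => by
    rw [Real.norm_of_nonneg (by positivity)]
    exact inv_anti₀ ht (le_add_of_nonneg_left (le_max_right _ _))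

lemma mul_res {a : E} (ha : 0 ≤ a) {t : ℝ} (ht : 0 < t) :
    a * res a t = cfc (fun s : ℝ => s * (max s 0 + t)⁻¹) a := by
  rw [cfc_mul _ _ _ (by fun_prop) (res_cont ht).continuousOn, cfc_id' ℝ a, res]

lemma res_comm {a b : E} (ha : 0 ≤ a) (h : Commute a b) (t : ℝ) : Commute (res a t) b :=
  ha.isSelfAdjoint.commute_cfc h _

lemma mul_res_eq {a : E} (ha : 0 ≤ a) {t : ℝ} (ht : 0 < t) :
    a * res a t = 1 - (t : ℂ) • res a t := by
  have h0 : Continuous fun s : ℝ => t • (max s 0 + t)⁻¹ := (res_cont ht).const_smul t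
  rw [mul_res ha ht, res, Complex.coe_smul, ← cfc_smul _ _ _ (res_cont ht).continuousOn,
    ← cfc_const_one ℝ a, ← cfc_sub _ _ _ (by fun_prop) h0.continuousOn]
  refine cfc_congr fun s hs => ?_
  have := spectrum_nonneg_of_nonneg ha hs
  simp only [max_eq_left this, smul_eq_mul]
  field_simp
  ring

lemma res_mul_eq {a : E} (ha : 0 ≤ a) {t : ℝ} (ht : 0 < t) :
    res a t * a = 1 - (t : ℂ) • res a t := by
  rw [(res_comm ha (Commute.refl a) t).eq, mul_res_eq ha ht]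

lemma map_res {E' : Type*} [CStarAlgebra E'] (j : E →⋆ₐ[ℂ] E') {a : E} (ha : 0 ≤ a) {t : ℝ}
    (ht : 0 < t) : j (res a t) = res (j a) t := map_cfc_real j ha.isSelfAdjoint (res_cont ht)

lemma res_anti {a b : E} (ha : 0 ≤ a) (hab : a ≤ b) {t : ℝ} (ht : 0 < t) : res b t ≤ res a t := by
  let u : ∀ a : E, 0 ≤ a → Eˣ := fun a ha => ⟨a + (t : ℂ) • 1, res a t,
    by rw [add_mul, mul_res_eq ha ht]; simp, by rw [mul_add, res_mul_eq ha ht]; simp⟩
  exact CStarAlgebra.inv_le_inv (a := u a ha) (b := u b (ha.trans hab))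
    (add_nonneg ha (by rw [Complex.coe_smul]; exact smul_nonneg ht.le zero_le_one))
    (add_le_add hab le_rfl)

lemma conj_res_le {x q : E} (h : star x * x ≤ q) {t : ℝ} (ht : 0 < t) :
    x * res q t * star x ≤ 1 := by
  have hq : 0 ≤ q := (star_mul_self_nonneg x).trans h
  obtain ⟨r, hr, hr'⟩ : ∃ r : E, 0 ≤ r ∧ r * r = res q t :=
    ⟨_, CFC.sqrt_nonneg _, CFC.sqrt_mul_sqrt_self _ (res_nonneg q ht)⟩
  have hc : Commute r q := by
    have := CFC.sqrt_unique hr' hr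
    rw [← this]
    exact (res_comm hq (Commute.refl q) t).cfcₙ_nnreal _
  have h1 : star (x * r) * (x * r) ≤ 1 := by
    have h2 := star_left_conjugate_le_conjugate h r
    rw [hr.star_eq, hc.eq, mul_assoc q, hr', mul_res_eq hq ht] at h2
    rw [star_mul, hr.star_eq, mul_assoc, ← mul_assoc (star x), ← mul_assoc]
    refine h2.trans (sub_le_self _ ?_)
    rw [Complex.coe_smul]
    exact smul_nonneg ht.le (res_nonneg q ht)
  rw [← CStarAlgebra.norm_le_one_iff_of_nonneg _ (star_mul_self_nonneg _),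
    CStarRing.norm_star_mul_self, ← CStarRing.norm_self_mul_star,
    CStarAlgebra.norm_le_one_iff_of_nonneg _ (mul_star_self_nonneg _), star_mul, hr.star_eq] at h1
  rwa [← hr', ← mul_assoc, mul_assoc _ r]

lemma IsTr.rank (h : IsTr τ) {κ : Type*} (s : Finset κ) {x b : κ → E} (hx : ∀ k ∈ s, b k * x k = x k)
    {t : ℝ} (ht : 0 < t) : (τ ((∑ k ∈ s, star (x k) * x k) * res (∑ k ∈ s, star (x k) * x k) t)).re ≤
      ∑ k ∈ s, (τ (b k * star (b k))).re := by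
  rw [Finset.sum_mul, map_sum, Complex.re_sum]
  refine Finset.sum_le_sum fun k hk => ?_
  have h1 := conj_res_le (Finset.single_le_sum (f := fun k => star (x k) * x k)
    (fun k _ => star_mul_self_nonneg _) hk) ht
  have h2 := pos_mono h.pos (star_right_conjugate_le_conjugate h1 (b k))
  rw [mul_one, ← mul_assoc, ← mul_assoc, hx k hk, mul_assoc, ← star_mul, hx k hk] at h2
  rwa [mul_assoc, h.comm]

theorem exists_lim {I : Type*} (U : Ultrafilter I) (θ : I → E →ₗ[ℂ] ℂ) {C : ℝ}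
    (h : ∀ i x, ‖θ i x‖ ≤ C * ‖x‖) :
    ∃ θ' : E →ₗ[ℂ] ℂ, ∀ x, Tendsto (fun i => θ i x) U (𝓝 (θ' x)) := by
  have h1 : ∀ x, ∃ z, Tendsto (fun i => θ i x) U (𝓝 z) := fun x => by
    obtain ⟨z, -, hz⟩ := (isCompact_closedBall (0 : ℂ) (C * ‖x‖)).ultrafilter_le_nhds
      (U.map fun i => θ i x) (by
        rw [Ultrafilter.coe_map, le_principal_iff, mem_map]
        exact Eventually.of_forall fun i => mem_closedBall_zero_iff.2 (h i x))
    exact ⟨z, hz⟩
  choose z hz using h1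
  exact ⟨{ toFun := z
           map_add' := fun x y => tendsto_nhds_unique (hz _) (by simpa using (hz x).add (hz y))
           map_smul' := fun c x => tendsto_nhds_unique (hz _)
             (by simpa using (hz x).const_mul c) }, hz⟩

lemma pos_lim {I : Type*} {l : Filter I} [l.NeBot] {θ : I → E →ₗ[ℂ] ℂ} {θ' : E →ₗ[ℂ] ℂ}
    (h : ∀ x, Tendsto (fun i => θ i x) l (𝓝 (θ' x))) (hθ : ∀ i, IsPos (θ i)) : IsPos θ' :=
  pos_of_re fun y => ⟨ge_of_tendsto' ((Complex.continuous_re.tendsto _).comp (h _)) fun i =>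
    (hθ i).re y, tendsto_nhds_unique ((Complex.continuous_im.tendsto _).comp (h _))
      (tendsto_const_nhds.congr fun i => ((hθ i).im y).symm)⟩

theorem exists_lim_st {I : Type*} (U : Ultrafilter I) {θ : I → E →ₗ[ℂ] ℂ} (h : ∀ i, IsState (θ i)) :
    ∃ θ' : E →ₗ[ℂ] ℂ, IsState θ' ∧ ∀ x, Tendsto (fun i => θ i x) U (𝓝 (θ' x)) := by
  obtain ⟨θ', h'⟩ := exists_lim U θ (C := 1) fun i x => by simpa using st_norm_le (h i) x
  exact ⟨θ', ⟨tendsto_nhds_unique (h' 1) (tendsto_const_nhds.congr fun i => (h i).1.symm),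
    pos_lim h' fun i => (h i).2⟩, h'⟩

theorem exists_lim_tr {I : Type*} (U : Ultrafilter I) {θ : I → E →ₗ[ℂ] ℂ} (h : ∀ i, IsTr (θ i)) :
    ∃ θ' : E →ₗ[ℂ] ℂ, IsTr θ' ∧ ∀ x, Tendsto (fun i => θ i x) U (𝓝 (θ' x)) := by
  obtain ⟨θ', h1, h'⟩ := exists_lim_st U fun i => (h i).st
  exact ⟨θ', ⟨h1, fun x y => tendsto_nhds_unique (h' _) ((h' _).congr fun i => (h i).comm _ _)⟩, h'⟩

end Vale.Agent.P095
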